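import Vale.Agent.P070.MathlibUsed

set_option linter.all false

section

section

namespace Vale.Agent.P070

open scoped InnerProductSpace
open Filter Topology

universe u v

/-- Bounded operators on a Hilbert space. -/
abbrev Op (H : Type*) [NormedAddCommGroup H] [InnerProductSpace ℂ H] := H →L[ℂ] H

section
variable {H : Type u} {K : Type v}
  [NormedAddCommGroup H] [InnerProductSpace ℂ H] [CompleteSpace H]
  [NormedAddCommGroup K] [InnerProductSpace ℂ K] [CompleteSpace K]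

/-- `x` is a scalar on the kernel of `k` in the representation `P`, compressed. -/
def DetAt (P : Op H →⋆ₐ[ℂ] Op K) (k x : Op H) (c : ℂ) : Prop :=
  ∀ z w : K, P k z = 0 → P k w = 0 → ⟪w, P x z⟫_ℂ = c * ⟪w, z⟫_ℂ

/-- every element of `G` is a scalar on the kernel of `k`. -/
def Det (P : Op H →⋆ₐ[ℂ] Op K) (k : Op H) (G : Set (Op H)) : Prop :=
  ∀ x ∈ G, ∃ c : ℂ, DetAt P k x c

/-- `G` does not connect the kernels of `k1` and `k2`. -/
def Ineq (P : Op H →⋆ₐ[ℂ] Op K) (k1 k2 : Op H) (G : Set (Op H)) : Prop :=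
  ∀ x ∈ G, ∀ z1 z2 : K, P k1 z1 = 0 → P k2 z2 = 0 → ⟪z2, P x z1⟫_ℂ = 0

/-- ultrapower representations. -/
def IsUltraRep (P : Op H →⋆ₐ[ℂ] Op K) : Prop :=
  ∃ mk : (ℕ → H) → K,
    (∀ x y : ℕ → H, (∃ C : ℝ, ∀ n, ‖x n‖ ≤ C) → (∃ C : ℝ, ∀ n, ‖y n‖ ≤ C) →
      Tendsto (fun n => ⟪x n, y n⟫_ℂ) (hyperfilter ℕ : Filter ℕ) (𝓝 ⟪mk x, mk y⟫_ℂ)) ∧
    (∀ (T : Op H) (x : ℕ → H), (∃ C : ℝ, ∀ n, ‖x n‖ ≤ C) →
      P T (mk x) = mk (fun n => T (x n)))

/-- cut-off function: `1` on `t ≤ 2^(-n-1)`, `0` on `t ≥ 2^(-n)`. -/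
noncomputable def cut (n : ℕ) (t : ℝ) : ℝ := max 0 (min 1 (2 - 2 ^ (n + 1) * t))

/-- cut-off of an operator by functional calculus. -/
noncomputable def cutOp (n : ℕ) (k : Op H) : Op H := cfc (cut n) k

/-- the hypotheses of the key construction. -/
structure Conf (P : Op H →⋆ₐ[ℂ] Op K) (A : StarSubalgebra ℂ (Op H))
    (k1 k2 : Op H) (ξ ζ : K) : Prop where
  k1_mem : k1 ∈ A
  k2_mem : k2 ∈ A
  k1_nonneg : 0 ≤ k1
  k2_nonneg : 0 ≤ k2
  k1_norm : ‖k1‖ ≤ 1
  k2_norm : ‖k2‖ ≤ 1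
  det1 : Det P k1 A
  det2 : Det P k2 A
  ineq : Ineq P k1 k2 A
  ξ_norm : ‖ξ‖ = 1
  ζ_norm : ‖ζ‖ = 1
  ξ_ker : P k1 ξ = 0
  ζ_ker : P k2 ζ = 0
  full1 : ∀ n, ∃ a ∈ A, P (cutOp n k2) (P a ξ) ≠ 0
  full2 : ∀ n, ∃ b ∈ A, P (cutOp n k1) (P b ζ) ≠ 0

/-- base data for the tower. `U` plays the role of the commutant. -/
structure IsBase (A0 : StarSubalgebra ℂ (Op H)) (k U : Op H) : Prop where
  closed : IsClosed (A0 : Set (Op H))
  countable : ∃ s : Set (Op H), s.Countable ∧ A0 = (StarAlgebra.adjoin ℂ s).topologicalClosure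
  k_mem : k ∈ A0
  k_nonneg : 0 ≤ k
  k_norm : ‖k‖ ≤ 1
  le_centralizer : A0 ≤ StarSubalgebra.centralizer ℂ {U}
  det : ∀ (K : Type u) [NormedAddCommGroup K] [InnerProductSpace ℂ K] [CompleteSpace K]
    (P : Op H →⋆ₐ[ℂ] Op K), Det P k A0
  full : ∀ (K : Type u) [NormedAddCommGroup K] [InnerProductSpace ℂ K] [CompleteSpace K]
    (P : Op H →⋆ₐ[ℂ] Op K) (z : K), z ≠ 0 → ∀ ε : ℝ, 0 < ε →
      ∃ b ∈ A0, P b z ≠ 0 ∧ ‖P k (P b z)‖ ≤ ε * ‖P b z‖
  inj : ∀ k' ∈ StarSubalgebra.centralizer ℂ {U},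
    (∀ a ∈ A0, ∃ c : ℂ, ∀ z w : H, k' z = 0 → k' w = 0 → ⟪w, a z⟫_ℂ = c * ⟪w, z⟫_ℂ) →
      ∀ z : H, k' z = 0 → z = 0
  infinite : ∀ (K : Type u) [NormedAddCommGroup K] [InnerProductSpace ℂ K] [CompleteSpace K]
    (P : Op H →⋆ₐ[ℂ] Op K) (z : K), ‖z‖ = 1 → P k z = 0 →
      ∃ e : ℕ → Op H, (∀ n, e n ∈ A0) ∧ Orthonormal ℂ (fun n => P (e n) z)

end

end Vale.Agent.P070
end
end

section

section

namespace Vale.Agent.P070

universe u v

/-- An irreducible representation of a C*-algebra `A` on the Hilbert space `L`: a nonzero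
`*`-homomorphism `A → B(L)` without closed invariant subspaces other than `0` and `L`. -/
def IsIrred {A : Type u} [NonUnitalCStarAlgebra A] {L : Type v} [NormedAddCommGroup L]
    [InnerProductSpace ℂ L] [CompleteSpace L] (π : A →⋆ₙₐ[ℂ] (L →L[ℂ] L)) : Prop :=
  (∃ a, π a ≠ 0) ∧ ∀ V : Submodule ℂ L, IsClosed (V : Set L) →
    (∀ a, ∀ x ∈ V, π a x ∈ V) → V = ⊥ ∨ V = ⊤

/-- Unitary equivalence of two representations. -/
def UnitEquiv {A : Type u} [NonUnitalCStarAlgebra A] {L M : Type v}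
    [NormedAddCommGroup L] [InnerProductSpace ℂ L] [CompleteSpace L]
    [NormedAddCommGroup M] [InnerProductSpace ℂ M] [CompleteSpace M]
    (π : A →⋆ₙₐ[ℂ] (L →L[ℂ] L)) (σ : A →⋆ₙₐ[ℂ] (M →L[ℂ] M)) : Prop :=
  ∃ W : L ≃ₗᵢ[ℂ] M, ∀ (a : A) (x : L), W (π a x) = σ a (W x)

/-- Property (N): `A ≠ 0` and any two irreducible representations of `A` are unitarily
equivalent. -/
def PropertyN (A : Type u) [NonUnitalCStarAlgebra A] : Prop :=
  Nontrivial A ∧ ∀ (L M : Type v)
    [NormedAddCommGroup L] [InnerProductSpace ℂ L] [CompleteSpace L]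
    [NormedAddCommGroup M] [InnerProductSpace ℂ M] [CompleteSpace M]
    (π : A →⋆ₙₐ[ℂ] (L →L[ℂ] L)) (σ : A →⋆ₙₐ[ℂ] (M →L[ℂ] M)),
    IsIrred π → IsIrred σ → UnitEquiv π σ

/-- `A` is `*`-isomorphic to the algebra `K(L)` of compact operators on a Hilbert space `L`. -/
def IsCompacts (A : Type u) [NonUnitalCStarAlgebra A] : Prop :=
  ∃ (L : Type v) (_ : NormedAddCommGroup L) (_ : InnerProductSpace ℂ L) (_ : CompleteSpace L)
    (f : A →⋆ₙₐ[ℂ] (L →L[ℂ] L)),
    Function.Injective f ∧ Set.range f = {T : L →L[ℂ] L | IsCompactOperator T}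

end Vale.Agent.P070
end
end

section

section

namespace Vale.Agent.P070

open scoped InnerProductSpace
open Filter Topology

universe u v

section

variable {B : Type u} [CStarAlgebra B]
  {L : Type v} [NormedAddCommGroup L] [InnerProductSpace ℂ L] [CompleteSpace L]
  {M : Type v} [NormedAddCommGroup M] [InnerProductSpace ℂ M] [CompleteSpace M]

/-- an irreducible representation of a unital C*-algebra is unital. -/
theorem IsIrred.map_one {π : B →⋆ₙₐ[ℂ] (L →L[ℂ] L)} (h : IsIrred π) : π 1 = 1 := by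
  obtain ⟨⟨a, ha⟩, hV⟩ := h
  have hidem : ∀ x : L, π 1 (π 1 x) = π 1 x := by
    intro x
    have : (π 1 * π 1) x = π 1 x := by rw [← map_mul, one_mul]
    simpa using this
  let V : Submodule ℂ L := LinearMap.ker ((1 - π 1 : L →L[ℂ] L) : L →ₗ[ℂ] L)
  have hVmem : ∀ x : L, x ∈ V ↔ π 1 x = x := by
    intro x
    simp only [V, LinearMap.mem_ker, ContinuousLinearMap.coe_coe, sub_apply, one_apply_eq_self, sub_eq_zero]
    exact eq_comm
  have hVcl : IsClosed (V : Set L) := ContinuousLinearMap.isClosed_ker (1 - π 1 : L →L[ℂ] L)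
  have hVinv : ∀ b : B, ∀ x ∈ V, π b x ∈ V := by
    intro b x _
    rw [hVmem]
    have : (π 1 * π b) x = π b x := by rw [← map_mul, one_mul]
    simpa using this
  rcases hV V hVcl hVinv with h0 | h1
  · exfalso
    apply ha
    ext x
    have h2 : π 1 x ∈ V := by rw [hVmem]; exact hidem x
    rw [h0, Submodule.mem_bot] at h2
    have h3 : (π a * π 1) x = π a x := by rw [← map_mul, mul_one]
    rw [← h3]
    simp [h2]
  · ext x
    have : x ∈ V := by rw [h1]; exact Submodule.mem_top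
    rw [hVmem] at this
    simpa using this

/-- the unital representation underlying an irreducible one -/
noncomputable def IsIrred.toUnital {π : B →⋆ₙₐ[ℂ] (L →L[ℂ] L)} (h : IsIrred π) :
    B →⋆ₐ[ℂ] (L →L[ℂ] L) where
  toFun := π
  map_one' := h.map_one
  map_mul' := map_mul π
  map_zero' := map_zero π
  map_add' := map_add π
  commutes' := by
    intro r
    rw [Algebra.algebraMap_eq_smul_one, map_smul, h.map_one, Algebra.algebraMap_eq_smul_one]
  map_star' := map_star π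

@[simp] theorem IsIrred.toUnital_apply {π : B →⋆ₙₐ[ℂ] (L →L[ℂ] L)} (h : IsIrred π) (b : B) :
    h.toUnital b = π b := rfl

/-- the orbit map of a vector -/
noncomputable def orbitMap (π : B →⋆ₙₐ[ℂ] (L →L[ℂ] L)) (z : L) : B →ₗ[ℂ] L where
  toFun b := π b z
  map_add' := by simp
  map_smul' := by simp

theorem dense_orbit {π : B →⋆ₙₐ[ℂ] (L →L[ℂ] L)} (h : IsIrred π) {z : L} (hz : z ≠ 0) :
    DenseRange (orbitMap π z) := by
  have hinv : ∀ b : B, ∀ x ∈ (LinearMap.range (orbitMap π z)).topologicalClosure,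
      π b x ∈ (LinearMap.range (orbitMap π z)).topologicalClosure := by
    intro b x hx
    have hmaps : Set.MapsTo (π b) (LinearMap.range (orbitMap π z) : Set L)
        (LinearMap.range (orbitMap π z) : Set L) := by
      rintro _ ⟨c, rfl⟩
      refine ⟨b * c, ?_⟩
      simp [orbitMap]
    exact hmaps.closure (π b).continuous hx
  rcases h.2 _ (Submodule.isClosed_topologicalClosure _) hinv with h0 | h1
  · exfalso
    apply hz
    have : z ∈ (LinearMap.range (orbitMap π z)).topologicalClosure := by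
      apply Submodule.le_topologicalClosure
      refine ⟨1, ?_⟩
      simp [orbitMap, h.map_one]
    rw [h0] at this
    simpa using this
  · intro x
    have : x ∈ (LinearMap.range (orbitMap π z)).topologicalClosure := by
      rw [h1]; exact Submodule.mem_top
    exact this

/-- Two irreducible representations with unit vectors inducing the same state are unitarily
equivalent. -/
theorem unitEquiv_of_state {π : B →⋆ₙₐ[ℂ] (L →L[ℂ] L)} {σ : B →⋆ₙₐ[ℂ] (M →L[ℂ] M)}
    (hπ : IsIrred π) (hσ : IsIrred σ) {z : L} {w : M} (hz : z ≠ 0) (hw : w ≠ 0)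
    (h : ∀ b, ⟪z, π b z⟫_ℂ = ⟪w, σ b w⟫_ℂ) : UnitEquiv π σ := by
  have hnorm : ∀ b : B, ‖orbitMap σ w (LinearEquiv.refl ℂ B b)‖ = ‖orbitMap π z b‖ := by
    intro b
    have h1 : ∀ {N : Type v} [NormedAddCommGroup N] [InnerProductSpace ℂ N] [CompleteSpace N]
        (ρ : B →⋆ₙₐ[ℂ] (N →L[ℂ] N)) (y : N),
        ((‖ρ b y‖ : ℂ)) ^ 2 = ⟪y, ρ (star b * b) y⟫_ℂ := by
      intro N _ _ _ ρ y
      rw [map_mul, map_star, mul_apply_eq_comp, ContinuousLinearMap.star_eq_adjoint,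
        ContinuousLinearMap.adjoint_inner_right, inner_self_eq_norm_sq_to_K]
      rfl
    have h2 : ((‖σ b w‖ : ℂ)) ^ 2 = ((‖π b z‖ : ℂ)) ^ 2 := by
      rw [h1 σ w, h1 π z, h]
    have h3 : ‖σ b w‖ ^ 2 = ‖π b z‖ ^ 2 := by exact_mod_cast h2
    have h4 : ‖σ b w‖ = ‖π b z‖ :=
      (sq_eq_sq₀ (norm_nonneg _) (norm_nonneg _)).mp h3
    simpa [orbitMap] using h4
  let W : L ≃ₗᵢ[ℂ] M := (LinearEquiv.refl ℂ B).extendOfIsometry (orbitMap π z) (orbitMap σ w)
    (dense_orbit hπ hz) (dense_orbit hσ hw) hnorm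
  have hW : ∀ b : B, W (π b z) = σ b w := fun b =>
    LinearEquiv.extendOfIsometry_eq (LinearEquiv.refl ℂ B) (orbitMap π z) (orbitMap σ w)
      (dense_orbit hπ hz) (dense_orbit hσ hw) hnorm b
  refine ⟨W, fun a x => ?_⟩
  refine (dense_orbit hπ hz).induction_on (p := fun x => W (π a x) = σ a (W x)) x
    (isClosed_eq (by fun_prop) (by fun_prop)) ?_
  intro b
  have e1 : orbitMap π z b = π b z := rfl
  have e2 : π a (π b z) = π (a * b) z := by simp
  have e3 : σ a (σ b w) = σ (a * b) w := by simp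
  rw [e1, e2, hW, hW, e3]

theorem propertyN_of_determined [Nontrivial B] (kap : B) (c : B → ℂ)
    (hdet : ∀ (L : Type v) [NormedAddCommGroup L] [InnerProductSpace ℂ L] [CompleteSpace L]
      (π : B →⋆ₐ[ℂ] (L →L[ℂ] L)) (b : B) (z w : L), π kap z = 0 → π kap w = 0 →
      ⟪w, π b z⟫_ℂ = c b * ⟪w, z⟫_ℂ)
    (hker : ∀ (L : Type v) [NormedAddCommGroup L] [InnerProductSpace ℂ L] [CompleteSpace L]
      (π : B →⋆ₐ[ℂ] (L →L[ℂ] L)), Nontrivial L →
      (∀ V : Submodule ℂ L, IsClosed (V : Set L) → (∀ b, ∀ x ∈ V, π b x ∈ V) →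
        V = ⊥ ∨ V = ⊤) → ∃ z : L, z ≠ 0 ∧ π kap z = 0) : PropertyN.{u, v} B := by
  refine ⟨inferInstance, ?_⟩
  intro L M _ _ _ _ _ _ π σ hπ hσ
  have hnt : ∀ {N : Type v} [NormedAddCommGroup N] [InnerProductSpace ℂ N] [CompleteSpace N]
      {ρ : B →⋆ₙₐ[ℂ] (N →L[ℂ] N)}, IsIrred ρ → Nontrivial N := by
    intro N _ _ _ ρ hρ
    obtain ⟨a, ha⟩ := hρ.1
    by_contra hN
    rw [not_nontrivial_iff_subsingleton] at hN
    exact ha (Subsingleton.elim _ _)
  have key : ∀ {N : Type v} [NormedAddCommGroup N] [InnerProductSpace ℂ N] [CompleteSpace N]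
      {ρ : B →⋆ₙₐ[ℂ] (N →L[ℂ] N)}, IsIrred ρ →
      ∃ z : N, ‖z‖ = 1 ∧ ∀ b, ⟪z, ρ b z⟫_ℂ = c b := by
    intro N _ _ _ ρ hρ
    obtain ⟨z, hz, hkz⟩ := hker N hρ.toUnital (hnt hρ) (by
      intro V hV hinv
      exact hρ.2 V hV hinv)
    refine ⟨((‖z‖⁻¹ : ℝ) : ℂ) • z, ?_, ?_⟩
    · rw [norm_smul]
      simp [hz]
    · intro b
      have h1 := hdet N hρ.toUnital b (((‖z‖⁻¹ : ℝ) : ℂ) • z) (((‖z‖⁻¹ : ℝ) : ℂ) • z)
        (by rw [map_smul, hkz, smul_zero]) (by rw [map_smul, hkz, smul_zero])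
      have h2 : ‖((‖z‖⁻¹ : ℝ) : ℂ) • z‖ = 1 := by
        rw [norm_smul]
        simp [hz]
      rw [IsIrred.toUnital_apply] at h1
      rw [h1, inner_self_eq_norm_sq_to_K, h2]
      simp
  obtain ⟨z, hz1, hz⟩ := key hπ
  obtain ⟨w, hw1, hw⟩ := key hσ
  exact unitEquiv_of_state (z := z) (w := w) hπ hσ (by intro h0; simp [h0] at hz1) (by intro h0; simp [h0] at hw1)
    (fun b => by rw [hz, hw])

theorem not_isCompacts (hinf : ¬ FiniteDimensional ℂ B) : ¬ IsCompacts.{u, v} B := by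
  rintro ⟨L, _, _, _, f, hinj, hrange⟩
  apply hinf
  -- the unit acts as the identity on the range of compact operators
  have hone : ∀ T : L →L[ℂ] L, IsCompactOperator T → f 1 * T = T := by
    intro T hT
    have : T ∈ Set.range f := by rw [hrange]; exact hT
    obtain ⟨b, rfl⟩ := this
    rw [← map_mul, one_mul]
  have hid : f 1 = 1 := by
    ext x
    by_cases hx : x = 0
    · simp [hx]
    · have hc : IsCompactOperator (InnerProductSpace.rankOne ℂ x x : L →L[ℂ] L) := by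
        rw [InnerProductSpace.rankOne_def']
        have h0 : IsCompactOperator (ContinuousLinearMap.toSpanSingleton ℂ x : ℂ →L[ℂ] L) :=
          isCompactOperator_of_locallyCompactSpace_rng _
        exact h0.comp_clm (innerSL ℂ x)
      have h1 := hone _ hc
      have h2 : (f 1 * InnerProductSpace.rankOne ℂ x x) x = InnerProductSpace.rankOne ℂ x x x := by
        rw [h1]
      rw [mul_apply_eq_comp, InnerProductSpace.rankOne_apply, map_smul] at h2
      have h3 : ⟪x, x⟫_ℂ ≠ 0 := inner_self_ne_zero.mpr hx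
      exact smul_right_injective _ h3 h2
  have hcomp : IsCompactOperator (id : L → L) := by
    have : (1 : L →L[ℂ] L) ∈ {T : L →L[ℂ] L | IsCompactOperator T} := by
      rw [← hrange]; exact ⟨1, hid⟩
    exact this
  have hfin : FiniteDimensional ℂ L := FiniteDimensional.of_isCompactOperator_id hcomp
  have hfin2 : FiniteDimensional ℂ (L →L[ℂ] L) := inferInstance
  let g : B →ₗ[ℂ] (L →L[ℂ] L) :=
    { toFun := f
      map_add' := map_add f
      map_smul' := fun r x => map_smul f r x }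
  exact FiniteDimensional.of_injective g hinj

/-- A cyclic representation whose cyclic vector is killed by `kap`, where every element is a
scalar on the kernel of `kap`, is irreducible. -/
theorem irred_of_determined {B : Type u} [NonUnitalCStarAlgebra B]
    {L : Type v} [NormedAddCommGroup L] [InnerProductSpace ℂ L] [CompleteSpace L]
    (ρ : B →⋆ₙₐ[ℂ] (L →L[ℂ] L)) (kap : B) (ξ : L) (hξ : ξ ≠ 0) (hk : ρ kap ξ = 0)
    (hcyc : DenseRange (fun b => ρ b ξ))
    (hdet : ∀ b : B, ∃ c : ℂ, ∀ z w : L, ρ kap z = 0 → ρ kap w = 0 →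
      ⟪w, ρ b z⟫_ℂ = c * ⟪w, z⟫_ℂ) : IsIrred ρ := by
  constructor
  · by_contra hcon
    push Not at hcon
    have h0 : ∀ x ∈ Set.range (fun b => ρ b ξ), x = 0 := by
      rintro _ ⟨b, rfl⟩
      simp [hcon b]
    have h1 : ξ ∈ closure (Set.range (fun b => ρ b ξ)) := hcyc ξ
    have h2 : Set.range (fun b => ρ b ξ) ⊆ {0} := fun x hx => h0 x hx
    have h3 := closure_mono h2 h1
    rw [closure_singleton] at h3
    exact hξ h3
  · intro V hV hinv
    have : CompleteSpace V := hV.completeSpace_coe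
    -- decompose the cyclic vector
    obtain ⟨x, hx, y, hy, hxy⟩ := Submodule.exists_add_mem_mem_orthogonal (K := V) ξ
    have hinv' : ∀ b : B, ∀ v ∈ Vᗮ, ρ b v ∈ Vᗮ := by
      intro b v hv
      rw [Submodule.mem_orthogonal]
      intro u hu
      have h1 : ⟪ρ (star b) u, v⟫_ℂ = 0 :=
        (Submodule.mem_orthogonal V v).mp hv _ (hinv (star b) u hu)
      rw [map_star, ContinuousLinearMap.star_eq_adjoint,
        ContinuousLinearMap.adjoint_inner_left] at h1
      exact h1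
    have hkx : ρ kap x = 0 ∧ ρ kap y = 0 := by
      have h1 : ρ kap x + ρ kap y = 0 := by rw [← map_add, ← hxy, hk]
      have h2 : ρ kap x ∈ V := hinv _ _ hx
      have h3 : ρ kap y ∈ Vᗮ := hinv' _ _ hy
      have h4 : ρ kap x ∈ Vᗮ := by
        have : ρ kap x = -ρ kap y := eq_neg_of_add_eq_zero_left h1
        rw [this]
        exact Submodule.neg_mem _ h3
      have h5 : ρ kap x = 0 := by
        have := Submodule.inner_right_of_mem_orthogonal h2 h4
        exact inner_self_eq_zero.mp this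
      exact ⟨h5, by simpa [h5] using h1⟩
    -- the norms of `b x` and `b y` are proportional
    have hnorm : ∀ b : B, ‖ρ b y‖ ^ 2 * ‖x‖ ^ 2 = ‖ρ b x‖ ^ 2 * ‖y‖ ^ 2 := by
      intro b
      obtain ⟨c, hc⟩ := hdet (star b * b)
      have h1 : ∀ v : L, ρ kap v = 0 → ((‖ρ b v‖ : ℂ)) ^ 2 = c * ((‖v‖ : ℂ)) ^ 2 := by
        intro v hv
        have h2 := hc v v hv hv
        rw [map_mul, map_star, mul_apply_eq_comp, ContinuousLinearMap.star_eq_adjoint,
          ContinuousLinearMap.adjoint_inner_right, inner_self_eq_norm_sq_to_K,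
          inner_self_eq_norm_sq_to_K] at h2
        exact h2
      have h3 := h1 x hkx.1
      have h4 := h1 y hkx.2
      have h5 : ((‖ρ b y‖ : ℂ)) ^ 2 * ((‖x‖ : ℂ)) ^ 2 = ((‖ρ b x‖ : ℂ)) ^ 2 * ((‖y‖ : ℂ)) ^ 2 := by
        rw [h3, h4]; ring
      exact_mod_cast h5
    have hzero : x = 0 ∨ y = 0 := by
      by_contra hcon
      push Not at hcon
      obtain ⟨hx0, hy0⟩ := hcon
      have hxn : 0 < ‖x‖ := norm_pos_iff.mpr hx0
      have hyn : 0 < ‖y‖ := norm_pos_iff.mpr hy0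
      -- approximate `x` by `b ξ`
      have hclose : ∀ ε : ℝ, 0 < ε → ∃ b : B, ‖ρ b x - x‖ ≤ ε ∧ ‖ρ b y‖ ≤ ε := by
        intro ε hε
        obtain ⟨b, hb⟩ := (hcyc.exists_dist_lt x hε)
        refine ⟨b, ?_⟩
        have h1 : ρ b ξ - x = (ρ b x - x) + ρ b y := by rw [hxy, map_add]; abel
        have h2 : ⟪ρ b x - x, ρ b y⟫_ℂ = 0 :=
          Submodule.inner_right_of_mem_orthogonal (Submodule.sub_mem _ (hinv b x hx) hx)
            (hinv' b y hy)
        have h3 : ‖ρ b ξ - x‖ * ‖ρ b ξ - x‖ = ‖ρ b x - x‖ * ‖ρ b x - x‖ + ‖ρ b y‖ * ‖ρ b y‖ := by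
          rw [h1]
          exact norm_add_sq_eq_norm_sq_add_norm_sq_of_inner_eq_zero _ _ h2
        have h4 : ‖ρ b ξ - x‖ ≤ ε := by
          rw [← dist_eq_norm, dist_comm]; exact hb.le
        constructor
        · nlinarith [norm_nonneg (ρ b ξ - x), norm_nonneg (ρ b x - x), norm_nonneg (ρ b y)]
        · nlinarith [norm_nonneg (ρ b ξ - x), norm_nonneg (ρ b x - x), norm_nonneg (ρ b y)]
      obtain ⟨b, hb1, hb2⟩ := hclose (min (‖x‖ / 2) (‖y‖ / 4)) (by positivity)
      have hb3 : ‖x‖ / 2 ≤ ‖ρ b x‖ := by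
        have h1 : ‖x‖ ≤ ‖ρ b x‖ + ‖ρ b x - x‖ := by
          have := norm_sub_le (ρ b x) (ρ b x - x)
          simpa using this
        have h2 : ‖ρ b x - x‖ ≤ ‖x‖ / 2 := hb1.trans (min_le_left _ _)
        linarith
      have hb4 : ‖ρ b y‖ ≤ ‖y‖ / 4 := hb2.trans (min_le_right _ _)
      have h6 := hnorm b
      have h7 : ‖ρ b y‖ ^ 2 * ‖x‖ ^ 2 ≤ (‖y‖ / 4) ^ 2 * ‖x‖ ^ 2 := by gcongr
      have h8 : (‖x‖ / 2) ^ 2 * ‖y‖ ^ 2 ≤ ‖ρ b x‖ ^ 2 * ‖y‖ ^ 2 := by gcongr
      have h9 : 0 < ‖x‖ ^ 2 * ‖y‖ ^ 2 := by positivity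
      nlinarith
    rcases hzero with h0 | h0
    · left
      have hξV : ξ ∈ Vᗮ := by rw [hxy, h0, zero_add]; exact hy
      have hsub : Set.range (fun b => ρ b ξ) ⊆ (Vᗮ : Set L) := by
        rintro _ ⟨b, rfl⟩
        exact hinv' b ξ hξV
      have htop : ∀ v : L, v ∈ Vᗮ := by
        intro v
        have h1 : v ∈ closure (Set.range (fun b => ρ b ξ)) := hcyc v
        exact (Submodule.isClosed_orthogonal V).closure_subset_iff.mpr hsub h1
      rw [Submodule.eq_bot_iff]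
      intro v hv
      have := Submodule.inner_right_of_mem_orthogonal hv (htop v)
      exact inner_self_eq_zero.mp this
    · right
      have hξV : ξ ∈ V := by rw [hxy, h0, add_zero]; exact hx
      have hsub : Set.range (fun b => ρ b ξ) ⊆ (V : Set L) := by
        rintro _ ⟨b, rfl⟩
        exact hinv b ξ hξV
      rw [Submodule.eq_top_iff']
      intro v
      have h1 : v ∈ closure (Set.range (fun b => ρ b ξ)) := hcyc v
      exact hV.closure_subset_iff.mpr hsub h1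

end

end Vale.Agent.P070
end
end

section

section

/-!
# The ultrapower representation of `B(H)`
-/

namespace Vale.Agent.P070

open scoped InnerProductSpace ComplexOrder
open Filter Topology UniformSpace Completion

universe u

/-- the limit along the hyperfilter. -/
noncomputable def ulim (f : ℕ → ℂ) : ℂ := limUnder (hyperfilter ℕ : Filter ℕ) f

theorem tendsto_ulim {f : ℕ → ℂ} (hf : ∃ C : ℝ, ∀ n, ‖f n‖ ≤ C) :
    Tendsto f (hyperfilter ℕ : Filter ℕ) (𝓝 (ulim f)) := by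
  obtain ⟨C, hC⟩ := hf
  have hK : IsCompact (Metric.closedBall (0 : ℂ) C) := isCompact_closedBall 0 C
  have hle : ((hyperfilter ℕ).map f : Filter ℂ) ≤ 𝓟 (Metric.closedBall (0 : ℂ) C) := by
    rw [le_principal_iff]
    refine mem_map.2 (univ_mem' fun n => ?_)
    simpa [Metric.mem_closedBall, dist_zero_right] using hC n
  obtain ⟨z, -, hz⟩ := hK.ultrafilter_le_nhds _ hle
  exact tendsto_nhds_limUnder ⟨z, hz⟩

theorem ulim_eq {f : ℕ → ℂ} {c : ℂ} (h : Tendsto f (hyperfilter ℕ : Filter ℕ) (𝓝 c)) :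
    ulim f = c := h.limUnder_eq

section Ultra
variable (H : Type u) [NormedAddCommGroup H] [InnerProductSpace ℂ H]

/-- bounded sequences as a submodule. -/
def bddSeq : Submodule ℂ (ℕ → H) where
  carrier := {x | ∃ C : ℝ, ∀ n, ‖x n‖ ≤ C}
  add_mem' := by
    rintro x y ⟨C, hC⟩ ⟨D, hD⟩
    exact ⟨C + D, fun n => (norm_add_le _ _).trans (add_le_add (hC n) (hD n))⟩
  zero_mem' := ⟨0, by simp⟩
  smul_mem' := by
    rintro c x ⟨C, hC⟩
    refine ⟨‖c‖ * C, fun n => ?_⟩
    rw [Pi.smul_apply, norm_smul]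
    exact mul_le_mul_of_nonneg_left (hC n) (norm_nonneg _)

/-- type synonym: bounded sequences with the limit inner product. -/
def PreUltra : Type u := bddSeq H

instance : AddCommGroup (PreUltra H) := inferInstanceAs (AddCommGroup (bddSeq H))
instance : Module ℂ (PreUltra H) := inferInstanceAs (Module ℂ (bddSeq H))

variable {H}

/-- the coordinates of an element of `PreUltra H`. -/
def PreUltra.coord (x : PreUltra H) : ℕ → H := (show bddSeq H from x).1

/-- build an element of `PreUltra H`. -/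
def PreUltra.of (x : ℕ → H) (hx : ∃ C : ℝ, ∀ n, ‖x n‖ ≤ C) : PreUltra H :=
  show bddSeq H from ⟨x, hx⟩

namespace PreUltra

theorem bdd (x : PreUltra H) : ∃ C : ℝ, ∀ n, ‖x.coord n‖ ≤ C := (show bddSeq H from x).2

@[ext] theorem ext' {x y : PreUltra H} (h : ∀ n, x.coord n = y.coord n) : x = y :=
  Subtype.ext (funext h)

@[simp] theorem coord_of (x : ℕ → H) (hx) (n : ℕ) : (of x hx).coord n = x n := rfl
@[simp] theorem coord_add (x y : PreUltra H) (n : ℕ) :
    (x + y).coord n = x.coord n + y.coord n := rfl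
@[simp] theorem coord_smul (c : ℂ) (x : PreUltra H) (n : ℕ) :
    (c • x).coord n = c • x.coord n := rfl

theorem bdd_inner (x y : PreUltra H) : ∃ C : ℝ, ∀ n, ‖⟪x.coord n, y.coord n⟫_ℂ‖ ≤ C := by
  obtain ⟨C, hC⟩ := x.bdd
  obtain ⟨D, hD⟩ := y.bdd
  refine ⟨C * D, fun n => (norm_inner_le_norm _ _).trans ?_⟩
  exact mul_le_mul (hC n) (hD n) (norm_nonneg _) ((norm_nonneg _).trans (hC n))

theorem tendsto_inner (x y : PreUltra H) :
    Tendsto (fun n => ⟪x.coord n, y.coord n⟫_ℂ) (hyperfilter ℕ : Filter ℕ)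
      (𝓝 (ulim fun n => ⟪x.coord n, y.coord n⟫_ℂ)) := tendsto_ulim (bdd_inner x y)

end PreUltra

/-- the pre-inner product. -/
noncomputable abbrev preUltraCore : PreInnerProductSpace.Core ℂ (PreUltra H) where
  inner x y := ulim fun n => ⟪x.coord n, y.coord n⟫_ℂ
  conj_inner_symm x y := by
    symm
    apply ulim_eq
    have h := (PreUltra.tendsto_inner y x).star
    refine (tendsto_congr fun n => ?_).1 h
    simp
  re_inner_nonneg x := by
    have h := (PreUltra.tendsto_inner x x)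
    have h2 := (Complex.continuous_re.tendsto _).comp h
    refine ge_of_tendsto h2 (Eventually.of_forall fun n => ?_)
    exact inner_self_nonneg (𝕜 := ℂ) (x := x.coord n)
  add_left x y z := by
    apply ulim_eq
    have h := (PreUltra.tendsto_inner x z).add (PreUltra.tendsto_inner y z)
    refine (tendsto_congr fun n => ?_).1 h
    rw [PreUltra.coord_add, inner_add_left]
  smul_left x y r := by
    apply ulim_eq
    have h := (PreUltra.tendsto_inner x y).const_mul ((starRingEnd ℂ) r)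
    refine (tendsto_congr fun n => ?_).1 h
    rw [PreUltra.coord_smul, inner_smul_left]

noncomputable instance : SeminormedAddCommGroup (PreUltra H) :=
  InnerProductSpace.Core.toSeminormedAddCommGroup (c := preUltraCore)
noncomputable instance : InnerProductSpace ℂ (PreUltra H) :=
  InnerProductSpace.ofCore preUltraCore

theorem PreUltra.inner_def (x y : PreUltra H) :
    ⟪x, y⟫_ℂ = ulim fun n => ⟪x.coord n, y.coord n⟫_ℂ := rfl

theorem PreUltra.tendsto_inner' (x y : PreUltra H) :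
    Tendsto (fun n => ⟪x.coord n, y.coord n⟫_ℂ) (hyperfilter ℕ : Filter ℕ) (𝓝 ⟪x, y⟫_ℂ) :=
  PreUltra.tendsto_inner x y

theorem PreUltra.bdd_map (T : Op H) (x : PreUltra H) : ∃ C : ℝ, ∀ n, ‖T (x.coord n)‖ ≤ C := by
  obtain ⟨C, hC⟩ := x.bdd
  exact ⟨‖T‖ * C, fun n => (T.le_opNorm _).trans
    (mul_le_mul_of_nonneg_left (hC n) (norm_nonneg _))⟩

/-- the operator on `PreUltra H` as a linear map. -/
def preUltraLin (T : Op H) : PreUltra H →ₗ[ℂ] PreUltra H where
  toFun x := PreUltra.of (fun n => T (x.coord n)) (PreUltra.bdd_map T x)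
  map_add' x y := by ext n; simp
  map_smul' c x := by ext n; simp

@[simp] theorem preUltraLin_coord (T : Op H) (x : PreUltra H) (n : ℕ) :
    (preUltraLin T x).coord n = T (x.coord n) := rfl

theorem preUltraLin_norm_le (T : Op H) (x : PreUltra H) :
    ‖preUltraLin T x‖ ≤ ‖T‖ * ‖x‖ := by
  rw [← sq_le_sq₀ (norm_nonneg _) (by positivity), mul_pow]
  have h1 := PreUltra.tendsto_inner' (preUltraLin T x) (preUltraLin T x)
  have h2 := (PreUltra.tendsto_inner' x x).const_mul ((‖T‖ : ℂ) ^ 2)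
  have h1' := (Complex.continuous_re.tendsto _).comp h1
  have h2' := (Complex.continuous_re.tendsto _).comp h2
  have hle := le_of_tendsto_of_tendsto' h1' h2' (fun n => by
    simp only [Function.comp_apply, preUltraLin_coord]
    rw [inner_self_eq_norm_sq_to_K, inner_self_eq_norm_sq_to_K]
    have : (‖T‖ : ℂ) ^ 2 * ((‖x.coord n‖ : ℝ) : ℂ) ^ 2
        = (((‖T‖ * ‖x.coord n‖) ^ 2 : ℝ) : ℂ) := by push_cast; ring
    have h3 : (((‖T (x.coord n)‖ : ℝ) : ℂ)) ^ 2 = (((‖T (x.coord n)‖) ^ 2 : ℝ) : ℂ) := by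
      push_cast; ring
    have e1 : ((((‖T (x.coord n)‖ : ℝ) : ℂ)) ^ 2).re = ‖T (x.coord n)‖ ^ 2 := by
      rw [h3, Complex.ofReal_re]
    have e2 : ((‖T‖ : ℂ) ^ 2 * ((‖x.coord n‖ : ℝ) : ℂ) ^ 2).re = (‖T‖ * ‖x.coord n‖) ^ 2 := by
      rw [this, Complex.ofReal_re]
    refine (e1.le.trans ?_).trans e2.ge
    exact pow_le_pow_left₀ (norm_nonneg _) (T.le_opNorm _) 2)
  rw [inner_self_eq_norm_sq_to_K, inner_self_eq_norm_sq_to_K] at hle
  have e1 : ((((‖preUltraLin T x‖ : ℝ) : ℂ)) ^ 2).re = ‖preUltraLin T x‖ ^ 2 := by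
    rw [← Complex.ofReal_pow, Complex.ofReal_re]
  have e2 : ((‖T‖ : ℂ) ^ 2 * ((‖x‖ : ℝ) : ℂ) ^ 2).re = ‖T‖ ^ 2 * ‖x‖ ^ 2 := by
    rw [← Complex.ofReal_pow, ← Complex.ofReal_pow, ← Complex.ofReal_mul, Complex.ofReal_re]
  exact e1.ge.trans (hle.trans e2.le)

/-- the operator on `PreUltra H` as a continuous linear map. -/
noncomputable def preUltraMap (T : Op H) : PreUltra H →L[ℂ] PreUltra H :=
  (preUltraLin T).mkContinuous ‖T‖ (preUltraLin_norm_le T)

@[simp] theorem preUltraMap_coord (T : Op H) (x : PreUltra H) (n : ℕ) :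
    (preUltraMap T x).coord n = T (x.coord n) := rfl

theorem preUltraMap_mul (S T : Op H) (x : PreUltra H) :
    preUltraMap (S * T) x = preUltraMap S (preUltraMap T x) := by ext n; simp

theorem preUltraMap_one (x : PreUltra H) : preUltraMap (1 : Op H) x = x := by ext n; simp

theorem preUltraMap_add (S T : Op H) (x : PreUltra H) :
    preUltraMap (S + T) x = preUltraMap S x + preUltraMap T x := by ext n; simp

theorem preUltraMap_smul (c : ℂ) (T : Op H) (x : PreUltra H) :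
    preUltraMap (c • T) x = c • preUltraMap T x := by ext n; simp

variable [CompleteSpace H]

theorem preUltraMap_inner (T : Op H) (x y : PreUltra H) :
    ⟪preUltraMap (star T) x, y⟫_ℂ = ⟪x, preUltraMap T y⟫_ℂ := by
  rw [PreUltra.inner_def, PreUltra.inner_def]
  congr 1
  funext n
  simp [ContinuousLinearMap.star_eq_adjoint, ContinuousLinearMap.adjoint_inner_left]

/-- the ultrapower representation. -/
noncomputable def ultraRep :
    Op H →⋆ₐ[ℂ] Op (UniformSpace.Completion (PreUltra H)) where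
  toFun T := (preUltraMap T).completion
  map_one' := by
    ext c
    induction c using induction_on with
      | hp => apply isClosed_eq <;> fun_prop
      | ih c => simp [preUltraMap_one]
  map_mul' S T := by
    ext c
    induction c using induction_on with
      | hp => apply isClosed_eq <;> fun_prop
      | ih c => simp [preUltraMap_mul]
  map_zero' := by
    ext c
    induction c using induction_on with
      | hp => apply isClosed_eq <;> fun_prop
      | ih c =>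
        have : preUltraMap (0 : Op H) c = 0 := by
          have := preUltraMap_smul 0 (0 : Op H) c
          simpa using this
        simp only [ContinuousLinearMap.completion_apply_coe, this]
        exact Completion.coe_zero
  map_add' S T := by
    ext c
    induction c using induction_on with
      | hp => apply isClosed_eq <;> fun_prop
      | ih c => simp [preUltraMap_add, Completion.coe_add]
  commutes' r := by
    ext c
    induction c using induction_on with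
      | hp => apply isClosed_eq <;> fun_prop
      | ih c =>
        have : preUltraMap (algebraMap ℂ (Op H) r) c = r • c := by
          rw [Algebra.algebraMap_eq_smul_one, preUltraMap_smul, preUltraMap_one]
        rw [ContinuousLinearMap.completion_apply_coe, this, Completion.coe_smul,
          Algebra.algebraMap_eq_smul_one]
        rfl
  map_star' T := by
    refine (ContinuousLinearMap.eq_adjoint_iff (preUltraMap (star T)).completion
      (preUltraMap T).completion).mpr ?_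
    intro x y
    induction x, y using induction_on₂ with
    | hp => apply isClosed_eq <;> fun_prop
    | ih x y => simp [preUltraMap_inner]

theorem ultraRep_coe (T : Op H) (x : PreUltra H) :
    ultraRep T (x : UniformSpace.Completion (PreUltra H))
      = ((preUltraMap T x : PreUltra H) : UniformSpace.Completion (PreUltra H)) := by
  simp [ultraRep]

end Ultra

theorem exists_ultraRep (H : Type u) [NormedAddCommGroup H] [InnerProductSpace ℂ H]
    [CompleteSpace H] :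
    ∃ (K : Type u) (_ : NormedAddCommGroup K) (_ : InnerProductSpace ℂ K) (_ : CompleteSpace K)
      (P : Op H →⋆ₐ[ℂ] Op K), IsUltraRep P := by
  classical
  refine ⟨UniformSpace.Completion (PreUltra H), inferInstance, inferInstance, inferInstance,
    ultraRep, fun x => if hx : ∃ C : ℝ, ∀ n, ‖x n‖ ≤ C then
      ((PreUltra.of x hx : PreUltra H) : UniformSpace.Completion (PreUltra H)) else 0, ?_, ?_⟩
  · intro x y hx hy
    beta_reduce
    rw [dif_pos hx, dif_pos hy, UniformSpace.Completion.inner_coe]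
    exact PreUltra.tendsto_inner' (PreUltra.of x hx) (PreUltra.of y hy)
  · intro T x hx
    have hTx : ∃ C : ℝ, ∀ n, ‖T (x n)‖ ≤ C := PreUltra.bdd_map T (PreUltra.of x hx)
    beta_reduce
    rw [dif_pos hx, dif_pos hTx, ultraRep_coe]
    rfl

end Vale.Agent.P070
end
end

section

section

namespace Vale.Agent.P070

open scoped InnerProductSpace
open Filter Topology

universe u v

section
variable {H : Type u} {K : Type v}
  [NormedAddCommGroup H] [InnerProductSpace ℂ H] [CompleteSpace H]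
  [NormedAddCommGroup K] [InnerProductSpace ℂ K] [CompleteSpace K]

/-- the relations between the generators of the base algebra -/
structure Rel (a : ℕ → Op H) (U : Op H) : Prop where
  sq : ∀ i, a i * a i = 0
  car : ∀ i, a i * star (a i) + star (a i) * a i = 1
  comm : ∀ i j, i ≠ j → a i * a j = a j * a i
  comm' : ∀ i j, i ≠ j → a i * star (a j) = star (a j) * a i
  U_comm : ∀ i, U * a i = a i * U
  U_comm' : ∀ i, U * star (a i) = star (a i) * U

variable {a : ℕ → Op H} {U : Op H} (P : Op H →⋆ₐ[ℂ] Op K)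

lemma inner_star_apply (x : Op H) (w z : K) : ⟪w, P (star x) z⟫_ℂ = ⟪P x w, z⟫_ℂ := by
  rw [map_star, ContinuousLinearMap.star_eq_adjoint, ContinuousLinearMap.adjoint_inner_right]

lemma map_mul_apply (x y : Op H) (z : K) : P (x * y) z = P x (P y z) := by
  rw [map_mul]; rfl

lemma norm_map_apply_le (x : Op H) (z : K) : ‖P x z‖ ≤ ‖x‖ * ‖z‖ :=
  ((P x).le_opNorm z).trans
    (mul_le_mul_of_nonneg_right (NonUnitalStarAlgHom.norm_apply_le P x) (norm_nonneg z))

namespace Rel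

variable (R : Rel a U)
include R

lemma norm_sq_add (i : ℕ) (z : K) : ‖P (a i) z‖ ^ 2 + ‖P (star (a i)) z‖ ^ 2 = ‖z‖ ^ 2 := by
  have h1 : P (a i * star (a i) + star (a i) * a i) z = z := by
    rw [R.car i, map_one]; rfl
  rw [map_add, add_apply, map_mul_apply, map_mul_apply] at h1
  have h2 : ⟪z, P (a i) (P (star (a i)) z) + P (star (a i)) (P (a i) z)⟫_ℂ = ⟪z, z⟫_ℂ := by
    rw [h1]
  rw [inner_add_right, inner_star_apply] at h2
  have h3 : ⟪z, P (a i) (P (star (a i)) z)⟫_ℂ =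
      ⟪P (star (a i)) z, P (star (a i)) z⟫_ℂ := by
    have := inner_star_apply P (star (a i)) z (P (star (a i)) z)
    rwa [star_star] at this
  rw [h3, inner_self_eq_norm_sq_to_K, inner_self_eq_norm_sq_to_K,
    inner_self_eq_norm_sq_to_K] at h2
  have h4 : (‖P (star (a i)) z‖ ^ 2 + ‖P (a i) z‖ ^ 2 : ℝ) = ‖z‖ ^ 2 := by
    exact_mod_cast h2
  linarith

lemma norm_le (i : ℕ) : ‖a i‖ ≤ 1 := by
  refine ContinuousLinearMap.opNorm_le_bound _ zero_le_one fun z => ?_
  have h := R.norm_sq_add (StarAlgHom.id ℂ (Op H)) i z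
  simp only [StarAlgHom.coe_id, id] at h
  rw [one_mul]
  have h2 : ‖a i z‖ ^ 2 ≤ ‖z‖ ^ 2 := by nlinarith [sq_nonneg ‖(star (a i)) z‖]
  exact (abs_le_of_sq_le_sq' h2 (norm_nonneg z)).2

end Rel

/-- words in the adjoints of the generators -/
noncomputable def wd (a : ℕ → Op H) (l : List ℕ) : Op H := (l.map fun i => star (a i)).prod

lemma wd_nil : wd a [] = 1 := rfl

lemma wd_cons (i : ℕ) (l : List ℕ) : wd a (i :: l) = star (a i) * wd a l := by
  simp [wd]

/-- the span of the words -/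
noncomputable def Wsp (a : ℕ → Op H) : Submodule ℂ (Op H) := Submodule.span ℂ (Set.range (wd a))

lemma wd_mem (l : List ℕ) : wd a l ∈ Wsp a := Submodule.subset_span ⟨l, rfl⟩

lemma star_mul_mem_Wsp (j : ℕ) {y : Op H} (hy : y ∈ Wsp a) : star (a j) * y ∈ Wsp a := by
  induction hy using Submodule.span_induction with
  | mem x hx =>
    obtain ⟨l, rfl⟩ := hx
    rw [← wd_cons]
    exact wd_mem _
  | zero => simp
  | add x y _ _ hx hy => rw [mul_add]; exact add_mem hx hy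
  | smul c x _ hx => rw [mul_smul_comm]; exact Submodule.smul_mem _ _ hx

lemma exists_Wsp_word (R : Rel a U) (j : ℕ) (l : List ℕ) :
    ∃ y' ∈ Wsp a, ∀ z : K, (∀ i, P (a i) z = 0) → P (a j * wd a l) z = P y' z := by
  induction l with
  | nil =>
    refine ⟨0, zero_mem _, fun z hz => ?_⟩
    rw [wd_nil, mul_one, hz j]
    simp
  | cons i l ih =>
    obtain ⟨y, hy, h⟩ := ih
    by_cases hij : j = i
    · subst hij
      refine ⟨wd a l - star (a j) * y, sub_mem (wd_mem l) (star_mul_mem_Wsp j hy),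
        fun z hz => ?_⟩
      have h1 : a j * wd a (j :: l) = wd a l - star (a j) * (a j * wd a l) := by
        rw [wd_cons, ← mul_assoc, ← mul_assoc, eq_sub_iff_add_eq, ← add_mul, R.car j, one_mul]
      rw [h1, map_sub, map_sub, sub_apply, sub_apply, map_mul_apply P (star (a j)) (a j * wd a l),
        h z hz, ← map_mul_apply]
    · refine ⟨star (a i) * y, star_mul_mem_Wsp i hy, fun z hz => ?_⟩
      have h1 : a j * wd a (i :: l) = star (a i) * (a j * wd a l) := by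
        rw [wd_cons, ← mul_assoc, ← mul_assoc, R.comm' j i hij]
      rw [h1, map_mul_apply, h z hz, ← map_mul_apply]

lemma exists_Wsp_mul (R : Rel a U) (j : ℕ) {y : Op H} (hy : y ∈ Wsp a) :
    ∃ y' ∈ Wsp a, ∀ z : K, (∀ i, P (a i) z = 0) → P (a j * y) z = P y' z := by
  induction hy using Submodule.span_induction with
  | mem x hx =>
    obtain ⟨l, rfl⟩ := hx
    exact exists_Wsp_word P R j l
  | zero => exact ⟨0, zero_mem _, fun z _ => by simp⟩
  | add x y _ _ hx hy =>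
    obtain ⟨x', hx', h1⟩ := hx
    obtain ⟨y', hy', h2⟩ := hy
    refine ⟨x' + y', add_mem hx' hy', fun z hz => ?_⟩
    rw [mul_add, map_add, map_add, add_apply, add_apply, h1 z hz, h2 z hz]
  | smul c x _ hx =>
    obtain ⟨x', hx', h1⟩ := hx
    refine ⟨c • x', Submodule.smul_mem _ _ hx', fun z hz => ?_⟩
    rw [mul_smul_comm, map_smul, map_smul, smul_apply, smul_apply, h1 z hz]

/-- left multiplication by `x` preserves the words applied to the kernel -/
def Pres (a : ℕ → Op H) (P : Op H →⋆ₐ[ℂ] Op K) (x : Op H) : Prop :=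
  ∀ y ∈ Wsp a, ∃ y' ∈ Wsp a, ∀ z : K, (∀ i, P (a i) z = 0) → P (x * y) z = P y' z

lemma pres_adjoin (R : Rel a U) {x : Op H} (hx : x ∈ StarAlgebra.adjoin ℂ (Set.range a)) :
    Pres a P x ∧ Pres a P (star x) := by
  induction hx using StarAlgebra.adjoin_induction with
  | mem x hx =>
    obtain ⟨j, rfl⟩ := hx
    exact ⟨fun y hy => exists_Wsp_mul P R j hy,
      fun y hy => ⟨star (a j) * y, star_mul_mem_Wsp j hy, fun z _ => rfl⟩⟩
  | algebraMap c =>
    have h : ∀ c : ℂ, Pres a P (algebraMap ℂ (Op H) c) := by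
      intro c y hy
      refine ⟨c • y, Submodule.smul_mem _ _ hy, fun z _ => ?_⟩
      rw [Algebra.smul_def]
    refine ⟨h c, ?_⟩
    rw [← algebraMap_star_comm]
    exact h _
  | add x x' _ _ hx hx' =>
    have h : ∀ x x' : Op H, Pres a P x → Pres a P x' → Pres a P (x + x') := by
      intro x x' hx hx' y hy
      obtain ⟨y1, hy1, h1⟩ := hx y hy
      obtain ⟨y2, hy2, h2⟩ := hx' y hy
      refine ⟨y1 + y2, add_mem hy1 hy2, fun z hz => ?_⟩
      rw [add_mul, map_add, map_add, add_apply, add_apply, h1 z hz, h2 z hz]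
    refine ⟨h _ _ hx.1 hx'.1, ?_⟩
    rw [star_add]
    exact h _ _ hx.2 hx'.2
  | mul x x' _ _ hx hx' =>
    have h : ∀ x x' : Op H, Pres a P x → Pres a P x' → Pres a P (x * x') := by
      intro x x' hx hx' y hy
      obtain ⟨y1, hy1, h1⟩ := hx' y hy
      obtain ⟨y2, hy2, h2⟩ := hx y1 hy1
      refine ⟨y2, hy2, fun z hz => ?_⟩
      rw [mul_assoc, map_mul_apply, h1 z hz, ← map_mul_apply, h2 z hz]
    refine ⟨h _ _ hx.1 hx'.1, ?_⟩
    rw [star_mul]
    exact h _ _ hx'.2 hx.2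
  | star x _ hx => exact ⟨hx.2, by rw [star_star]; exact hx.1⟩

lemma exists_const_Wsp {y : Op H} (hy : y ∈ Wsp a) :
    ∃ c : ℂ, ∀ z w : K, (∀ i, P (a i) w = 0) → ⟪w, P y z⟫_ℂ = c * ⟪w, z⟫_ℂ := by
  induction hy using Submodule.span_induction with
  | mem x hx =>
    obtain ⟨l, rfl⟩ := hx
    cases l with
    | nil => exact ⟨1, fun z w _ => by rw [wd_nil, map_one, one_mul]; rfl⟩
    | cons i l =>
      refine ⟨0, fun z w hw => ?_⟩
      rw [wd_cons, map_mul_apply, inner_star_apply, hw i, inner_zero_left, zero_mul]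
  | zero => exact ⟨0, fun z w _ => by simp⟩
  | add x y _ _ hx hy =>
    obtain ⟨c, hc⟩ := hx
    obtain ⟨d, hd⟩ := hy
    refine ⟨c + d, fun z w hw => ?_⟩
    rw [map_add, add_apply, inner_add_right, hc z w hw, hd z w hw, add_mul]
  | smul c x _ hx =>
    obtain ⟨d, hd⟩ := hx
    refine ⟨c * d, fun z w hw => ?_⟩
    rw [map_smul, smul_apply, inner_smul_right, hd z w hw, mul_assoc]

lemma exists_const_adjoin (R : Rel a U) {x : Op H}
    (hx : x ∈ StarAlgebra.adjoin ℂ (Set.range a)) :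
    ∃ c : ℂ, ∀ z w : K, (∀ i, P (a i) z = 0) → (∀ i, P (a i) w = 0) →
      ⟪w, P x z⟫_ℂ = c * ⟪w, z⟫_ℂ := by
  obtain ⟨y, hy, h⟩ := (pres_adjoin P R hx).1 1 (by rw [← wd_nil (a := a)]; exact wd_mem _)
  obtain ⟨c, hc⟩ := exists_const_Wsp P hy
  refine ⟨c, fun z w hz hw => ?_⟩
  rw [← hc z w hw, ← h z hz, mul_one]

/-- the base algebra -/
noncomputable def baseAlg (a : ℕ → Op H) : StarSubalgebra ℂ (Op H) :=
  (StarAlgebra.adjoin ℂ (Set.range a)).topologicalClosure

lemma isClosed_baseAlg (a : ℕ → Op H) : IsClosed (baseAlg a : Set (Op H)) :=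
  StarSubalgebra.isClosed_topologicalClosure _

lemma gen_mem (i : ℕ) : a i ∈ baseAlg a :=
  StarSubalgebra.le_topologicalClosure _ (StarAlgebra.subset_adjoin ℂ _ ⟨i, rfl⟩)

lemma continuous_P (P : Op H →⋆ₐ[ℂ] Op K) : Continuous P :=
  AddMonoidHomClass.continuous_of_bound P 1 (fun x => by
    rw [one_mul]; exact NonUnitalStarAlgHom.norm_apply_le P x)

lemma exists_const_baseAlg (R : Rel a U) {x : Op H} (hx : x ∈ baseAlg a) :
    ∃ c : ℂ, ∀ z w : K, (∀ i, P (a i) z = 0) → (∀ i, P (a i) w = 0) →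
      ⟪w, P x z⟫_ℂ = c * ⟪w, z⟫_ℂ := by
  by_cases hV : ∃ v : K, (∀ i, P (a i) v = 0) ∧ v ≠ 0
  · obtain ⟨v, hv, hv0⟩ := hV
    have hvv : ⟪v, v⟫_ℂ ≠ 0 := inner_self_ne_zero.mpr hv0
    have key : ∀ x ∈ baseAlg a, ∀ z w : K, (∀ i, P (a i) z = 0) → (∀ i, P (a i) w = 0) →
        ⟪w, P x z⟫_ℂ = (⟪v, P x v⟫_ℂ / ⟪v, v⟫_ℂ) * ⟪w, z⟫_ℂ := by
      intro x hx z w hz hw
      have hcont : ∀ z w : K, Continuous fun x : Op H => ⟪w, P x z⟫_ℂ := by
        intro z w
        have : Continuous fun x : Op H => P x z :=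
          (ContinuousLinearMap.apply ℂ K z).continuous.comp (continuous_P P)
        exact continuous_const.inner this
      have hcl : IsClosed {x : Op H | ⟪w, P x z⟫_ℂ = (⟪v, P x v⟫_ℂ / ⟪v, v⟫_ℂ) * ⟪w, z⟫_ℂ} :=
        isClosed_eq (hcont z w) (((hcont v v).div_const _).mul continuous_const)
      have hsub : (StarAlgebra.adjoin ℂ (Set.range a) : Set (Op H)) ⊆
          {x : Op H | ⟪w, P x z⟫_ℂ = (⟪v, P x v⟫_ℂ / ⟪v, v⟫_ℂ) * ⟪w, z⟫_ℂ} := by
        intro x hx
        obtain ⟨c, hc⟩ := exists_const_adjoin P R hx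
        change ⟪w, P x z⟫_ℂ = (⟪v, P x v⟫_ℂ / ⟪v, v⟫_ℂ) * ⟪w, z⟫_ℂ
        rw [hc z w hz hw, hc v v hv hv, mul_div_assoc, div_self hvv, mul_one]
      exact closure_minimal hsub hcl hx
    exact ⟨_, key x hx⟩
  · push Not at hV
    refine ⟨0, fun z w hz _ => ?_⟩
    rw [hV z hz]
    simp

/-- the positive operator -/
noncomputable def kk (a : ℕ → Op H) : Op H :=
  ∑' n, ((1 / 2 : ℂ) ^ (n + 1)) • (star (a n) * a n)

namespace Rel

variable (R : Rel a U)
include R

lemma term_norm_le (n : ℕ) : ‖((1 / 2 : ℂ) ^ (n + 1)) • (star (a n) * a n)‖ ≤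
    (1 / 2 : ℝ) ^ (n + 1) := by
  rw [norm_smul, norm_pow]
  have h1 : ‖(1 / 2 : ℂ)‖ = 1 / 2 := by simp
  rw [h1]
  have h2 : ‖star (a n) * a n‖ ≤ 1 := by
    refine (norm_mul_le _ _).trans ?_
    rw [norm_star]
    exact mul_le_one₀ (R.norm_le n) (norm_nonneg _) (R.norm_le n)
  calc (1 / 2 : ℝ) ^ (n + 1) * ‖star (a n) * a n‖ ≤ (1 / 2 : ℝ) ^ (n + 1) * 1 := by gcongr
    _ = _ := mul_one _

lemma summable_terms : Summable fun n => ((1 / 2 : ℂ) ^ (n + 1)) • (star (a n) * a n) :=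
  Summable.of_norm_bounded (g := fun n => (1 / 2 : ℝ) ^ (n + 1))
    ((summable_nat_add_iff 1).mpr summable_geometric_two) R.term_norm_le

lemma hasSum_kk : HasSum (fun n => ((1 / 2 : ℂ) ^ (n + 1)) • (star (a n) * a n)) (kk a) :=
  R.summable_terms.hasSum

lemma kk_mem : kk a ∈ baseAlg a := by
  refine (isClosed_baseAlg a).mem_of_tendsto R.hasSum_kk (Eventually.of_forall fun s => ?_)
  exact sum_mem fun n _ => (baseAlg a).smul_mem (mul_mem (star_mem (gen_mem n)) (gen_mem n)) _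

lemma hasSum_inner (P : Op H →⋆ₐ[ℂ] Op K) (z : K) :
    HasSum (fun n => (1 / 2 : ℝ) ^ (n + 1) * ‖P (a n) z‖ ^ 2) (⟪z, P (kk a) z⟫_ℂ).re := by
  have h1 : HasSum (fun n => (⟪z, P (((1 / 2 : ℂ) ^ (n + 1)) • (star (a n) * a n)) z⟫_ℂ).re)
      (⟪z, P (kk a) z⟫_ℂ).re := by
    let L : Op H →+ ℝ :=
      { toFun := fun x => (⟪z, P x z⟫_ℂ).re
        map_zero' := by simp
        map_add' := fun x y => by simp }
    have hL : Continuous L := by
      have : Continuous fun x : Op H => P x z :=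
        (ContinuousLinearMap.apply ℂ K z).continuous.comp (continuous_P P)
      exact Complex.continuous_re.comp (continuous_const.inner this)
    exact R.hasSum_kk.map L hL
  suffices h0 : (fun n => (1 / 2 : ℝ) ^ (n + 1) * ‖P (a n) z‖ ^ 2) =
      fun n => (⟪z, P (((1 / 2 : ℂ) ^ (n + 1)) • (star (a n) * a n)) z⟫_ℂ).re by
    rw [h0]; exact h1
  funext n
  symm
  rw [map_smul, smul_apply, map_mul_apply, inner_smul_right, inner_star_apply,
    inner_self_eq_norm_sq_to_K]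
  have : ((1 / 2 : ℂ) ^ (n + 1) * ((‖P (a n) z‖ : ℂ)) ^ 2) =
      (((1 / 2 : ℝ) ^ (n + 1) * ‖P (a n) z‖ ^ 2 : ℝ) : ℂ) := by push_cast; ring
  have h2 := congrArg Complex.re this
  rw [Complex.ofReal_re] at h2
  exact h2

lemma ker_iff (P : Op H →⋆ₐ[ℂ] Op K) (z : K) : P (kk a) z = 0 ↔ ∀ i, P (a i) z = 0 := by
  constructor
  · intro h i
    have h1 := R.hasSum_inner P z
    rw [h, inner_zero_right, Complex.zero_re] at h1
    have h2 := (hasSum_zero_iff_of_nonneg (fun n => by positivity)).mp h1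
    have h3 := congrFun h2 i
    simp only [Pi.zero_apply, mul_eq_zero, pow_eq_zero_iff', norm_eq_zero] at h3
    rcases h3 with h3 | h3
    · norm_num at h3
    · exact h3.1
  · intro h
    have h1 : HasSum (fun n => P (((1 / 2 : ℂ) ^ (n + 1)) • (star (a n) * a n)) z)
        (P (kk a) z) := by
      let L : Op H →+ K :=
        { toFun := fun x => P x z
          map_zero' := by simp
          map_add' := fun x y => by simp }
      have hL : Continuous L :=
        (ContinuousLinearMap.apply ℂ K z).continuous.comp (continuous_P P)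
      exact R.hasSum_kk.map L hL
    refine h1.unique ?_
    have h0 : (fun n => P (((1 / 2 : ℂ) ^ (n + 1)) • (star (a n) * a n)) z) = fun _ => 0 := by
      funext n
      rw [map_smul, smul_apply, map_mul_apply, h n]
      simp
    rw [h0]
    exact hasSum_zero

lemma kk_selfAdjoint : IsSelfAdjoint (kk a) := by
  have h1 := R.hasSum_kk.star
  have h2 : (fun n => star (((1 / 2 : ℂ) ^ (n + 1)) • (star (a n) * a n))) =
      fun n => ((1 / 2 : ℂ) ^ (n + 1)) • (star (a n) * a n) := by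
    funext n
    rw [star_smul, star_mul, star_star, star_pow]
    simp
  rw [h2] at h1
  exact h1.unique R.hasSum_kk

lemma kk_nonneg : 0 ≤ kk a := by
  rw [ContinuousLinearMap.nonneg_iff_isPositive]
  refine ⟨ContinuousLinearMap.isSelfAdjoint_iff_isSymmetric.mp R.kk_selfAdjoint, fun z => ?_⟩
  have h1 := R.hasSum_inner (StarAlgHom.id ℂ (Op H)) z
  have h2 : 0 ≤ (⟪z, kk a z⟫_ℂ).re := h1.nonneg fun n => by positivity
  rw [ContinuousLinearMap.reApplyInnerSelf_apply, inner_re_symm]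
  exact h2

lemma tail_norm_le (m : ℕ) :
    ‖kk a - ∑ n ∈ Finset.range m, ((1 / 2 : ℂ) ^ (n + 1)) • (star (a n) * a n)‖ ≤
      (1 / 2 : ℝ) ^ m := by
  have h1 := R.summable_terms.sum_add_tsum_nat_add m
  have h2 : kk a - ∑ n ∈ Finset.range m, ((1 / 2 : ℂ) ^ (n + 1)) • (star (a n) * a n) =
      ∑' n, ((1 / 2 : ℂ) ^ (n + m + 1)) • (star (a (n + m)) * a (n + m)) := by
    rw [kk, ← h1]
    abel
  rw [h2]
  have h3 : HasSum (fun n => (1 / 2 : ℝ) ^ (n + m + 1)) ((1 / 2 : ℝ) ^ m) := by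
    have h4 := (hasSum_geometric_two' (1 : ℝ)).mul_left ((1 / 2 : ℝ) ^ m)
    have h5 : (fun n : ℕ => (1 / 2 : ℝ) ^ m * (1 / 2 / 2 ^ n)) =
        fun n => (1 / 2 : ℝ) ^ (n + m + 1) := by
      funext n
      rw [pow_succ, pow_add, one_div_pow, one_div_pow]
      ring
    rw [h5, mul_one] at h4
    exact h4
  exact tsum_of_norm_bounded h3 fun n => R.term_norm_le (n + m)

lemma kk_norm_le : ‖kk a‖ ≤ 1 := by
  have := R.tail_norm_le 0
  simpa using this

lemma le_centralizer : baseAlg a ≤ StarSubalgebra.centralizer ℂ {U} := by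
  refine StarSubalgebra.topologicalClosure_minimal (StarAlgebra.adjoin_le ?_) ?_
  · rintro _ ⟨i, rfl⟩
    rw [SetLike.mem_coe, StarSubalgebra.mem_centralizer_iff]
    rintro g hg
    rw [Set.mem_singleton_iff.mp hg]
    refine ⟨R.U_comm i, ?_⟩
    have := congrArg star (R.U_comm' i)
    rw [star_mul, star_mul, star_star] at this
    exact this.symm
  · exact Set.isClosed_centralizer _

lemma exists_kill (P : Op H →⋆ₐ[ℂ] Op K) {z : K} (hz : z ≠ 0) (m : ℕ) :
    ∃ b ∈ baseAlg a, P b z ≠ 0 ∧ ∀ i < m, P (a i) (P b z) = 0 := by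
  induction m with
  | zero => exact ⟨1, one_mem _, by simpa using hz, by simp⟩
  | succ m ih =>
    obtain ⟨b, hb, hbz, h⟩ := ih
    by_cases h0 : P (a m) (P b z) = 0
    · refine ⟨b, hb, hbz, fun i hi => ?_⟩
      rcases Nat.lt_succ_iff_lt_or_eq.mp hi with hi | rfl
      · exact h i hi
      · exact h0
    · refine ⟨a m * b, mul_mem (gen_mem m) hb, by rwa [map_mul_apply], fun i hi => ?_⟩
      rw [map_mul_apply]
      rcases Nat.lt_succ_iff_lt_or_eq.mp hi with hi | rfl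
      · rw [← map_mul_apply, R.comm i m hi.ne, map_mul_apply, h i hi, map_zero]
      · rw [← map_mul_apply, R.sq i]
        simp

theorem isBase
    (noV : ∀ k' ∈ StarSubalgebra.centralizer ℂ {U},
      (∀ i, ∃ c : ℂ, ∀ z w : H, k' z = 0 → k' w = 0 → ⟪w, a i z⟫_ℂ = c * ⟪w, z⟫_ℂ) →
      ∀ z : H, k' z = 0 → z = 0) :
    IsBase (baseAlg a) (kk a) U where
  closed := isClosed_baseAlg a
  countable := ⟨Set.range a, Set.countable_range a, rfl⟩
  k_mem := R.kk_mem
  k_nonneg := R.kk_nonneg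
  k_norm := R.kk_norm_le
  le_centralizer := R.le_centralizer
  det := by
    intro K _ _ _ P x hx
    obtain ⟨c, hc⟩ := exists_const_baseAlg P R hx
    exact ⟨c, fun z w hz hw => hc z w ((R.ker_iff P z).mp hz) ((R.ker_iff P w).mp hw)⟩
  full := by
    intro K _ _ _ P z hz ε hε
    obtain ⟨m, hm⟩ := exists_pow_lt_of_lt_one hε (by norm_num : (1 / 2 : ℝ) < 1)
    obtain ⟨b, hb, hbz, h⟩ := R.exists_kill P hz m
    refine ⟨b, hb, hbz, ?_⟩
    have h1 : P (∑ n ∈ Finset.range m, ((1 / 2 : ℂ) ^ (n + 1)) • (star (a n) * a n)) (P b z) =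
        0 := by
      rw [map_sum, sum_apply]
      refine Finset.sum_eq_zero fun n hn => ?_
      rw [map_smul, smul_apply, map_mul_apply, h n (Finset.mem_range.mp hn)]
      simp
    have h2 : P (kk a) (P b z) =
        P (kk a - ∑ n ∈ Finset.range m, ((1 / 2 : ℂ) ^ (n + 1)) • (star (a n) * a n))
          (P b z) := by
      rw [map_sub, sub_apply, h1, sub_zero]
    rw [h2]
    refine (norm_map_apply_le P _ _).trans ?_
    gcongr
    exact (R.tail_norm_le m).trans hm.le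
  inj := fun k' hk' h z hz => noV k' hk' (fun i => h (a i) (gen_mem i)) z hz
  infinite := by
    intro K _ _ _ P z hz hk
    have hk' := (R.ker_iff P z).mp hk
    refine ⟨fun n => star (a n), fun n => star_mem (gen_mem n), ?_⟩
    rw [orthonormal_iff_ite]
    intro i j
    have h1 : ⟪P (star (a i)) z, P (star (a j)) z⟫_ℂ = ⟪z, P (a i * star (a j)) z⟫_ℂ := by
      rw [map_mul_apply, ← inner_star_apply P (star (a i)), star_star]
    rw [h1]
    split_ifs with hij
    · subst hij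
      have h2 : a i * star (a i) = 1 - star (a i) * a i := by
        rw [← R.car i]; abel
      rw [h2, map_sub, sub_apply, map_mul_apply, hk' i, map_zero, sub_zero, map_one]
      rw [one_apply_eq_self, inner_self_eq_norm_sq_to_K, hz]
      simp
    · rw [R.comm' i j hij, map_mul_apply, hk' i, map_zero, inner_zero_right]

end Rel

end

end Vale.Agent.P070
end
end

section

section

namespace Vale.Agent.P070

open scoped InnerProductSpace
open Filter Topology

universe u v w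

section
variable {H : Type u} {K : Type v}
  [NormedAddCommGroup H] [InnerProductSpace ℂ H] [CompleteSpace H]
  [NormedAddCommGroup K] [InnerProductSpace ℂ K] [CompleteSpace K]

theorem Det.mono {P : Op H →⋆ₐ[ℂ] Op K} {k : Op H} {G G' : Set (Op H)} (h : Det P k G)
    (hG : G' ⊆ G) : Det P k G' := fun x hx => h x (hG hx)

theorem Ineq.mono {P : Op H →⋆ₐ[ℂ] Op K} {k1 k2 : Op H} {G G' : Set (Op H)}
    (h : Ineq P k1 k2 G) (hG : G' ⊆ G) : Ineq P k1 k2 G' := fun x hx => h x (hG hx)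

theorem cont_P (P : Op H →⋆ₐ[ℂ] Op K) : Continuous P :=
  AddMonoidHomClass.continuous_of_bound P 1 (by
    simpa only [one_mul] using NonUnitalStarAlgHom.norm_apply_le P)

theorem cont_P_apply (P : Op H →⋆ₐ[ℂ] Op K) (z : K) : Continuous fun x => P x z :=
  (ContinuousLinearMap.apply ℂ K z).continuous.comp (cont_P P)

theorem isClosed_det (P : Op H →⋆ₐ[ℂ] Op K) (k : Op H) :
    IsClosed {x : Op H | ∃ c : ℂ, DetAt P k x c} := by
  by_cases hz : ∃ z : K, P k z = 0 ∧ ‖z‖ = 1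
  · obtain ⟨z0, hz0, hz1⟩ := hz
    have : {x : Op H | ∃ c : ℂ, DetAt P k x c} =
        {x : Op H | ∀ z w : K, P k z = 0 → P k w = 0 →
          ⟪w, P x z⟫_ℂ = ⟪z0, P x z0⟫_ℂ * ⟪w, z⟫_ℂ} := by
      ext x
      constructor
      · rintro ⟨c, hc⟩ z w hz hw
        have h1 := hc z0 z0 hz0 hz0
        have h2 : ⟪z0, z0⟫_ℂ = 1 := by
          rw [inner_self_eq_norm_sq_to_K, hz1]; norm_num
        rw [h2, mul_one] at h1
        rw [h1]; exact hc z w hz hw
      · intro h
        exact ⟨_, h⟩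
    rw [this]
    simp only [Set.ofPred_forall]
    refine isClosed_iInter fun z => isClosed_iInter fun w => isClosed_iInter fun _ =>
      isClosed_iInter fun _ => ?_
    refine isClosed_eq ?_ ?_
    · exact continuous_const.inner (cont_P_apply P z)
    · exact (continuous_const.inner (cont_P_apply P z0)).mul continuous_const
  · have : {x : Op H | ∃ c : ℂ, DetAt P k x c} = Set.univ := by
      refine Set.eq_univ_of_forall fun x => ⟨0, ?_⟩
      intro z w hz' hw'
      have : z = 0 := by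
        by_contra h
        apply hz
        refine ⟨((‖z‖⁻¹ : ℝ) : ℂ) • z, ?_, ?_⟩
        · rw [map_smul, hz', smul_zero]
        · rw [norm_smul]; simp [h]
      rw [this]; simp
    rw [this]; exact isClosed_univ

theorem Det.closure {P : Op H →⋆ₐ[ℂ] Op K} {k : Op H} {G : Set (Op H)} (h : Det P k G) :
    Det P k (closure G) := by
  intro x hx
  exact (closure_minimal (s := G) (t := {x : Op H | ∃ c : ℂ, DetAt P k x c}) h
    (isClosed_det P k)) hx

theorem isClosed_orth (P : Op H →⋆ₐ[ℂ] Op K) (y z : K) :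
    IsClosed {x : Op H | ⟪y, P x z⟫_ℂ = 0} :=
  isClosed_eq (continuous_const.inner (cont_P_apply P z)) continuous_const

/-- the C*-algebra generated by `A0` and the letters in `S`. -/
noncomputable def gen {ι : Type w} (A0 : StarSubalgebra ℂ (Op H)) (u : ι → Op H) (S : Set ι) :
    StarSubalgebra ℂ (Op H) :=
  (StarAlgebra.adjoin ℂ ((A0 : Set (Op H)) ∪ u '' S)).topologicalClosure

variable {ι : Type w} (A0 : StarSubalgebra ℂ (Op H)) (u : ι → Op H)

theorem gen_isClosed (S : Set ι) : IsClosed (gen A0 u S : Set (Op H)) :=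
  StarSubalgebra.isClosed_topologicalClosure _

theorem subset_gen (S : Set ι) : ((A0 : Set (Op H)) ∪ u '' S) ⊆ gen A0 u S :=
  (StarAlgebra.subset_adjoin ℂ _).trans (StarSubalgebra.le_topologicalClosure _)

theorem le_gen (S : Set ι) : A0 ≤ gen A0 u S := fun _ hx => subset_gen A0 u S (Or.inl hx)

theorem letter_mem_gen {S : Set ι} {i : ι} (hi : i ∈ S) : u i ∈ gen A0 u S :=
  subset_gen A0 u S (Or.inr ⟨i, hi, rfl⟩)

theorem gen_le {S : Set ι} {B : StarSubalgebra ℂ (Op H)} (hB : IsClosed (B : Set (Op H)))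
    (h0 : A0 ≤ B) (hS : ∀ i ∈ S, u i ∈ B) : gen A0 u S ≤ B := by
  refine StarSubalgebra.topologicalClosure_minimal ?_ hB
  refine StarAlgebra.adjoin_le ?_
  rintro x (hx | ⟨i, hi, rfl⟩)
  · exact h0 hx
  · exact hS i hi

theorem gen_mono {S T : Set ι} (h : S ⊆ T) : gen A0 u S ≤ gen A0 u T :=
  gen_le A0 u (gen_isClosed A0 u T) (le_gen A0 u T) fun _ hi => letter_mem_gen A0 u (h hi)

theorem gen_insert_le (S : Set ι) (i : ι) : gen A0 u (insert i S) ≤
    (StarAlgebra.adjoin ℂ ((gen A0 u S : Set (Op H)) ∪ {u i})).topologicalClosure := by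
  have h1 : ((gen A0 u S : Set (Op H)) ∪ {u i}) ⊆
    ((StarAlgebra.adjoin ℂ ((gen A0 u S : Set (Op H)) ∪ {u i})).topologicalClosure :
      Set (Op H)) := (StarAlgebra.subset_adjoin ℂ _).trans (StarSubalgebra.le_topologicalClosure _)
  refine gen_le A0 u (StarSubalgebra.isClosed_topologicalClosure _) ?_ ?_
  · exact fun x hx => h1 (Or.inl (le_gen A0 u S hx))
  · rintro j (rfl | hj)
    · exact h1 (Or.inr rfl)
    · exact h1 (Or.inl (letter_mem_gen A0 u hj))

/-- directed unions. -/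
theorem gen_sUnion_subset {F : Set (Set ι)} (hne : F.Nonempty) (hdir : DirectedOn (· ⊆ ·) F)
    {X : Set (Op H)} (hX : IsClosed X) (h : ∀ T ∈ F, (gen A0 u T : Set (Op H)) ⊆ X) :
    (gen A0 u (⋃₀ F) : Set (Op H)) ⊆ X := by
  refine closure_minimal ?_ hX
  intro x hx
  have key : ∃ T ∈ F, x ∈ gen A0 u T := by
    obtain ⟨T0, hT0⟩ := hne
    have comb : ∀ T1 ∈ F, ∀ T2 ∈ F, ∃ T ∈ F, T1 ⊆ T ∧ T2 ⊆ T := fun T1 h1 T2 h2 =>
      hdir T1 h1 T2 h2
    induction hx using StarAlgebra.adjoin_induction with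
    | mem x hx =>
      rcases hx with hx | ⟨i, ⟨T, hT, hi⟩, rfl⟩
      · exact ⟨T0, hT0, le_gen A0 u T0 hx⟩
      · exact ⟨T, hT, letter_mem_gen A0 u hi⟩
    | algebraMap r => exact ⟨T0, hT0, algebraMap_mem _ r⟩
    | add x y _ _ ihx ihy =>
      obtain ⟨T1, h1, hx⟩ := ihx
      obtain ⟨T2, h2, hy⟩ := ihy
      obtain ⟨T, hT, h1', h2'⟩ := comb T1 h1 T2 h2
      exact ⟨T, hT, add_mem (gen_mono A0 u h1' hx) (gen_mono A0 u h2' hy)⟩
    | mul x y _ _ ihx ihy =>
      obtain ⟨T1, h1, hx⟩ := ihx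
      obtain ⟨T2, h2, hy⟩ := ihy
      obtain ⟨T, hT, h1', h2'⟩ := comb T1 h1 T2 h2
      exact ⟨T, hT, mul_mem (gen_mono A0 u h1' hx) (gen_mono A0 u h2' hy)⟩
    | star x _ ihx =>
      obtain ⟨T1, h1, hx⟩ := ihx
      exact ⟨T1, h1, star_mem hx⟩
  obtain ⟨T, hT, hx⟩ := key
  exact h T hT hx

theorem det_sUnion {P : Op H →⋆ₐ[ℂ] Op K} {g : Op H} {F : Set (Set ι)} (hne : F.Nonempty)
    (hdir : DirectedOn (· ⊆ ·) F) (h : ∀ T ∈ F, Det P g (gen A0 u T)) :
    Det P g (gen A0 u (⋃₀ F)) :=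
  fun x hx => gen_sUnion_subset A0 u hne hdir (isClosed_det P g) (fun T hT y hy => h T hT y hy) hx

/-- countable supports -/
theorem exists_countable_support {S : Set ι} {x : Op H} (hx : x ∈ gen A0 u S) :
    ∃ T : Set ι, T ⊆ S ∧ T.Countable ∧ x ∈ gen A0 u T := by
  have fin : ∀ y ∈ StarAlgebra.adjoin ℂ ((A0 : Set (Op H)) ∪ u '' S),
      ∃ T : Set ι, T ⊆ S ∧ T.Countable ∧ y ∈ gen A0 u T := by
    intro y hy
    induction hy using StarAlgebra.adjoin_induction with
    | mem _ hx =>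
      rcases hx with hx | ⟨i, hi, rfl⟩
      · exact ⟨∅, Set.empty_subset _, Set.countable_empty, le_gen A0 u _ hx⟩
      · exact ⟨{i}, by simpa using hi, Set.countable_singleton i,
          letter_mem_gen A0 u (Set.mem_singleton i)⟩
    | algebraMap r => exact ⟨∅, Set.empty_subset _, Set.countable_empty, algebraMap_mem _ r⟩
    | add x y _ _ ihx ihy =>
      obtain ⟨T1, h1, c1, hx⟩ := ihx
      obtain ⟨T2, h2, c2, hy⟩ := ihy
      exact ⟨T1 ∪ T2, Set.union_subset h1 h2, c1.union c2,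
        add_mem (gen_mono A0 u Set.subset_union_left hx)
          (gen_mono A0 u Set.subset_union_right hy)⟩
    | mul x y _ _ ihx ihy =>
      obtain ⟨T1, h1, c1, hx⟩ := ihx
      obtain ⟨T2, h2, c2, hy⟩ := ihy
      exact ⟨T1 ∪ T2, Set.union_subset h1 h2, c1.union c2,
        mul_mem (gen_mono A0 u Set.subset_union_left hx)
          (gen_mono A0 u Set.subset_union_right hy)⟩
    | star x _ ihx =>
      obtain ⟨T1, h1, c1, hx⟩ := ihx
      exact ⟨T1, h1, c1, star_mem hx⟩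
  have hx' : x ∈ closure ((StarAlgebra.adjoin ℂ ((A0 : Set (Op H)) ∪ u '' S) :
    StarSubalgebra ℂ (Op H)) : Set (Op H)) := hx
  rw [mem_closure_iff_seq_limit] at hx'
  obtain ⟨s, hs, hlim⟩ := hx'
  choose T hTS hTc hTm using fun n => fin (s n) (hs n)
  refine ⟨⋃ n, T n, Set.iUnion_subset hTS, Set.countable_iUnion hTc, ?_⟩
  have : ∀ n, s n ∈ (gen A0 u (⋃ n, T n) : Set (Op H)) := fun n =>
    gen_mono A0 u (Set.subset_iUnion T n) (hTm n)
  exact (gen_isClosed A0 u _).mem_of_tendsto hlim (Filter.Eventually.of_forall this)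

/-- `(k, u)` is a good pair for the algebra `B`. -/
structure Good (P : Op H →⋆ₐ[ℂ] Op K) (k0 U : Op H) (B : StarSubalgebra ℂ (Op H))
    (k u : Op H) : Prop where
  k_mem : k ∈ B
  k_nonneg : 0 ≤ k
  det : Det P k B
  ineq : Ineq P k0 k B
  u_unitary : u ∈ unitary (Op H)
  u_comm : u ∈ StarSubalgebra.centralizer ℂ {U}
  uk_mem : u * k0 ∈ B
  map : ∀ z, P k0 z = 0 → P k (P u z) = 0
  map' : ∀ z, P k z = 0 → P k0 (P (star u) z) = 0

/-- a tower of good pairs over the base algebra. -/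
structure IsTower {ι : Type w} [LinearOrder ι] (P : Op H →⋆ₐ[ℂ] Op K)
    (A0 : StarSubalgebra ℂ (Op H)) (k0 U : Op H) (k u : ι → Op H) : Prop where
  k0_mem : k0 ∈ A0
  k0_nonneg : 0 ≤ k0
  det0 : Det P k0 A0
  good : ∀ i, Good P k0 U (gen A0 u (Set.Iio i)) (k i) (u i)

end

end Vale.Agent.P070
end
end

section

section

namespace Vale.Agent.P070

open scoped InnerProductSpace
open Filter Topology

universe u v w

section
variable {H : Type u} {K : Type v}
  [NormedAddCommGroup H] [InnerProductSpace ℂ H] [CompleteSpace H]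
  [NormedAddCommGroup K] [InnerProductSpace ℂ K] [CompleteSpace K]

/-- the C*-algebra generated by `A0` and a set of letters -/
noncomputable def genSet (A0 : StarSubalgebra ℂ (Op H)) (S : Set (Op H)) :
    StarSubalgebra ℂ (Op H) :=
  (StarAlgebra.adjoin ℂ ((A0 : Set (Op H)) ∪ S)).topologicalClosure

theorem gen_eq_genSet {ι : Type w} (A0 : StarSubalgebra ℂ (Op H)) (u : ι → Op H) (T : Set ι) :
    gen A0 u T = genSet A0 (u '' T) := rfl

theorem mem_genSet (A0 : StarSubalgebra ℂ (Op H)) {S : Set (Op H)} {x : Op H} (hx : x ∈ S) :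
    x ∈ genSet A0 S :=
  StarSubalgebra.le_topologicalClosure _ (StarAlgebra.subset_adjoin ℂ _ (Or.inr hx))

/-- the unitary of a good pair is not in the algebra -/
theorem Good.notMem {P : Op H →⋆ₐ[ℂ] Op K} {k0 U : Op H} {B : StarSubalgebra ℂ (Op H)}
    {k' u' : Op H} {z : K} (hz : P k0 z = 0) (hz0 : z ≠ 0) (h : Good P k0 U B k' u') :
    u' ∉ B := by
  intro hu
  have h1 := h.ineq u' hu z (P u' z) hz (h.map z hz)
  rw [inner_self_eq_zero] at h1
  apply hz0
  have h2 : P (star u') (P u' z) = z := by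
    have h3 : P (star u') * P u' = 1 := by
      rw [← map_mul, Unitary.star_mul_self_of_mem h.u_unitary, map_one]
    calc P (star u') (P u' z) = (P (star u') * P u') z := rfl
      _ = z := by rw [h3]; rfl
  rw [← h2, h1, map_zero]

open Classical in
/-- transfinite sequence of good pairs -/
noncomputable def pairs (P : Op H →⋆ₐ[ℂ] Op K) (A0 : StarSubalgebra ℂ (Op H)) (k0 U : Op H) :
    Ordinal.{u} → Op H × Op H :=
  WellFounded.fix (wellFounded_lt (α := Ordinal.{u})) fun a f =>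
    if h : ∃ q : Op H × Op H, Good P k0 U
      (genSet A0 {x | ∃ (b : Ordinal.{u}) (hb : b < a), (f b hb).2 = x}) q.1 q.2
    then h.choose else (0, 0)

open Classical in
theorem pairs_spec (P : Op H →⋆ₐ[ℂ] Op K) (A0 : StarSubalgebra ℂ (Op H)) (k0 U : Op H)
    (a : Ordinal.{u})
    (h : ∃ q : Op H × Op H, Good P k0 U
      (genSet A0 ((fun b => (pairs P A0 k0 U b).2) '' Set.Iio a)) q.1 q.2) :
    Good P k0 U (genSet A0 ((fun b => (pairs P A0 k0 U b).2) '' Set.Iio a))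
      (pairs P A0 k0 U a).1 (pairs P A0 k0 U a).2 := by
  have hset : {x | ∃ (b : Ordinal.{u}) (_ : b < a), (pairs P A0 k0 U b).2 = x} =
      (fun b => (pairs P A0 k0 U b).2) '' Set.Iio a := by
    ext x
    simp
  have hunf : pairs P A0 k0 U a = if h : ∃ q : Op H × Op H, Good P k0 U
      (genSet A0 {x | ∃ (b : Ordinal.{u}) (_ : b < a), (pairs P A0 k0 U b).2 = x}) q.1 q.2
    then h.choose else (0, 0) := by
    rw [pairs, WellFounded.fix_eq]
  rw [← hset] at h ⊢
  rw [hunf, dif_pos h]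
  exact h.choose_spec

/-- existence of a maximal tower -/
theorem exists_maximal_tower (P : Op H →⋆ₐ[ℂ] Op K) (A0 : StarSubalgebra ℂ (Op H)) (k0 U : Op H)
    (hk0 : k0 ∈ A0) (hk0n : 0 ≤ k0) (hdet : Det P k0 A0) (hne : ∃ z : K, P k0 z = 0 ∧ z ≠ 0) :
    ∃ (ι : Type (u + 1)) (_ : LinearOrder ι) (_ : WellFoundedLT ι) (k u : ι → Op H),
      IsTower P A0 k0 U k u ∧ ¬ ∃ k' u', Good P k0 U (gen A0 u Set.univ) k' u' := by
  obtain ⟨z, hz, hz0⟩ := hne
  set p := pairs P A0 k0 U with hp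
  set B : Ordinal.{u} → StarSubalgebra ℂ (Op H) :=
    fun a => genSet A0 ((fun b => (p b).2) '' Set.Iio a) with hB
  have hspec : ∀ a, (∃ q : Op H × Op H, Good P k0 U (B a) q.1 q.2) →
      Good P k0 U (B a) (p a).1 (p a).2 := fun a h => pairs_spec P A0 k0 U a h
  have hex : ∃ a, ¬ ∃ q : Op H × Op H, Good P k0 U (B a) q.1 q.2 := by
    by_contra hcon
    push Not at hcon
    have hlt : ∀ a b : Ordinal.{u}, b < a → (p b).2 ≠ (p a).2 := by
      intro a b hba heq
      have h1 := (hspec a (hcon a)).notMem hz hz0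
      apply h1
      rw [← heq]
      exact mem_genSet A0 ⟨b, hba, rfl⟩
    refine not_injective_of_ordinal (fun a => (p a).2) ?_
    intro a b hab
    rcases lt_trichotomy a b with h | h | h
    · exact absurd hab (hlt b a h)
    · exact h
    · exact absurd hab.symm (hlt a b h)
  obtain ⟨lam, hlam, hmin⟩ := WellFounded.has_min (wellFounded_lt (α := Ordinal.{u}))
    {a | ¬ ∃ q : Op H × Op H, Good P k0 U (B a) q.1 q.2} hex
  have hgood : ∀ a, a < lam → Good P k0 U (B a) (p a).1 (p a).2 := by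
    intro a ha
    apply hspec
    by_contra hcon
    exact hmin a hcon ha
  have himg : ∀ i : Set.Iio lam, (fun j : Set.Iio lam => (p j.1).2) '' Set.Iio i =
      (fun b => (p b).2) '' Set.Iio i.1 := by
    intro i
    ext x
    constructor
    · rintro ⟨j, hj, rfl⟩
      exact ⟨j.1, hj, rfl⟩
    · rintro ⟨b, hb, rfl⟩
      exact ⟨⟨b, Set.mem_Iio.2 (lt_trans (Set.mem_Iio.1 hb) (Set.mem_Iio.1 i.2))⟩, hb, rfl⟩
  have himg' : (fun j : Set.Iio lam => (p j.1).2) '' Set.univ =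
      (fun b => (p b).2) '' Set.Iio lam := by
    ext x
    constructor
    · rintro ⟨j, -, rfl⟩
      exact ⟨j.1, j.2, rfl⟩
    · rintro ⟨b, hb, rfl⟩
      exact ⟨⟨b, hb⟩, Set.mem_univ _, rfl⟩
  refine ⟨Set.Iio lam, inferInstance, inferInstance, fun i => (p i.1).1, fun i => (p i.1).2,
    ⟨hk0, hk0n, hdet, fun i => ?_⟩, ?_⟩
  · rw [gen_eq_genSet, himg i]
    exact hgood i.1 i.2
  · rintro ⟨k', u', h⟩
    rw [gen_eq_genSet, himg'] at h
    exact hlam ⟨(k', u'), h⟩

end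

end Vale.Agent.P070
end
end

section

section

namespace Vale.Agent.P070

open scoped InnerProductSpace
open Filter Topology

universe u v

section
variable {H : Type u} {K : Type v}
  [NormedAddCommGroup H] [InnerProductSpace ℂ H] [CompleteSpace H]
  [NormedAddCommGroup K] [InnerProductSpace ℂ K] [CompleteSpace K]

theorem exists_cyclic (P : Op H →⋆ₐ[ℂ] Op K) (A : StarSubalgebra ℂ (Op H)) (ξ : K) :
    ∃ (Kf : Type v) (_ : NormedAddCommGroup Kf) (_ : InnerProductSpace ℂ Kf)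
      (_ : CompleteSpace Kf) (ρ : A →⋆ₐ[ℂ] Op Kf) (j : Kf →ₗᵢ[ℂ] K) (x : Kf),
      j x = ξ ∧ (∀ (a : A) (y : Kf), j (ρ a y) = P (a : Op H) (j y)) ∧
      DenseRange (fun a : A => ρ a x) := by
  let orb : A →ₗ[ℂ] K :=
    { toFun := fun a => P (a : Op H) ξ
      map_add' := fun a b => by
        show P ((a : Op H) + (b : Op H)) ξ = _
        rw [map_add, add_apply]
      map_smul' := fun r a => by
        show P (r • (a : Op H)) ξ = _
        rw [map_smul, smul_apply]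
        rfl }
  let S : Submodule ℂ K := (LinearMap.range orb).topologicalClosure
  have hScl : IsClosed (S : Set K) := Submodule.isClosed_topologicalClosure _
  have hmem : ∀ a : A, P (a : Op H) ξ ∈ S := fun a =>
    Submodule.le_topologicalClosure _ ⟨a, rfl⟩
  have hinv : ∀ (a : A), ∀ y ∈ S, P (a : Op H) y ∈ S := by
    intro a y hy
    have h1 : y ∈ closure (LinearMap.range orb : Set K) := hy
    have h2 := map_mem_closure (P (a : Op H)).continuous h1 (t := (LinearMap.range orb : Set K)) (by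
      rintro _ ⟨b, rfl⟩
      refine ⟨a * b, ?_⟩
      show P ((a : Op H) * (b : Op H)) ξ = P (a : Op H) (P (b : Op H) ξ)
      rw [map_mul, mul_apply_eq_comp])
    exact h2
  have : CompleteSpace S := hScl.completeSpace_coe
  let r : A → Op S := fun a =>
    ((P (a : Op H)).comp S.subtypeL).codRestrict S (fun y => hinv a y y.2)
  have hr : ∀ (a : A) (y : S), ((r a y : S) : K) = P (a : Op H) (y : K) := fun a y => rfl
  let ρ : A →⋆ₐ[ℂ] Op S :=
    { toFun := r
      map_one' := by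
        ext y
        rw [hr]
        show P (1 : Op H) (y : K) = (y : K)
        rw [map_one]
        rfl
      map_mul' := by
        intro a b
        ext y
        rw [hr, mul_apply_eq_comp, hr, hr]
        show P ((a : Op H) * (b : Op H)) (y : K) = _
        rw [map_mul, mul_apply_eq_comp]
      map_zero' := by
        ext y
        rw [hr]
        show P (0 : Op H) (y : K) = _
        rw [map_zero]
        rfl
      map_add' := by
        intro a b
        ext y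
        rw [hr]
        show P ((a : Op H) + (b : Op H)) (y : K) = ((r a y + r b y : S) : K)
        rw [map_add, add_apply, Submodule.coe_add, hr, hr]
      commutes' := by
        intro c
        ext y
        rw [hr]
        show P (algebraMap ℂ (Op H) c) (y : K) = _
        rw [AlgHomClass.commutes, Algebra.algebraMap_eq_smul_one, Algebra.algebraMap_eq_smul_one]
        rfl
      map_star' := by
        intro a
        rw [ContinuousLinearMap.star_eq_adjoint, ContinuousLinearMap.eq_adjoint_iff]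
        intro y z
        rw [Submodule.coe_inner, Submodule.coe_inner, hr, hr]
        show ⟪P (star (a : Op H)) (y : K), (z : K)⟫_ℂ = _
        rw [map_star, ContinuousLinearMap.star_eq_adjoint, ContinuousLinearMap.adjoint_inner_left] }
  have hξS : ξ ∈ S := by
    have := hmem 1
    have h1 : P ((1 : A) : Op H) ξ = ξ := by
      show P (1 : Op H) ξ = ξ
      rw [map_one]
      rfl
    rwa [h1] at this
  refine ⟨S, inferInstance, inferInstance, inferInstance, ρ, S.subtypeₗᵢ, ⟨ξ, hξS⟩, rfl,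
    fun a y => rfl, ?_⟩
  intro y
  rw [closure_subtype]
  have h1 : (y : K) ∈ closure (LinearMap.range orb : Set K) := y.2
  refine closure_mono ?_ h1
  rintro _ ⟨a, rfl⟩
  exact ⟨ρ a ⟨ξ, hξS⟩, ⟨a, rfl⟩, rfl⟩

end

end Vale.Agent.P070
end
end

section

section

namespace Vale.Agent.P070

open scoped InnerProductSpace
open Filter Topology

universe u v

section
variable {H : Type u} {K : Type v}
  [NormedAddCommGroup H] [InnerProductSpace ℂ H] [CompleteSpace H]
  [NormedAddCommGroup K] [InnerProductSpace ℂ K] [CompleteSpace K]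

theorem cut_continuous (n : ℕ) : Continuous (cut n) := by
  unfold cut
  fun_prop

theorem cut_nonneg (n : ℕ) (t : ℝ) : 0 ≤ cut n t := le_max_left _ _

theorem cut_le_one (n : ℕ) (t : ℝ) : cut n t ≤ 1 := max_le zero_le_one (min_le_left _ _)

theorem cut_eq_zero {n : ℕ} {t : ℝ} (h : (1 / 2) ^ n ≤ t) : cut n t = 0 := by
  unfold cut
  refine max_eq_left (le_trans (min_le_right _ _) ?_)
  have h1 : (2 : ℝ) ^ (n + 1) * (1 / 2) ^ n = 2 := by
    rw [pow_succ, mul_comm ((2 : ℝ) ^ n), mul_assoc, ← mul_pow]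
    norm_num
  have h2 : (2 : ℝ) ^ (n + 1) * (1 / 2) ^ n ≤ 2 ^ (n + 1) * t :=
    mul_le_mul_of_nonneg_left h (by positivity)
  linarith

theorem cut_eq_one {n : ℕ} {t : ℝ} (h : t ≤ (1 / 2) ^ (n + 1)) : cut n t = 1 := by
  unfold cut
  have h1 : (2 : ℝ) ^ (n + 1) * (1 / 2) ^ (n + 1) = 1 := by
    rw [← mul_pow]
    norm_num
  have h2 : (2 : ℝ) ^ (n + 1) * t ≤ 2 ^ (n + 1) * (1 / 2) ^ (n + 1) :=
    mul_le_mul_of_nonneg_left h (by positivity)
  rw [min_eq_left (by linarith), max_eq_right zero_le_one]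

theorem cut_mul_cut {m n : ℕ} (h : n < m) (t : ℝ) : cut m t * cut n t = cut m t := by
  rcases le_or_gt ((1 / 2) ^ m) t with h1 | h1
  · rw [cut_eq_zero h1, zero_mul]
  · have h2 : t ≤ (1 / 2) ^ (n + 1) := by
      refine le_trans h1.le ?_
      exact pow_le_pow_of_le_one (by norm_num) (by norm_num) h
    rw [cut_eq_one h2, mul_one]

theorem cutOp_mem (A : StarSubalgebra ℂ (Op H)) (hA : IsClosed (A : Set (Op H))) {k : Op H}
    (hk : k ∈ A) (n : ℕ) : cutOp n k ∈ A := by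
  have : IsClosed (A : Set (Op H)) := hA
  exact cfc_mem (𝕜' := ℂ) (s := A) (hs := hA) (cut n) hk

theorem cutOp_isSelfAdjoint (n : ℕ) (k : Op H) : IsSelfAdjoint (cutOp n k) :=
  cfc_predicate (cut n) k

theorem cutOp_nonneg (n : ℕ) (k : Op H) : 0 ≤ cutOp n k :=
  cfc_nonneg (fun t _ => cut_nonneg n t)

theorem cutOp_norm_le (n : ℕ) (k : Op H) : ‖cutOp n k‖ ≤ 1 :=
  norm_cfc_le zero_le_one (fun t _ => by
    rw [Real.norm_eq_abs, abs_of_nonneg (cut_nonneg n t)]
    exact cut_le_one n t)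

theorem cutOp_mul_of_lt {m n : ℕ} (h : n < m) {k : Op H} (hk : 0 ≤ k) :
    cutOp m k * cutOp n k = cutOp m k := by
  have hsa : IsSelfAdjoint k := IsSelfAdjoint.of_nonneg hk
  unfold cutOp
  rw [← cfc_mul (cut m) (cut n) k (cut_continuous m).continuousOn (cut_continuous n).continuousOn]
  refine cfc_congr (fun t _ => cut_mul_cut h t)

theorem cutOp_mul_of_lt' {m n : ℕ} (h : n < m) {k : Op H} (hk : 0 ≤ k) :
    cutOp n k * cutOp m k = cutOp m k := by
  unfold cutOp
  rw [← cfc_mul (cut n) (cut m) k (cut_continuous n).continuousOn (cut_continuous m).continuousOn]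
  refine cfc_congr (fun t _ => ?_)
  show cut n t * cut m t = cut m t
  rw [mul_comm]
  exact cut_mul_cut h t

theorem cutOp_sq_le (n : ℕ) {k : Op H} (hk : 0 ≤ k) :
    cutOp n k * cutOp n k ≤ cutOp n k := by
  unfold cutOp
  rw [← cfc_mul (cut n) (cut n) k (cut_continuous n).continuousOn (cut_continuous n).continuousOn]
  refine cfc_mono (fun t _ => ?_) ?_ ?_
  · show cut n t * cut n t ≤ cut n t
    have h1 := cut_nonneg n t
    have h2 := cut_le_one n t
    nlinarith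
  · exact ((cut_continuous n).mul (cut_continuous n)).continuousOn
  · exact (cut_continuous n).continuousOn

theorem mul_cutOp_eq (n : ℕ) {k : Op H} (hk : 0 ≤ k) :
    k * cutOp n k = cfc (fun t => t * cut n t) k := by
  have hsa : IsSelfAdjoint k := IsSelfAdjoint.of_nonneg hk
  rw [cfc_mul (fun t => t) (cut n) k continuous_id.continuousOn (cut_continuous n).continuousOn,
    cfc_id' ℝ k]
  rfl

theorem norm_cut_aux (n : ℕ) {k : Op H} (hk : 0 ≤ k) (t : ℝ) (ht : t ∈ spectrum ℝ k) :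
    ‖t * cut n t‖ ≤ (1 / 2) ^ n := by
  have ht0 : 0 ≤ t := spectrum_nonneg_of_nonneg hk ht
  have h1 := cut_nonneg n t
  have h2 := cut_le_one n t
  rw [Real.norm_eq_abs, abs_of_nonneg (mul_nonneg ht0 h1)]
  rcases le_or_gt ((1 / 2) ^ n) t with h3 | h3
  · rw [cut_eq_zero h3, mul_zero]
    positivity
  · nlinarith

theorem norm_mul_cutOp_le (n : ℕ) {k : Op H} (hk : 0 ≤ k) :
    ‖k * cutOp n k‖ ≤ (1 / 2) ^ n := by
  rw [mul_cutOp_eq n hk]
  exact norm_cfc_le (by positivity) (norm_cut_aux n hk)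

theorem norm_cutOp_mul_le (n : ℕ) {k : Op H} (hk : 0 ≤ k) :
    ‖cutOp n k * k‖ ≤ (1 / 2) ^ n := by
  have h1 : cutOp n k * k = k * cutOp n k := by
    have hsa : IsSelfAdjoint k := IsSelfAdjoint.of_nonneg hk
    have h2 := (cfc_commute_cfc (cut n) (fun t => t) k).eq
    rw [cfc_id' ℝ k] at h2
    exact h2
  rw [h1]
  exact norm_mul_cutOp_le n hk

theorem exists_one_sub_cutOp (A : StarSubalgebra ℂ (Op H)) (hA : IsClosed (A : Set (Op H)))
    {k : Op H} (hk : k ∈ A) (hk0 : 0 ≤ k) (n : ℕ) :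
    ∃ g ∈ A, 1 - cutOp n k = g * k ∧ ‖g‖ ≤ 2 ^ (n + 1) := by
  have hsa : IsSelfAdjoint k := IsSelfAdjoint.of_nonneg hk0
  let G : ℝ → ℝ := fun t => (1 - cut n t) / max t ((1 / 2) ^ (n + 1))
  have hpos : ∀ t : ℝ, 0 < max t ((1 / 2) ^ (n + 1)) := fun t =>
    lt_of_lt_of_le (by positivity) (le_max_right _ _)
  have hG : Continuous G := by
    refine Continuous.div (continuous_const.sub (cut_continuous n)) (by fun_prop) ?_
    intro t
    exact (hpos t).ne'
  have hGt : ∀ t, G t * t = 1 - cut n t := by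
    intro t
    rcases le_or_gt t ((1 / 2) ^ (n + 1)) with h | h
    · simp only [G]
      rw [cut_eq_one h]
      simp
    · simp only [G]
      rw [max_eq_left h.le, div_mul_cancel₀]
      have : (0 : ℝ) < (1 / 2) ^ (n + 1) := by positivity
      linarith
  refine ⟨cfc G k, cfc_mem (𝕜' := ℂ) (s := A) (hs := hA) G hk, ?_, ?_⟩
  · have h1 : cfc G k * k = cfc (fun t => G t * t) k := by
      rw [cfc_mul G (fun t => t) k hG.continuousOn continuous_id.continuousOn, cfc_id' ℝ k]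
    rw [h1, cfc_congr (fun t _ => hGt t)]
    have h2 : cfc (fun t => 1 - cut n t) k = cfc (fun _ => (1 : ℝ)) k - cfc (cut n) k :=
      cfc_sub (fun _ => (1 : ℝ)) (cut n) k continuousOn_const (cut_continuous n).continuousOn
    rw [h2, cfc_const_one ℝ k]
    rfl
  · refine norm_cfc_le (by positivity) (fun t _ => ?_)
    simp only [G]
    rw [Real.norm_eq_abs, abs_of_nonneg (div_nonneg (sub_nonneg.mpr (cut_le_one n t))
      (hpos t).le), div_le_iff₀ (hpos t)]
    have h1 : 1 - cut n t ≤ 1 := by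
      have := cut_nonneg n t
      linarith
    have h2 : (2 : ℝ) ^ (n + 1) * (1 / 2) ^ (n + 1) = 1 := by
      rw [← mul_pow]
      norm_num
    have h3 : (2 : ℝ) ^ (n + 1) * (1 / 2) ^ (n + 1) ≤ 2 ^ (n + 1) * max t ((1 / 2) ^ (n + 1)) :=
      mul_le_mul_of_nonneg_left (le_max_right _ _) (by positivity)
    linarith

theorem cutOp_unitary_conj (n : ℕ) {k u : Op H} (hk : 0 ≤ k) (hu : u ∈ unitary (Op H)) :
    cutOp n (u * k * star u) = u * cutOp n k * star u := by
  have hsa : IsSelfAdjoint k := IsSelfAdjoint.of_nonneg hk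
  let φ := Unitary.conjStarAlgAut ℂ (Op H) ⟨u, hu⟩
  have hφ : ∀ x, φ x = u * x * star u := fun x => rfl
  have hφc : Continuous φ := by
    have : (fun x => φ x) = fun x => u * x * star u := funext hφ
    show Continuous (fun x => φ x)
    rw [this]
    fun_prop
  have h1 := StarAlgHomClass.map_cfc (S := ℂ) φ (cut n) k (cut_continuous n).continuousOn hφc hsa
    (hsa.map φ)
  rw [hφ, hφ] at h1
  exact h1.symm

/-- A criterion for norm convergence to zero, by testing along sequences. -/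
theorem tendsto_norm_zero_of_test (T : ℕ → Op H)
    (h : ∀ (φ : ℕ → ℕ) (x y : ℕ → H), (∀ j, j ≤ φ j) → (∀ j, ‖x j‖ ≤ 1) → (∀ j, ‖y j‖ ≤ 1) →
      Tendsto (fun j => ⟪y j, T (φ j) (x j)⟫_ℂ) (hyperfilter ℕ : Filter ℕ) (𝓝 0)) :
    Tendsto (fun n => ‖T n‖) atTop (𝓝 0) := by
  by_contra hcon
  rw [Metric.tendsto_atTop] at hcon
  push Not at hcon
  obtain ⟨ε, hε, hN⟩ := hcon
  choose φ hφ1 hφ2 using hN
  have hφ3 : ∀ j, ε / 2 < ‖T (φ j)‖ := by
    intro j
    have h1 := hφ2 j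
    rw [dist_zero_right, norm_norm] at h1
    linarith
  have hx : ∀ j, ∃ x : H, ‖x‖ < 1 ∧ ε / 2 < ‖T (φ j) x‖ := fun j =>
    ContinuousLinearMap.exists_lt_apply_of_lt_opNorm (T (φ j)) (hφ3 j)
  choose x hx1 hx2 using hx
  have hpos : ∀ j, 0 < ‖T (φ j) (x j)‖ := fun j => lt_trans (by linarith) (hx2 j)
  let y : ℕ → H := fun j => ((‖T (φ j) (x j)‖⁻¹ : ℝ) : ℂ) • T (φ j) (x j)
  have hy1 : ∀ j, ‖y j‖ ≤ 1 := by
    intro j
    simp only [y]
    rw [norm_smul, Complex.norm_real, norm_inv, norm_norm, inv_mul_cancel₀ (hpos j).ne']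
  have hy2 : ∀ j, ⟪y j, T (φ j) (x j)⟫_ℂ = ((‖T (φ j) (x j)‖ : ℝ) : ℂ) := by
    intro j
    simp only [y]
    rw [inner_smul_left, Complex.conj_ofReal, inner_self_eq_norm_sq_to_K]
    have h1 := (hpos j).ne'
    have h2 : ((‖T (φ j) (x j)‖ : ℝ) : ℂ) ≠ 0 := by exact_mod_cast h1
    rw [Complex.ofReal_inv, sq]
    exact inv_mul_cancel_left₀ h2 _
  have h1 := h φ x y hφ1 (fun j => (hx1 j).le) hy1
  have h2 : Tendsto (fun j => ‖⟪y j, T (φ j) (x j)⟫_ℂ‖) (hyperfilter ℕ : Filter ℕ) (𝓝 0) := by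
    simpa using h1.norm
  have h3 : ∀ j, ε / 2 ≤ ‖⟪y j, T (φ j) (x j)⟫_ℂ‖ := by
    intro j
    rw [hy2, Complex.norm_real, norm_norm]
    exact (hx2 j).le
  have h4 : ε / 2 ≤ 0 := ge_of_tendsto' h2 h3
  linarith

theorem tendsto_hyper {α : Type*} {f : ℕ → α} {l : Filter α} (h : Tendsto f atTop l) :
    Tendsto f (hyperfilter ℕ : Filter ℕ) l :=
  h.mono_left Nat.hyperfilter_le_atTop

/-- the class of a null sequence is zero -/
theorem mk_eq_zero {mk : (ℕ → H) → K}
    (hmk : ∀ x y : ℕ → H, (∃ C : ℝ, ∀ n, ‖x n‖ ≤ C) → (∃ C : ℝ, ∀ n, ‖y n‖ ≤ C) →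
      Tendsto (fun n => ⟪x n, y n⟫_ℂ) (hyperfilter ℕ : Filter ℕ) (𝓝 ⟪mk x, mk y⟫_ℂ))
    {x : ℕ → H} {b : ℕ → ℝ} (hb : ∀ n, ‖x n‖ ≤ b n) (hb0 : Tendsto b atTop (𝓝 0))
    (hbd : ∃ C : ℝ, ∀ n, ‖x n‖ ≤ C) : mk x = 0 := by
  have h1 := hmk x x hbd hbd
  have h2 : Tendsto (fun n => ‖x n‖) atTop (𝓝 0) :=
    squeeze_zero (fun n => norm_nonneg _) hb hb0
  have h3 : Tendsto (fun n => ⟪x n, x n⟫_ℂ) (hyperfilter ℕ : Filter ℕ) (𝓝 0) := by
    have h4 : Tendsto (fun n => ((‖x n‖ : ℝ) : ℂ) ^ 2) atTop (𝓝 0) := by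
      have h5 : Tendsto (fun n => ((‖x n‖ : ℝ) : ℂ)) atTop (𝓝 ((0 : ℝ) : ℂ)) :=
        (Complex.continuous_ofReal.tendsto 0).comp h2
      simpa using h5.pow 2
    refine tendsto_hyper ?_
    refine h4.congr (fun n => ?_)
    exact (inner_self_eq_norm_sq_to_K (𝕜 := ℂ) (x n)).symm
  have h6 := tendsto_nhds_unique h1 h3
  exact inner_self_eq_zero.mp h6

/-- the class of a sequence of unit vectors has norm one -/
theorem norm_mk_eq_one {mk : (ℕ → H) → K}
    (hmk : ∀ x y : ℕ → H, (∃ C : ℝ, ∀ n, ‖x n‖ ≤ C) → (∃ C : ℝ, ∀ n, ‖y n‖ ≤ C) →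
      Tendsto (fun n => ⟪x n, y n⟫_ℂ) (hyperfilter ℕ : Filter ℕ) (𝓝 ⟪mk x, mk y⟫_ℂ))
    {x : ℕ → H} (hx : ∀ n, ‖x n‖ = 1) : ‖mk x‖ = 1 := by
  have hb : ∃ C : ℝ, ∀ n, ‖x n‖ ≤ C := ⟨1, fun n => (hx n).le⟩
  have h1 := hmk x x hb hb
  have h2 : (fun n => ⟪x n, x n⟫_ℂ) = fun _ => (1 : ℂ) := by
    funext n
    rw [inner_self_eq_norm_sq_to_K, hx n]
    simp
  rw [h2] at h1
  have h3 := tendsto_nhds_unique h1 tendsto_const_nhds
  have h4 : ‖mk x‖ ^ 2 = 1 := by
    have h5 : (((‖mk x‖ : ℝ) : ℂ)) ^ 2 = 1 := by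
      rw [← h3]
      exact (inner_self_eq_norm_sq_to_K (𝕜 := ℂ) (mk x)).symm
    have h6 : (((‖mk x‖ ^ 2 : ℝ)) : ℂ) = ((1 : ℝ) : ℂ) := by
      rw [Complex.ofReal_pow, h5, Complex.ofReal_one]
    exact Complex.ofReal_injective h6
  nlinarith [norm_nonneg (mk x)]

theorem norm_op_apply_le {T : Op H} {C : ℝ} (hT : ‖T‖ ≤ C) {x : H} (hx : ‖x‖ ≤ 1) :
    ‖T x‖ ≤ C := by
  calc ‖T x‖ ≤ ‖T‖ * ‖x‖ := T.le_opNorm x
    _ ≤ ‖T‖ * 1 := mul_le_mul_of_nonneg_left hx (norm_nonneg _)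
    _ ≤ C := by rw [mul_one]; exact hT

theorem cutOp_apply_norm_le (n : ℕ) (k : Op H) {x : H} (hx : ‖x‖ ≤ 1) :
    ‖cutOp n k x‖ ≤ 1 := norm_op_apply_le (cutOp_norm_le n k) hx

theorem cutOp_inner (n : ℕ) (k : Op H) (x y : H) :
    ⟪x, cutOp n k y⟫_ℂ = ⟪cutOp n k x, y⟫_ℂ := by
  have h := cutOp_isSelfAdjoint n k
  have h2 := (ContinuousLinearMap.isSelfAdjoint_iff_isSymmetric.mp h) x y
  exact h2.symm

theorem ker_of_cut {P : Op H →⋆ₐ[ℂ] Op K} {mk : (ℕ → H) → K}
    (hmk : ∀ x y : ℕ → H, (∃ C : ℝ, ∀ n, ‖x n‖ ≤ C) → (∃ C : ℝ, ∀ n, ‖y n‖ ≤ C) →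
      Tendsto (fun n => ⟪x n, y n⟫_ℂ) (hyperfilter ℕ : Filter ℕ) (𝓝 ⟪mk x, mk y⟫_ℂ))
    (hPmk : ∀ (T : Op H) (x : ℕ → H), (∃ C : ℝ, ∀ n, ‖x n‖ ≤ C) →
      P T (mk x) = mk (fun n => T (x n))) {k : Op H} (hk : 0 ≤ k) {φ : ℕ → ℕ}
    (hφ : ∀ j, j ≤ φ j) {x : ℕ → H} (hx : ∀ j, ‖x j‖ ≤ 1) :
    P k (mk (fun j => cutOp (φ j) k (x j))) = 0 := by
  have hb : ∃ C : ℝ, ∀ n, ‖cutOp (φ n) k (x n)‖ ≤ C :=
    ⟨1, fun n => cutOp_apply_norm_le _ _ (hx n)⟩
  rw [hPmk k _ hb]
  have h1 : ∀ j, ‖k (cutOp (φ j) k (x j))‖ ≤ (1 / 2) ^ j := by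
    intro j
    have h2 : k (cutOp (φ j) k (x j)) = (k * cutOp (φ j) k) (x j) := rfl
    rw [h2]
    refine le_trans (norm_op_apply_le (norm_mul_cutOp_le (φ j) hk) (hx j)) ?_
    exact pow_le_pow_of_le_one (by norm_num) (by norm_num) (hφ j)
  refine mk_eq_zero hmk h1 ?_ ⟨1, fun j => (h1 j).trans ?_⟩
  · exact tendsto_pow_atTop_nhds_zero_of_lt_one (by norm_num) (by norm_num)
  · exact pow_le_one₀ (by norm_num) (by norm_num)

/-- (L1) -/
theorem DetAt.tendsto {P : Op H →⋆ₐ[ℂ] Op K} (hP : IsUltraRep P) {k x : Op H} {c : ℂ}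
    (hk : 0 ≤ k) (h : DetAt P k x c) :
    Tendsto (fun n => ‖cutOp n k * x * cutOp n k - c • (cutOp n k * cutOp n k)‖) atTop
      (𝓝 0) := by
  obtain ⟨mk, hmk, hPmk⟩ := hP
  refine tendsto_norm_zero_of_test
    (fun n => cutOp n k * x * cutOp n k - c • (cutOp n k * cutOp n k)) ?_
  intro φ u v hφ hu hv
  set z : ℕ → H := fun j => cutOp (φ j) k (u j) with hz
  set w : ℕ → H := fun j => cutOp (φ j) k (v j) with hw
  have hzb : ∃ C : ℝ, ∀ n, ‖z n‖ ≤ C := ⟨1, fun n => cutOp_apply_norm_le _ _ (hu n)⟩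
  have hwb : ∃ C : ℝ, ∀ n, ‖w n‖ ≤ C := ⟨1, fun n => cutOp_apply_norm_le _ _ (hv n)⟩
  have hxzb : ∃ C : ℝ, ∀ n, ‖x (z n)‖ ≤ C :=
    ⟨‖x‖, fun n => norm_op_apply_le le_rfl (cutOp_apply_norm_le _ _ (hu n))⟩
  have hz0 : P k (mk z) = 0 := ker_of_cut hmk hPmk hk hφ hu
  have hw0 : P k (mk w) = 0 := ker_of_cut hmk hPmk hk hφ hv
  have h1 := h (mk z) (mk w) hz0 hw0
  rw [hPmk x z hzb] at h1
  have h2 := hmk w (fun n => x (z n)) hwb hxzb
  have h3 := (hmk w z hwb hzb).const_mul c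
  have h4 := h2.sub h3
  rw [h1, sub_self] at h4
  refine h4.congr (fun j => ?_)
  have h5 : (cutOp (φ j) k * x * cutOp (φ j) k - c • (cutOp (φ j) k * cutOp (φ j) k)) (u j)
      = cutOp (φ j) k (x (z j)) - c • cutOp (φ j) k (z j) := rfl
  show _ = ⟪v j, (cutOp (φ j) k * x * cutOp (φ j) k
    - c • (cutOp (φ j) k * cutOp (φ j) k)) (u j)⟫_ℂ
  rw [h5, inner_sub_right, inner_smul_right, cutOp_inner (φ j) k (v j) (x (z j)),
    cutOp_inner (φ j) k (v j) (z j)]

/-- (L2) -/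
theorem Ineq.tendsto {P : Op H →⋆ₐ[ℂ] Op K} (hP : IsUltraRep P) {k1 k2 x : Op H}
    (hk1 : 0 ≤ k1) (hk2 : 0 ≤ k2)
    (h : ∀ z1 z2 : K, P k1 z1 = 0 → P k2 z2 = 0 → ⟪z2, P x z1⟫_ℂ = 0) :
    Tendsto (fun n => ‖cutOp n k2 * x * cutOp n k1‖) atTop (𝓝 0) := by
  obtain ⟨mk, hmk, hPmk⟩ := hP
  refine tendsto_norm_zero_of_test (fun n => cutOp n k2 * x * cutOp n k1) ?_
  intro φ u v hφ hu hv
  set z : ℕ → H := fun j => cutOp (φ j) k1 (u j) with hz
  set w : ℕ → H := fun j => cutOp (φ j) k2 (v j) with hw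
  have hzb : ∃ C : ℝ, ∀ n, ‖z n‖ ≤ C := ⟨1, fun n => cutOp_apply_norm_le _ _ (hu n)⟩
  have hwb : ∃ C : ℝ, ∀ n, ‖w n‖ ≤ C := ⟨1, fun n => cutOp_apply_norm_le _ _ (hv n)⟩
  have hxzb : ∃ C : ℝ, ∀ n, ‖x (z n)‖ ≤ C :=
    ⟨‖x‖, fun n => norm_op_apply_le le_rfl (cutOp_apply_norm_le _ _ (hu n))⟩
  have hz0 : P k1 (mk z) = 0 := ker_of_cut hmk hPmk hk1 hφ hu
  have hw0 : P k2 (mk w) = 0 := ker_of_cut hmk hPmk hk2 hφ hv
  have h1 := h (mk z) (mk w) hz0 hw0
  rw [hPmk x z hzb] at h1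
  have h2 := hmk w (fun n => x (z n)) hwb hxzb
  rw [h1] at h2
  refine h2.congr (fun j => ?_)
  have h5 : (cutOp (φ j) k2 * x * cutOp (φ j) k1) (u j) = cutOp (φ j) k2 (x (z j)) := rfl
  show _ = ⟪v j, (cutOp (φ j) k2 * x * cutOp (φ j) k1) (u j)⟫_ℂ
  rw [h5, cutOp_inner]

/-- approximate kernel vectors give kernel vectors in the ultrapower -/
theorem exists_ker {P : Op H →⋆ₐ[ℂ] Op K} (hP : IsUltraRep P) {k : Op H}
    (h : ∀ ε : ℝ, 0 < ε → ∃ x : H, x ≠ 0 ∧ ‖k x‖ ≤ ε * ‖x‖) :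
    ∃ z : K, ‖z‖ = 1 ∧ P k z = 0 := by
  obtain ⟨mk, hmk, hPmk⟩ := hP
  choose x hx1 hx2 using fun n : ℕ => h (1 / ((n : ℝ) + 1)) (by positivity)
  have hpos : ∀ n, 0 < ‖x n‖ := fun n => norm_pos_iff.mpr (hx1 n)
  let y : ℕ → H := fun n => ((‖x n‖⁻¹ : ℝ) : ℂ) • x n
  have hy : ∀ n, ‖y n‖ = 1 := by
    intro n
    simp only [y]
    rw [norm_smul, Complex.norm_real, norm_inv, norm_norm, inv_mul_cancel₀ (hpos n).ne']
  have hyb : ∃ C : ℝ, ∀ n, ‖y n‖ ≤ C := ⟨1, fun n => (hy n).le⟩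
  have hky : ∀ n : ℕ, ‖k (y n)‖ ≤ 1 / ((n : ℝ) + 1) := by
    intro n
    simp only [y]
    rw [map_smul, norm_smul, Complex.norm_real, norm_inv, norm_norm, inv_mul_le_iff₀ (hpos n),
      mul_comm]
    exact hx2 n
  refine ⟨mk y, norm_mk_eq_one hmk hy, ?_⟩
  rw [hPmk k y hyb]
  refine mk_eq_zero hmk hky tendsto_one_div_add_atTop_nhds_zero_nat
    ⟨1, fun n => (hky n).trans ?_⟩
  rw [div_le_one (by positivity)]
  have : (0 : ℝ) ≤ n := Nat.cast_nonneg n
  linarith

/-- constant sequences -/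
theorem exists_const {P : Op H →⋆ₐ[ℂ] Op K} (hP : IsUltraRep P) :
    ∃ j : H → K, (∀ x y : H, ⟪j x, j y⟫_ℂ = ⟪x, y⟫_ℂ) ∧
      ∀ (T : Op H) (x : H), P T (j x) = j (T x) := by
  obtain ⟨mk, hmk, hPmk⟩ := hP
  refine ⟨fun x => mk (fun _ => x), ?_, ?_⟩
  · intro x y
    have h1 := hmk (fun _ => x) (fun _ => y) ⟨‖x‖, fun _ => le_rfl⟩ ⟨‖y‖, fun _ => le_rfl⟩
    exact tendsto_nhds_unique h1 tendsto_const_nhds
  · intro T x
    exact hPmk T (fun _ => x) ⟨‖x‖, fun _ => le_rfl⟩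

end

end Vale.Agent.P070
end
end

section

section

/-!
# Adding one unitary (KEY-UE and KEY-V)
-/

namespace Vale.Agent.P070

open scoped InnerProductSpace
open Filter Topology

namespace Key

variable {K : Type*} [NormedAddCommGroup K] [InnerProductSpace ℂ K] [CompleteSpace K]

/-- projection onto the kernel -/
noncomputable def pk (k : Op K) : Op K :=
  (LinearMap.ker (k : K →ₗ[ℂ] K)).starProjection

theorem mem_ker' {k : Op K} {z : K} : z ∈ LinearMap.ker (k : K →ₗ[ℂ] K) ↔ k z = 0 := by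
  simp

theorem apply_pk (k : Op K) (z : K) : k (pk k z) = 0 :=
  mem_ker'.1 (Submodule.starProjection_apply_mem _ z)

theorem pk_of_ker {k : Op K} {z : K} (h : k z = 0) : pk k z = z :=
  Submodule.starProjection_eq_self_iff.2 (mem_ker'.2 h)

theorem pk_idem (k : Op K) : pk k * pk k = pk k := by
  ext z
  exact pk_of_ker (apply_pk k z)

theorem pk_star (k : Op K) : star (pk k) = pk k := by
  exact (isSelfAdjoint_starProjection _).star_eq

theorem inner_pk (k : Op K) (w y : K) : ⟪w, pk k y⟫_ℂ = ⟪pk k w, y⟫_ℂ := by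
  have h1 := ContinuousLinearMap.adjoint_inner_left (pk k) y w
  have h2 : ContinuousLinearMap.adjoint (pk k) = pk k := pk_star k
  rw [h2] at h1
  exact h1.symm

theorem mul_pk (k : Op K) : k * pk k = 0 := by
  ext z; exact apply_pk k z

/-- an operator leaving a closed subspace and its orthogonal complement invariant commutes with
the projection -/
theorem comm_proj {V : Submodule ℂ K} [V.HasOrthogonalProjection] {T : Op K}
    (h : ∀ v ∈ V, T v ∈ V) (h' : ∀ v ∈ V, star T v ∈ V) :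
    V.starProjection * T = T * V.starProjection := by
  ext z
  refine Submodule.eq_starProjection_of_mem_of_inner_eq_zero
    (h _ (Submodule.starProjection_apply_mem V z)) fun w hw => ?_
  show ⟪T z - T (V.starProjection z), w⟫_ℂ = 0
  rw [← map_sub, ← ContinuousLinearMap.adjoint_inner_right]
  exact Submodule.starProjection_inner_eq_zero _ _ (h' w hw)

/-- the double commutant -/
noncomputable def cc (G : StarSubalgebra ℂ (Op K)) : StarSubalgebra ℂ (Op K) :=
  StarSubalgebra.centralizer ℂ (StarSubalgebra.centralizer ℂ (G : Set (Op K)) : Set (Op K))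

variable {G : StarSubalgebra ℂ (Op K)}

theorem mem_c_iff {T : Op K} :
    T ∈ StarSubalgebra.centralizer ℂ (G : Set (Op K)) ↔ ∀ x ∈ G, x * T = T * x := by
  rw [StarSubalgebra.mem_centralizer_iff]
  exact ⟨fun h x hx => (h x hx).1, fun h x hx => ⟨h x hx, h _ (star_mem hx)⟩⟩

theorem mem_cc_iff {x : Op K} :
    x ∈ cc G ↔ ∀ T, (∀ y ∈ G, y * T = T * y) → T * x = x * T := by
  rw [cc, StarSubalgebra.mem_centralizer_iff]
  constructor
  · intro h T hT
    exact (h T (mem_c_iff.2 hT)).1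
  · intro h T hT
    exact ⟨h T (mem_c_iff.1 hT), h _ (mem_c_iff.1 (star_mem hT))⟩

theorem le_cc : G ≤ cc G := fun x hx => mem_cc_iff.2 fun _ hT => (hT x hx).symm

/-- the cyclic subspace -/
noncomputable def cyc (G : StarSubalgebra ℂ (Op K)) (z : K) : Submodule ℂ K :=
  (Submodule.map ((ContinuousLinearMap.apply ℂ K z : Op K →L[ℂ] K) : Op K →ₗ[ℂ] K)
    (Subalgebra.toSubmodule G.toSubalgebra)).topologicalClosure

theorem mem_cyc {x : Op K} (hx : x ∈ G) (z : K) : x z ∈ cyc G z :=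
  Submodule.le_topologicalClosure _ ⟨x, hx, rfl⟩

theorem cyc_closure {z y : K} (h : y ∈ cyc G z) : y ∈ closure {w : K | ∃ x ∈ G, w = x z} := by
  have h' : y ∈ closure ((Submodule.map
    ((ContinuousLinearMap.apply ℂ K z : Op K →L[ℂ] K) : Op K →ₗ[ℂ] K)
      (Subalgebra.toSubmodule G.toSubalgebra) : Submodule ℂ K) : Set K) := h
  refine closure_mono ?_ h'
  rintro _ ⟨x, hx, rfl⟩
  exact ⟨x, hx, rfl⟩

instance (z : K) : (cyc G z).HasOrthogonalProjection := by
  have : CompleteSpace (cyc G z) :=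
    (Submodule.isClosed_topologicalClosure _).completeSpace_coe
  infer_instance

theorem cyc_invariant {x : Op K} (hx : x ∈ G) (z : K) : ∀ v ∈ cyc G z, x v ∈ cyc G z := by
  intro v hv
  have h : Set.MapsTo x (Submodule.map
    ((ContinuousLinearMap.apply ℂ K z : Op K →L[ℂ] K) : Op K →ₗ[ℂ] K)
      (Subalgebra.toSubmodule G.toSubalgebra) : Submodule ℂ K) (Submodule.map
    ((ContinuousLinearMap.apply ℂ K z : Op K →L[ℂ] K) : Op K →ₗ[ℂ] K)
      (Subalgebra.toSubmodule G.toSubalgebra) : Submodule ℂ K) := by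
    rintro _ ⟨y, hy, rfl⟩
    exact ⟨x * y, G.mul_mem hx hy, rfl⟩
  exact h.closure x.continuous hv

/-- elements of the double commutant stay in the cyclic subspace -/
theorem cc_apply {x : Op K} (hx : x ∈ cc G) (z : K) : x z ∈ cyc G z := by
  have h1 : (cyc G z).starProjection * x = x * (cyc G z).starProjection := by
    refine mem_cc_iff.1 hx _ fun y hy => ?_
    exact (comm_proj (cyc_invariant hy z) (cyc_invariant (star_mem hy) z)).symm
  have h2 : (cyc G z).starProjection z = z :=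
    Submodule.starProjection_eq_self_iff.2 (by simpa using mem_cyc (one_mem G) z)
  have h3 : (cyc G z).starProjection (x z) = x z := by
    have := congrArg (fun T : Op K => T z) h1
    simpa [h2] using this
  rw [← h3]
  exact Submodule.starProjection_apply_mem _ _

theorem pk_mem {k : Op K} (hk : k ∈ G) : pk k ∈ cc G := by
  refine mem_cc_iff.2 fun T hT => ?_
  refine (comm_proj (V := LinearMap.ker (k : K →ₗ[ℂ] K)) ?_ ?_).symm
  · intro v hv
    rw [mem_ker'] at hv ⊢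
    have := congrArg (fun S : Op K => S v) (hT k hk)
    simpa [hv] using this
  · intro v hv
    rw [mem_ker'] at hv ⊢
    have h1 : k * star T = star T * k := by
      have := congrArg star (hT (star k) (star_mem hk))
      simpa using this.symm
    have := congrArg (fun S : Op K => S v) h1
    simpa [hv] using this

/-- vectors orthogonal to the cyclic subspace are orthogonal to the values of the double
commutant -/
theorem inner_cc {x : Op K} (hx : x ∈ cc G) {z w : K} (h : ∀ y ∈ G, ⟪w, y z⟫_ℂ = 0) :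
    ⟪w, x z⟫_ℂ = 0 := by
  have h1 := cyc_closure (cc_apply hx z)
  have h2 : closure {y : K | ∃ x ∈ G, y = x z} ⊆ {y : K | ⟪w, y⟫_ℂ = 0} := by
    refine closure_minimal ?_ (isClosed_eq (by fun_prop) continuous_const)
    rintro _ ⟨x, hx, rfl⟩
    exact h x hx
  exact h2 h1

/-- a sesquilinear form vanishing on orthogonal pairs is a multiple of the inner product -/
theorem scalar_of_orth {V : Submodule ℂ K} {x : Op K}
    (h : ∀ z ∈ V, ∀ w ∈ V, ⟪w, z⟫_ℂ = 0 → ⟪w, x z⟫_ℂ = 0) :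
    ∃ c : ℂ, ∀ z ∈ V, ∀ w ∈ V, ⟪w, x z⟫_ℂ = c * ⟪w, z⟫_ℂ := by
  by_cases hV : ∃ z0 ∈ V, ‖z0‖ = 1
  · obtain ⟨z0, hz0, hn⟩ := hV
    have hnn : ⟪z0, z0⟫_ℂ = 1 := by
      rw [inner_self_eq_norm_sq_to_K, hn]; simp
    refine ⟨⟪z0, x z0⟫_ℂ, ?_⟩
    -- step 1: eigenvector property
    have h1 : ∀ z ∈ V, ∀ w ∈ V, ⟪z, z⟫_ℂ * ⟪w, x z⟫_ℂ = ⟪z, x z⟫_ℂ * ⟪w, z⟫_ℂ := by
      intro z hz w hw
      have h2 := h z hz ((starRingEnd ℂ ⟪z, z⟫_ℂ) • w - (starRingEnd ℂ ⟪w, z⟫_ℂ) • z)
        (V.sub_mem (V.smul_mem _ hw) (V.smul_mem _ hz)) (by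
          rw [inner_sub_left, inner_smul_left, inner_smul_left]
          simp only [RingHomCompTriple.comp_apply, RingHom.id_apply]
          ring)
      rw [inner_sub_left, inner_smul_left, inner_smul_left, sub_eq_zero] at h2
      simp only [RingHomCompTriple.comp_apply, RingHom.id_apply] at h2
      rw [h2, mul_comm]
    -- step 2: unit vectors
    have h2 : ∀ z ∈ V, ⟪z0, z⟫_ℂ = 0 → ⟪z, x z⟫_ℂ = ⟪z0, x z0⟫_ℂ * ⟪z, z⟫_ℂ := by
      intro z hz hz0z
      have hzz0 : ⟪z, z0⟫_ℂ = 0 := inner_eq_zero_symm.1 hz0z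
      have a1 := h1 (z0 + z) (V.add_mem hz0 hz) z hz
      have a2 := h z0 hz0 z hz hzz0
      have a3 := h z hz z0 hz0 hz0z
      simp only [inner_add_left, inner_add_right, map_add, hz0z, hzz0, a2, a3, hnn, add_zero,
        zero_add] at a1
      linear_combination a1
    intro z hz w hw
    -- decompose
    have hd : ∀ v ∈ V, ∃ a : ℂ, ∃ v' ∈ V, ⟪z0, v'⟫_ℂ = 0 ∧ v = a • z0 + v' := by
      intro v hv
      refine ⟨⟪z0, v⟫_ℂ, v - ⟪z0, v⟫_ℂ • z0, V.sub_mem hv (V.smul_mem _ hz0), ?_, by abel⟩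
      rw [inner_sub_right, inner_smul_right, hnn]; ring
    obtain ⟨a, z', hz', e1, rfl⟩ := hd z hz
    obtain ⟨b, w', hw', e2, rfl⟩ := hd w hw
    have e1' : ⟪z', z0⟫_ℂ = 0 := inner_eq_zero_symm.1 e1
    have e2' : ⟪w', z0⟫_ℂ = 0 := inner_eq_zero_symm.1 e2
    have b1 := h z0 hz0 w' hw' e2'
    have b2 := h z' hz' z0 hz0 e1
    -- the orthogonal part
    have b3 : ⟪w', x z'⟫_ℂ = ⟪z0, x z0⟫_ℂ * ⟪w', z'⟫_ℂ := by
      by_cases hz0' : z' = 0
      · subst hz0'; simp
      · have c1 := h1 z' hz' w' hw'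
        rw [h2 z' hz' e1] at c1
        have c2 : ⟪z', z'⟫_ℂ ≠ 0 := by
          intro hh; exact hz0' (inner_self_eq_zero.1 hh)
        refine mul_left_cancel₀ c2 ?_
        rw [c1]; ring
    simp only [inner_add_left, inner_add_right, map_add, map_smul, inner_smul_left,
      inner_smul_right, e1, e2', b1, b2, b3, hnn]
    ring
  · refine ⟨0, fun z hz w hw => ?_⟩
    have : z = 0 := by
      by_contra hne
      refine hV ⟨((‖z‖⁻¹ : ℝ) : ℂ) • z, V.smul_mem _ hz, ?_⟩
      rw [norm_smul, Complex.norm_real, norm_inv, norm_norm,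
        inv_mul_cancel₀ (norm_ne_zero_iff.2 hne)]
    subst this; simp

/-! ### The configuration -/

theorem pk_scalar {k : Op K}
    (D : ∀ x ∈ G, ∃ c : ℂ, ∀ z w, k z = 0 → k w = 0 → ⟪w, x z⟫_ℂ = c * ⟪w, z⟫_ℂ)
    {x : Op K} (hx : x ∈ cc G) : ∃ c : ℂ, pk k * x * pk k = c • pk k := by
  obtain ⟨c, hc⟩ := scalar_of_orth (V := LinearMap.ker (k : K →ₗ[ℂ] K)) (x := x) (by
    intro z hz w hw hwz
    refine inner_cc hx fun y hy => ?_
    obtain ⟨c, hc⟩ := D y hy
    rw [hc z w (mem_ker'.1 hz) (mem_ker'.1 hw), hwz, mul_zero])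
  refine ⟨c, ?_⟩
  ext z
  refine ext_inner_left ℂ fun w => ?_
  have h1 : ⟪w, pk k (x (pk k z))⟫_ℂ = ⟪pk k w, x (pk k z)⟫_ℂ := inner_pk _ _ _
  have h2 : ⟪w, pk k z⟫_ℂ = ⟪pk k w, pk k z⟫_ℂ := by
    have h3 : pk k (pk k z) = pk k z := pk_of_ker (apply_pk k z)
    rw [← inner_pk, h3]
  show ⟪w, pk k (x (pk k z))⟫_ℂ = ⟪w, c • pk k z⟫_ℂ
  rw [h1, hc _ (mem_ker'.2 (apply_pk k z)) _ (mem_ker'.2 (apply_pk k w)), inner_smul_right, h2]

theorem pk_orth {k1 k2 : Op K}
    (I : ∀ x ∈ G, ∀ z1 z2, k1 z1 = 0 → k2 z2 = 0 → ⟪z2, x z1⟫_ℂ = 0)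
    {x : Op K} (hx : x ∈ cc G) : pk k2 * x * pk k1 = 0 := by
  ext z
  refine ext_inner_left ℂ fun w => ?_
  have h1 : ⟪w, pk k2 (x (pk k1 z))⟫_ℂ = ⟪pk k2 w, x (pk k1 z)⟫_ℂ := inner_pk _ _ _
  show ⟪w, pk k2 (x (pk k1 z))⟫_ℂ = ⟪w, (0 : K)⟫_ℂ
  rw [h1, inner_zero_right]
  exact inner_cc hx fun y hy => I y hy _ _ (apply_pk k1 z) (apply_pk k2 w)

/-- the data of a gluing unitary in a representation -/
structure Glue (G : StarSubalgebra ℂ (Op K)) (k1 k2 u : Op K) : Prop where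
  m1 : k1 ∈ G
  m2 : k2 ∈ G
  sa : IsSelfAdjoint k1
  hu : u ∈ unitary (Op K)
  huk : u * k1 ∈ G
  hc : ∀ z, k1 z = 0 → k2 (u z) = 0
  hc' : ∀ z, k2 z = 0 → k1 (star u z) = 0
  D1 : ∀ x ∈ G, ∃ c : ℂ, ∀ z w, k1 z = 0 → k1 w = 0 → ⟪w, x z⟫_ℂ = c * ⟪w, z⟫_ℂ
  D2 : ∀ x ∈ G, ∃ c : ℂ, ∀ z w, k2 z = 0 → k2 w = 0 → ⟪w, x z⟫_ℂ = c * ⟪w, z⟫_ℂ
  I : ∀ x ∈ G, ∀ z1 z2, k1 z1 = 0 → k2 z2 = 0 → ⟪z2, x z1⟫_ℂ = 0

namespace Glue

variable {k1 k2 u : Op K}

theorem u1 (h : Glue G k1 k2 u) : pk k2 * u * pk k1 = u * pk k1 := by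
  ext z
  exact pk_of_ker (h.hc _ (apply_pk k1 z))

theorem u2 (h : Glue G k1 k2 u) : pk k1 * star u * pk k2 = star u * pk k2 := by
  ext z
  exact pk_of_ker (h.hc' _ (apply_pk k2 z))

theorem u3 (h : Glue G k1 k2 u) : pk k2 * u = u * pk k1 := by
  have h1 := congrArg star h.u2
  simp only [star_mul, star_star, pk_star] at h1
  rw [← mul_assoc, h.u1] at h1
  exact h1.symm

theorem u4 (h : Glue G k1 k2 u) : pk k1 * star u = star u * pk k2 := by
  have h1 := congrArg star h.u3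
  simpa only [star_mul, pk_star] using h1.symm

theorem part_mem (h : Glue G k1 k2 u) : u * (1 - pk k1) ∈ cc G := by
  refine mem_cc_iff.2 fun T hT => ?_
  have hp : T * pk k1 = pk k1 * T := mem_cc_iff.1 (pk_mem h.m1) T hT
  have h1 : (T * u - u * T) * k1 = 0 := by
    have a1 := hT k1 h.m1
    have a2 := hT _ h.huk
    rw [sub_mul, mul_assoc T, ← a2, mul_assoc u T, ← a1, ← mul_assoc, sub_self]
  have h2 : (T * u - u * T) * (1 - pk k1) = 0 := by
    ext z
    have h3 : (1 - pk k1 : Op K) z ∈ (LinearMap.ker (k1 : K →ₗ[ℂ] K))ᗮ :=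
      Submodule.sub_starProjection_mem_orthogonal z
    have h4 : (LinearMap.ker (k1 : K →ₗ[ℂ] K))ᗮ =
        (LinearMap.range ((star k1 : Op K) : K →ₗ[ℂ] K)).topologicalClosure :=
      ContinuousLinearMap.orthogonal_ker k1
    rw [h4, h.sa.star_eq] at h3
    have h5 : ((LinearMap.range (k1 : K →ₗ[ℂ] K) : Submodule ℂ K) : Set K) ⊆
        {y : K | (T * u - u * T) y = 0} := by
      rintro _ ⟨y, rfl⟩
      exact congrArg (fun S : Op K => S y) h1
    have h6 := closure_minimal h5 (isClosed_eq (T * u - u * T).continuous continuous_const)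
    exact h6 h3
  rw [sub_mul, sub_eq_zero] at h2
  rw [← mul_assoc, h2, mul_assoc, mul_assoc]
  congr 1
  rw [mul_sub, sub_mul, mul_one, one_mul, hp]

theorem u_eq (u k1 : Op K) : u = u * (1 - pk k1) + u * pk k1 := by
  rw [mul_sub, mul_one, sub_add_cancel]

theorem star_u_eq (h : Glue G k1 k2 u) :
    star u = star (u * (1 - pk k1)) + star u * pk k2 := by
  rw [star_mul, star_sub, star_one, pk_star, sub_mul, one_mul, h.u4, sub_add_cancel]

/-- the set of generators -/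
def gen (G : StarSubalgebra ℂ (Op K)) (k1 k2 u E : Op K) : Set (Op K) :=
  {X | (∃ n ∈ cc G, X = n * E) ∨ (∃ n ∈ cc G, ∃ m ∈ cc G, X = n * (u * pk k1) * m * E) ∨
    (∃ n ∈ cc G, ∃ m ∈ cc G, X = n * (star u * pk k2) * m * E)}

variable {E : Op K}

theorem stable_n {n : Op K} (hn : n ∈ cc G) {X : Op K}
    (hX : X ∈ Submodule.span ℂ (gen G k1 k2 u E)) :
    n * X ∈ Submodule.span ℂ (gen G k1 k2 u E) := by
  induction hX using Submodule.span_induction with
  | mem X hX =>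
    refine Submodule.subset_span ?_
    rcases hX with ⟨a, ha, rfl⟩ | ⟨a, ha, b, hb, rfl⟩ | ⟨a, ha, b, hb, rfl⟩
    · exact Or.inl ⟨n * a, mul_mem hn ha, by simp only [mul_assoc]⟩
    · exact Or.inr (Or.inl ⟨n * a, mul_mem hn ha, b, hb, by simp only [mul_assoc]⟩)
    · exact Or.inr (Or.inr ⟨n * a, mul_mem hn ha, b, hb, by simp only [mul_assoc]⟩)
  | zero => simp
  | add X Y _ _ h1 h2 => rw [mul_add]; exact Submodule.add_mem _ h1 h2
  | smul c X _ h1 => rw [mul_smul_comm]; exact Submodule.smul_mem _ _ h1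

theorem stable_u (h : Glue G k1 k2 u) {X : Op K}
    (hX : X ∈ Submodule.span ℂ (gen G k1 k2 u E)) :
    u * X ∈ Submodule.span ℂ (gen G k1 k2 u E) := by
  have key : u * pk k1 * X ∈ Submodule.span ℂ (gen G k1 k2 u E) := by
    induction hX using Submodule.span_induction with
    | mem X hX =>
      rcases hX with ⟨a, ha, rfl⟩ | ⟨a, ha, b, hb, rfl⟩ | ⟨a, ha, b, hb, rfl⟩
      · exact Submodule.subset_span (Or.inr (Or.inl ⟨1, one_mem _, a, ha, by
          simp only [mul_assoc, one_mul]⟩))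
      · have e : u * pk k1 * (a * (u * pk k1) * b * E) = 0 := by
          have h0 : pk k1 * a * pk k2 = 0 := by
            have := congrArg star (pk_orth h.I (star_mem ha))
            simpa [star_mul, pk_star, mul_assoc] using this
          calc u * pk k1 * (a * (u * pk k1) * b * E)
              = u * (pk k1 * a * (u * pk k1)) * b * E := by simp only [mul_assoc]
            _ = u * (pk k1 * a * (pk k2 * u * pk k1)) * b * E := by rw [h.u1]
            _ = u * (pk k1 * a * pk k2) * u * pk k1 * b * E := by simp only [mul_assoc]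
            _ = 0 := by rw [h0]; simp
        rw [e]; exact Submodule.zero_mem _
      · obtain ⟨c, hc⟩ := pk_scalar h.D1 ha
        have e : u * pk k1 * (a * (star u * pk k2) * b * E) = c • (pk k2 * b * E) := by
          calc u * pk k1 * (a * (star u * pk k2) * b * E)
              = u * (pk k1 * a * (star u * pk k2)) * b * E := by simp only [mul_assoc]
            _ = u * (pk k1 * a * (pk k1 * star u * pk k2)) * b * E := by rw [h.u2]
            _ = u * (pk k1 * a * pk k1) * star u * pk k2 * b * E := by simp only [mul_assoc]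
            _ = c • (u * (pk k1 * star u * pk k2) * b * E) := by
                rw [hc]; simp only [mul_assoc, smul_mul_assoc, mul_smul_comm]
            _ = c • (u * (star u * pk k2) * b * E) := by rw [h.u2]
            _ = c • (u * star u * pk k2 * b * E) := by simp only [mul_assoc]
            _ = c • (pk k2 * b * E) := by rw [Unitary.mul_star_self_of_mem h.hu, one_mul]
        rw [e]
        exact Submodule.smul_mem _ _ (Submodule.subset_span
          (Or.inl ⟨pk k2 * b, mul_mem (pk_mem h.m2) hb, rfl⟩))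
    | zero => simp
    | add X Y _ _ h1 h2 => rw [mul_add]; exact Submodule.add_mem _ h1 h2
    | smul c X _ h1 => rw [mul_smul_comm]; exact Submodule.smul_mem _ _ h1
  have e : u * X = u * (1 - pk k1) * X + u * pk k1 * X := by
    rw [← add_mul, ← u_eq]
  rw [e]
  exact Submodule.add_mem _ (stable_n h.part_mem hX) key

theorem stable_su (h : Glue G k1 k2 u) {X : Op K}
    (hX : X ∈ Submodule.span ℂ (gen G k1 k2 u E)) :
    star u * X ∈ Submodule.span ℂ (gen G k1 k2 u E) := by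
  have key : star u * pk k2 * X ∈ Submodule.span ℂ (gen G k1 k2 u E) := by
    induction hX using Submodule.span_induction with
    | mem X hX =>
      rcases hX with ⟨a, ha, rfl⟩ | ⟨a, ha, b, hb, rfl⟩ | ⟨a, ha, b, hb, rfl⟩
      · exact Submodule.subset_span (Or.inr (Or.inr ⟨1, one_mem _, a, ha, by
          simp only [mul_assoc, one_mul]⟩))
      · obtain ⟨c, hc⟩ := pk_scalar h.D2 ha
        have e : star u * pk k2 * (a * (u * pk k1) * b * E) = c • (pk k1 * b * E) := by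
          calc star u * pk k2 * (a * (u * pk k1) * b * E)
              = star u * (pk k2 * a * (u * pk k1)) * b * E := by simp only [mul_assoc]
            _ = star u * (pk k2 * a * (pk k2 * u * pk k1)) * b * E := by rw [h.u1]
            _ = star u * (pk k2 * a * pk k2) * u * pk k1 * b * E := by simp only [mul_assoc]
            _ = c • (star u * (pk k2 * u * pk k1) * b * E) := by
                rw [hc]; simp only [mul_assoc, smul_mul_assoc, mul_smul_comm]
            _ = c • (star u * (u * pk k1) * b * E) := by rw [h.u1]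
            _ = c • (star u * u * pk k1 * b * E) := by simp only [mul_assoc]
            _ = c • (pk k1 * b * E) := by rw [Unitary.star_mul_self_of_mem h.hu, one_mul]
        rw [e]
        exact Submodule.smul_mem _ _ (Submodule.subset_span
          (Or.inl ⟨pk k1 * b, mul_mem (pk_mem h.m1) hb, rfl⟩))
      · have e : star u * pk k2 * (a * (star u * pk k2) * b * E) = 0 := by
          calc star u * pk k2 * (a * (star u * pk k2) * b * E)
              = star u * (pk k2 * a * (star u * pk k2)) * b * E := by simp only [mul_assoc]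
            _ = star u * (pk k2 * a * (pk k1 * star u * pk k2)) * b * E := by rw [h.u2]
            _ = star u * (pk k2 * a * pk k1) * star u * pk k2 * b * E := by
                simp only [mul_assoc]
            _ = 0 := by rw [pk_orth h.I ha]; simp
        rw [e]; exact Submodule.zero_mem _
    | zero => simp
    | add X Y _ _ h1 h2 => rw [mul_add]; exact Submodule.add_mem _ h1 h2
    | smul c X _ h1 => rw [mul_smul_comm]; exact Submodule.smul_mem _ _ h1
  have e : star u * X = star (u * (1 - pk k1)) * X + star u * pk k2 * X := by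
    rw [← add_mul, ← h.star_u_eq]
  rw [e]
  exact Submodule.add_mem _ (stable_n (star_mem h.part_mem) hX) key

theorem stable_adjoin (h : Glue G k1 k2 u) {x : Op K}
    (hx : x ∈ StarAlgebra.adjoin ℂ ((G : Set (Op K)) ∪ {u})) :
    (∀ X ∈ Submodule.span ℂ (gen G k1 k2 u E), x * X ∈ Submodule.span ℂ (gen G k1 k2 u E)) ∧
    (∀ X ∈ Submodule.span ℂ (gen G k1 k2 u E),
      star x * X ∈ Submodule.span ℂ (gen G k1 k2 u E)) := by
  induction hx using StarAlgebra.adjoin_induction with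
  | mem x hx =>
    rcases hx with hx | hx
    · exact ⟨fun X hX => stable_n (le_cc hx) hX,
        fun X hX => stable_n (le_cc (star_mem (show x ∈ G from hx))) hX⟩
    · rw [Set.mem_singleton_iff] at hx
      subst hx
      exact ⟨fun X hX => h.stable_u hX, fun X hX => h.stable_su hX⟩
  | algebraMap r =>
    refine ⟨fun X hX => ?_, fun X hX => ?_⟩
    · rw [← Algebra.smul_def]; exact Submodule.smul_mem _ _ hX
    · rw [← algebraMap_star_comm, ← Algebra.smul_def]; exact Submodule.smul_mem _ _ hX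
  | add x y _ _ h1 h2 =>
    refine ⟨fun X hX => ?_, fun X hX => ?_⟩
    · rw [add_mul]; exact Submodule.add_mem _ (h1.1 X hX) (h2.1 X hX)
    · rw [star_add, add_mul]; exact Submodule.add_mem _ (h1.2 X hX) (h2.2 X hX)
  | mul x y _ _ h1 h2 =>
    refine ⟨fun X hX => ?_, fun X hX => ?_⟩
    · rw [mul_assoc]; exact h1.1 _ (h2.1 X hX)
    · rw [star_mul, mul_assoc]; exact h2.2 _ (h1.2 X hX)
  | star x _ h1 =>
    exact ⟨h1.2, by rw [star_star]; exact h1.1⟩

/-- compressions of the generated algebra to the kernel of `g` are scalar -/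
theorem compress (h : Glue G k1 k2 u) {g : Op K} (hg : g ∈ G)
    (Dg : ∀ x ∈ G, ∃ c : ℂ, ∀ z w, g z = 0 → g w = 0 → ⟪w, x z⟫_ℂ = c * ⟪w, z⟫_ℂ)
    {x : Op K} (hx : x ∈ StarAlgebra.adjoin ℂ ((G : Set (Op K)) ∪ {u})) :
    ∃ c : ℂ, pk g * x * pk g = c • pk g := by
  have hE : pk g ∈ cc G := pk_mem hg
  -- dichotomy
  have dich : (∀ a ∈ cc G, pk k1 * a * pk g = 0) ∨ (∀ a ∈ cc G, pk k2 * a * pk g = 0) := by
    by_contra hcon
    push Not at hcon
    obtain ⟨⟨x, hx, hx0⟩, ⟨y, hy, hy0⟩⟩ := hcon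
    obtain ⟨c, hc⟩ := pk_scalar Dg (mul_mem (mul_mem (star_mem hx) (pk_mem h.m1)) hx)
    have e1 : star (pk k1 * x * pk g) * (pk k1 * x * pk g) = c • pk g := by
      rw [← hc]
      simp only [star_mul, pk_star]
      calc pk g * (star x * pk k1) * (pk k1 * x * pk g)
          = pk g * (star x * (pk k1 * pk k1) * x) * pk g := by simp only [mul_assoc]
        _ = _ := by rw [pk_idem]
    have hc0 : c ≠ 0 := by
      rintro rfl
      rw [zero_smul] at e1
      exact hx0 (CStarRing.star_mul_self_eq_zero_iff _ |>.1 e1)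
    have e2 : c • (pk k2 * y * pk g) = 0 := by
      calc c • (pk k2 * y * pk g) = pk k2 * y * (c • pk g) := by rw [mul_smul_comm]
        _ = pk k2 * y * (pk g * (star x * pk k1 * x) * pk g) := by rw [hc]
        _ = pk k2 * (y * pk g * star x) * pk k1 * x * pk g := by simp only [mul_assoc]
        _ = 0 := by
            rw [pk_orth h.I (mul_mem (mul_mem hy hE) (star_mem hx))]; simp
    exact hy0 ((smul_eq_zero.1 e2).resolve_left hc0)
  have fin : ∀ X ∈ Submodule.span ℂ (gen G k1 k2 u (pk g)), ∃ c : ℂ, pk g * X = c • pk g := by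
    intro X hX
    induction hX using Submodule.span_induction with
    | mem X hX =>
      rcases hX with ⟨a, ha, rfl⟩ | ⟨a, ha, b, hb, rfl⟩ | ⟨a, ha, b, hb, rfl⟩
      · obtain ⟨c, hc⟩ := pk_scalar Dg ha
        exact ⟨c, by rw [← mul_assoc, hc]⟩
      · refine ⟨0, ?_⟩
        rw [zero_smul]
        rcases dich with hd | hd
        · calc pk g * (a * (u * pk k1) * b * pk g)
              = pk g * a * u * (pk k1 * b * pk g) := by simp only [mul_assoc]
            _ = 0 := by rw [hd b hb, mul_zero]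
        · have h0 : pk g * a * pk k2 = 0 := by
            have := congrArg star (hd _ (star_mem ha))
            simpa [star_mul, pk_star, mul_assoc] using this
          calc pk g * (a * (u * pk k1) * b * pk g)
              = pk g * (a * (pk k2 * u * pk k1) * b * pk g) := by rw [h.u1]
            _ = pk g * a * pk k2 * u * pk k1 * b * pk g := by simp only [mul_assoc]
            _ = 0 := by rw [h0]; simp
      · refine ⟨0, ?_⟩
        rw [zero_smul]
        rcases dich with hd | hd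
        · have h0 : pk g * a * pk k1 = 0 := by
            have := congrArg star (hd _ (star_mem ha))
            simpa [star_mul, pk_star, mul_assoc] using this
          calc pk g * (a * (star u * pk k2) * b * pk g)
              = pk g * (a * (pk k1 * star u * pk k2) * b * pk g) := by rw [h.u2]
            _ = pk g * a * pk k1 * star u * pk k2 * b * pk g := by simp only [mul_assoc]
            _ = 0 := by rw [h0]; simp
        · calc pk g * (a * (star u * pk k2) * b * pk g)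
              = pk g * a * star u * (pk k2 * b * pk g) := by simp only [mul_assoc]
            _ = 0 := by rw [hd b hb, mul_zero]
    | zero => exact ⟨0, by simp⟩
    | add X Y _ _ h1 h2 =>
      obtain ⟨c, hc⟩ := h1
      obtain ⟨d, hd⟩ := h2
      exact ⟨c + d, by rw [mul_add, hc, hd, add_smul]⟩
    | smul c X _ h1 =>
      obtain ⟨d, hd⟩ := h1
      exact ⟨c * d, by rw [mul_smul_comm, hd, smul_smul]⟩
  have hmem : x * pk g ∈ Submodule.span ℂ (gen G k1 k2 u (pk g)) :=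
    (h.stable_adjoin hx).1 _ (Submodule.subset_span (Or.inl ⟨1, one_mem _, by rw [one_mul]⟩))
  obtain ⟨c, hc⟩ := fin _ hmem
  exact ⟨c, by rw [mul_assoc]; exact hc⟩

/-! ### KEY-V -/

/-- the closed subspace generated by `G z` and `G u z` -/
noncomputable def cyc2 (G : StarSubalgebra ℂ (Op K)) (z y : K) : Submodule ℂ K :=
  (Submodule.map ((ContinuousLinearMap.apply ℂ K z : Op K →L[ℂ] K) : Op K →ₗ[ℂ] K)
    (Subalgebra.toSubmodule G.toSubalgebra) ⊔
  Submodule.map ((ContinuousLinearMap.apply ℂ K y : Op K →L[ℂ] K) : Op K →ₗ[ℂ] K)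
    (Subalgebra.toSubmodule G.toSubalgebra)).topologicalClosure

theorem mem_sup_iff {z y v : K} :
    v ∈ (Submodule.map ((ContinuousLinearMap.apply ℂ K z : Op K →L[ℂ] K) : Op K →ₗ[ℂ] K)
      (Subalgebra.toSubmodule G.toSubalgebra) ⊔
    Submodule.map ((ContinuousLinearMap.apply ℂ K y : Op K →L[ℂ] K) : Op K →ₗ[ℂ] K)
      (Subalgebra.toSubmodule G.toSubalgebra)) ↔ ∃ b ∈ G, ∃ c ∈ G, v = b z + c y := by
  rw [Submodule.mem_sup]
  constructor
  · rintro ⟨_, ⟨b, hb, rfl⟩, _, ⟨c, hc, rfl⟩, rfl⟩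
    exact ⟨b, hb, c, hc, rfl⟩
  · rintro ⟨b, hb, c, hc, rfl⟩
    exact ⟨_, ⟨b, hb, rfl⟩, _, ⟨c, hc, rfl⟩, rfl⟩

theorem mem_cyc2 {z y : K} {b c : Op K} (hb : b ∈ G) (hc : c ∈ G) :
    b z + c y ∈ cyc2 G z y :=
  Submodule.le_topologicalClosure _ (mem_sup_iff.2 ⟨b, hb, c, hc, rfl⟩)

theorem cyc2_closure {z y v : K} (h : v ∈ cyc2 G z y) :
    v ∈ closure {w : K | ∃ b ∈ G, ∃ c ∈ G, w = b z + c y} := by
  refine closure_mono ?_ (show v ∈ closure _ from h)
  intro w hw
  exact mem_sup_iff.1 hw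

/-- a continuous linear map sending generators into the closed subspace preserves it -/
theorem cyc2_induct {z y : K} {T : Op K}
    (h : ∀ b ∈ G, ∀ c ∈ G, T (b z + c y) ∈ cyc2 G z y) : ∀ v ∈ cyc2 G z y, T v ∈ cyc2 G z y := by
  intro v hv
  have h1 : {w : K | ∃ b ∈ G, ∃ c ∈ G, w = b z + c y} ⊆ {w : K | T w ∈ cyc2 G z y} := by
    rintro _ ⟨b, hb, c, hc, rfl⟩
    exact h b hb c hc
  have h2 : IsClosed {w : K | T w ∈ cyc2 G z y} :=
    (Submodule.isClosed_topologicalClosure _).preimage T.continuous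
  exact closure_minimal h1 h2 (cyc2_closure hv)

theorem cyc2_G {z y : K} {x : Op K} (hx : x ∈ G) : ∀ v ∈ cyc2 G z y, x v ∈ cyc2 G z y := by
  refine cyc2_induct fun b hb c hc => ?_
  rw [map_add]
  exact mem_cyc2 (G.mul_mem hx hb) (G.mul_mem hx hc)

instance (z y : K) : (cyc2 G z y).HasOrthogonalProjection := by
  have : CompleteSpace (cyc2 G z y) :=
    (Submodule.isClosed_topologicalClosure _).completeSpace_coe
  infer_instance

theorem cyc2_cc {z y : K} {x : Op K} (hx : x ∈ cc G) :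
    ∀ v ∈ cyc2 G z y, x v ∈ cyc2 G z y := by
  intro v hv
  have h1 : (cyc2 G z y).starProjection * x = x * (cyc2 G z y).starProjection := by
    refine mem_cc_iff.1 hx _ fun w hw => ?_
    exact (comm_proj (cyc2_G hw) (cyc2_G (star_mem hw))).symm
  have h2 : (cyc2 G z y).starProjection v = v :=
    Submodule.starProjection_eq_self_iff.2 hv
  have h3 : (cyc2 G z y).starProjection (x v) = x v := by
    have := congrArg (fun T : Op K => T v) h1
    simpa [h2] using this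
  rw [← h3]
  exact Submodule.starProjection_apply_mem _ _

theorem scalar_apply {k x : Op K} {c : ℂ} (hc : pk k * x * pk k = c • pk k) {z : K}
    (hz : k z = 0) : pk k (x z) = c • z := by
  have := congrArg (fun T : Op K => T z) hc
  simpa [pk_of_ker hz] using this

theorem cyc2_u (h : Glue G k1 k2 u) {z : K} (hz : k1 z = 0) :
    (∀ v ∈ cyc2 G z (u z), u v ∈ cyc2 G z (u z)) ∧
    (∀ v ∈ cyc2 G z (u z), star u v ∈ cyc2 G z (u z)) := by
  have huz : k2 (u z) = 0 := h.hc z hz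
  have z_mem : z ∈ cyc2 G z (u z) := by
    simpa using mem_cyc2 (z := z) (y := u z) (one_mem G) (zero_mem G)
  have uz_mem : u z ∈ cyc2 G z (u z) := by
    simpa using mem_cyc2 (z := z) (y := u z) (zero_mem G) (one_mem G)
  have key1 : ∀ v ∈ cyc2 G z (u z), (u * pk k1) v ∈ cyc2 G z (u z) := by
    refine cyc2_induct fun b hb c hc => ?_
    obtain ⟨d, hd⟩ := pk_scalar h.D1 (le_cc hb)
    have e1 : pk k1 (b z) = d • z := scalar_apply hd hz
    have h0 : pk k1 * c * pk k2 = 0 := by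
      have := congrArg star (pk_orth h.I (star_mem (le_cc hc)))
      simpa [star_mul, pk_star, mul_assoc] using this
    have e2 : pk k1 (c (u z)) = 0 := by
      have := congrArg (fun T : Op K => T (u z)) h0
      simpa [pk_of_ker huz] using this
    have e : (u * pk k1) (b z + c (u z)) = d • u z := by
      show u (pk k1 (b z + c (u z))) = d • u z
      rw [map_add, e1, e2, add_zero, map_smul]
    rw [e]
    exact Submodule.smul_mem _ _ uz_mem
  have key2 : ∀ v ∈ cyc2 G z (u z), (star u * pk k2) v ∈ cyc2 G z (u z) := by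
    refine cyc2_induct fun b hb c hc => ?_
    obtain ⟨d, hd⟩ := pk_scalar h.D2 (le_cc hc)
    have e1 : pk k2 (c (u z)) = d • u z := scalar_apply hd huz
    have e2 : pk k2 (b z) = 0 := by
      have := congrArg (fun T : Op K => T z) (pk_orth h.I (le_cc hb))
      simpa [pk_of_ker hz] using this
    have e3 : star u (u z) = z := by
      have := congrArg (fun T : Op K => T z) (Unitary.star_mul_self_of_mem h.hu)
      simpa using this
    have e : (star u * pk k2) (b z + c (u z)) = d • z := by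
      show star u (pk k2 (b z + c (u z))) = d • z
      rw [map_add, e1, e2, zero_add, map_smul, e3]
    rw [e]
    exact Submodule.smul_mem _ _ z_mem
  refine ⟨fun v hv => ?_, fun v hv => ?_⟩
  · have e : u v = (u * (1 - pk k1)) v + (u * pk k1) v :=
      congrArg (fun T : Op K => T v) (u_eq u k1)
    rw [e]
    exact Submodule.add_mem _ (cyc2_cc h.part_mem v hv) (key1 v hv)
  · have e : star u v = (star (u * (1 - pk k1))) v + (star u * pk k2) v :=
      congrArg (fun T : Op K => T v) h.star_u_eq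
    rw [e]
    exact Submodule.add_mem _ (cyc2_cc (star_mem h.part_mem) v hv) (key2 v hv)

theorem cyc2_adjoin (h : Glue G k1 k2 u) {z : K} (hz : k1 z = 0) {x : Op K}
    (hx : x ∈ StarAlgebra.adjoin ℂ ((G : Set (Op K)) ∪ {u})) :
    (∀ v ∈ cyc2 G z (u z), x v ∈ cyc2 G z (u z)) ∧
    (∀ v ∈ cyc2 G z (u z), star x v ∈ cyc2 G z (u z)) := by
  induction hx using StarAlgebra.adjoin_induction with
  | mem x hx =>
    rcases hx with hx | hx
    · exact ⟨cyc2_G hx, cyc2_G (star_mem (show x ∈ G from hx))⟩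
    · rw [Set.mem_singleton_iff] at hx
      subst hx
      exact h.cyc2_u hz
  | algebraMap r =>
    refine ⟨fun v hv => ?_, fun v hv => ?_⟩
    · rw [Algebra.algebraMap_eq_smul_one]; exact Submodule.smul_mem _ _ hv
    · rw [← algebraMap_star_comm, Algebra.algebraMap_eq_smul_one]
      exact Submodule.smul_mem _ _ hv
  | add x y _ _ h1 h2 =>
    refine ⟨fun v hv => Submodule.add_mem _ (h1.1 v hv) (h2.1 v hv), fun v hv => ?_⟩
    rw [star_add]; exact Submodule.add_mem _ (h1.2 v hv) (h2.2 v hv)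
  | mul x y _ _ h1 h2 =>
    refine ⟨fun v hv => h1.1 _ (h2.1 v hv), fun v hv => ?_⟩
    rw [star_mul]; exact h2.2 _ (h1.2 v hv)
  | star x _ h1 => exact ⟨h1.2, by rw [star_star]; exact h1.1⟩

end Glue

end Key

section
variable {H : Type*} {K : Type*}
  [NormedAddCommGroup H] [InnerProductSpace ℂ H] [CompleteSpace H]
  [NormedAddCommGroup K] [InnerProductSpace ℂ K] [CompleteSpace K]

theorem rep_continuous (P : Op H →⋆ₐ[ℂ] Op K) : Continuous P := map_continuous P

theorem glue_map (P : Op H →⋆ₐ[ℂ] Op K) (G : StarSubalgebra ℂ (Op H)) (k1 k2 u : Op H)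
    (hk1 : k1 ∈ G) (hk2 : k2 ∈ G) (hk1sa : IsSelfAdjoint k1)
    (hu : u ∈ unitary (Op H)) (huk : u * k1 ∈ G)
    (hc : ∀ z, P k1 z = 0 → P k2 (P u z) = 0)
    (hc' : ∀ z, P k2 z = 0 → P k1 (P (star u) z) = 0)
    (D1 : Det P k1 G) (D2 : Det P k2 G) (I12 : Ineq P k1 k2 G) :
    Key.Glue (G.map P) (P k1) (P k2) (P u) where
  m1 := ⟨k1, hk1, rfl⟩
  m2 := ⟨k2, hk2, rfl⟩
  sa := hk1sa.map P
  hu := by
    rw [Unitary.mem_iff]
    constructor
    · rw [← map_star, ← map_mul, Unitary.star_mul_self_of_mem hu, map_one]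
    · rw [← map_star, ← map_mul, Unitary.mul_star_self_of_mem hu, map_one]
  huk := ⟨u * k1, huk, map_mul P u k1⟩
  hc := hc
  hc' := by
    intro z hz
    rw [← map_star]
    exact hc' z hz
  D1 := by
    rintro _ ⟨x, hx, rfl⟩
    exact D1 x hx
  D2 := by
    rintro _ ⟨x, hx, rfl⟩
    exact D2 x hx
  I := by
    rintro _ ⟨x, hx, rfl⟩
    exact I12 x hx

theorem map_adjoin_mem (P : Op H →⋆ₐ[ℂ] Op K) (G : StarSubalgebra ℂ (Op H)) (u : Op H)
    {x : Op H} (hx : x ∈ StarAlgebra.adjoin ℂ ((G : Set (Op H)) ∪ {u})) :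
    P x ∈ StarAlgebra.adjoin ℂ (((G.map P : StarSubalgebra ℂ (Op K)) : Set (Op K)) ∪ {P u}) := by
  have h : StarAlgebra.adjoin ℂ ((G : Set (Op H)) ∪ {u}) ≤
      StarSubalgebra.comap P (StarAlgebra.adjoin ℂ
        (((G.map P : StarSubalgebra ℂ (Op K)) : Set (Op K)) ∪ {P u})) := by
    refine StarAlgebra.adjoin_le ?_
    rintro y (hy | hy)
    · exact StarAlgebra.subset_adjoin ℂ _ (Or.inl ⟨y, hy, rfl⟩)
    · rw [Set.mem_singleton_iff] at hy
      subst hy
      exact StarAlgebra.subset_adjoin ℂ _ (Or.inr rfl)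
  exact h hx

/-- determinacy passes to closures -/
theorem det_closure (P : Op H →⋆ₐ[ℂ] Op K) {g : Op H} {S : Set (Op H)} (h : Det P g S) :
    Det P g (closure S) := by
  by_cases hz : ∃ z0 : K, P g z0 = 0 ∧ ‖z0‖ = 1
  · obtain ⟨z0, hz0, hn⟩ := hz
    have hnn : ⟪z0, z0⟫_ℂ = 1 := by
      rw [inner_self_eq_norm_sq_to_K, hn]; simp
    intro x hx
    refine ⟨⟪z0, P x z0⟫_ℂ, fun z w hz hw => ?_⟩
    have hcont : Continuous fun x : Op H => P x := rep_continuous P
    have hap : ∀ v : K, Continuous fun x : Op H => P x v := fun v =>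
      (ContinuousLinearMap.apply ℂ K v).continuous.comp hcont
    have hcl : IsClosed {x : Op H | ⟪w, P x z⟫_ℂ = ⟪z0, P x z0⟫_ℂ * ⟪w, z⟫_ℂ} := by
      refine isClosed_eq ?_ ?_
      · exact continuous_const.inner (hap z)
      · exact (continuous_const.inner (hap z0)).mul continuous_const
    refine closure_minimal (fun y hy => ?_) hcl hx
    obtain ⟨c, hc⟩ := h y hy
    have h1 := hc z0 z0 hz0 hz0
    rw [hnn, mul_one] at h1
    show ⟪w, P y z⟫_ℂ = ⟪z0, P y z0⟫_ℂ * ⟪w, z⟫_ℂ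
    rw [h1, hc z w hz hw]
  · intro x _
    refine ⟨0, fun z w hz' hw => ?_⟩
    have : z = 0 := by
      by_contra hne
      refine hz ⟨((‖z‖⁻¹ : ℝ) : ℂ) • z, by rw [map_smul, hz', smul_zero], ?_⟩
      rw [norm_smul, Complex.norm_real, norm_inv, norm_norm,
        inv_mul_cancel₀ (norm_ne_zero_iff.2 hne)]
    subst this; simp

/-- **KEY-UE**: adding a gluing unitary keeps determined elements determined. -/
theorem key_ue (P : Op H →⋆ₐ[ℂ] Op K) (G : StarSubalgebra ℂ (Op H)) (k1 k2 g u : Op H)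
    (hk1 : k1 ∈ G) (hk2 : k2 ∈ G) (hg : g ∈ G) (hk1sa : IsSelfAdjoint k1)
    (hu : u ∈ unitary (Op H)) (huk : u * k1 ∈ G)
    (hc : ∀ z, P k1 z = 0 → P k2 (P u z) = 0)
    (hc' : ∀ z, P k2 z = 0 → P k1 (P (star u) z) = 0)
    (D1 : Det P k1 G) (D2 : Det P k2 G) (Dg : Det P g G) (I12 : Ineq P k1 k2 G) :
    Det P g ((StarAlgebra.adjoin ℂ ((G : Set (Op H)) ∪ {u})).topologicalClosure :
      Set (Op H)) := by
  have hG := glue_map P G k1 k2 u hk1 hk2 hk1sa hu huk hc hc' D1 D2 I12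
  rw [StarSubalgebra.topologicalClosure_coe]
  refine det_closure P fun x hx => ?_
  have hg' : P g ∈ G.map P := ⟨g, hg, rfl⟩
  obtain ⟨c, hcx⟩ := hG.compress hg' (by
    rintro _ ⟨y, hy, rfl⟩
    exact Dg y hy) (map_adjoin_mem P G u hx)
  refine ⟨c, fun z w hz hw => ?_⟩
  have h1 := Key.Glue.scalar_apply hcx hz
  calc ⟪w, P x z⟫_ℂ = ⟪Key.pk (P g) w, P x z⟫_ℂ := by rw [Key.pk_of_ker hw]
    _ = ⟪w, Key.pk (P g) (P x z)⟫_ℂ := (Key.inner_pk _ _ _).symm
    _ = c * ⟪w, z⟫_ℂ := by rw [h1, inner_smul_right]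

/-- **KEY-V** -/
theorem key_v (P : Op H →⋆ₐ[ℂ] Op K) (G : StarSubalgebra ℂ (Op H)) (k1 k2 u : Op H)
    (hk1 : k1 ∈ G) (hk2 : k2 ∈ G) (hk1sa : IsSelfAdjoint k1)
    (hu : u ∈ unitary (Op H)) (huk : u * k1 ∈ G)
    (hc : ∀ z, P k1 z = 0 → P k2 (P u z) = 0)
    (hc' : ∀ z, P k2 z = 0 → P k1 (P (star u) z) = 0)
    (D1 : Det P k1 G) (D2 : Det P k2 G) (I12 : Ineq P k1 k2 G)
    (z : K) (hz : P k1 z = 0) (a : Op H)
    (ha : a ∈ (StarAlgebra.adjoin ℂ ((G : Set (Op H)) ∪ {u})).topologicalClosure) :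
    P a z ∈ closure {y : K | ∃ b ∈ G, ∃ c ∈ G, y = P b z + P c (P u z)} := by
  have hG := glue_map P G k1 k2 u hk1 hk2 hk1sa hu huk hc hc' D1 D2 I12
  have hcont : Continuous fun x : Op H => P x z :=
    (ContinuousLinearMap.apply ℂ K z).continuous.comp (rep_continuous P)
  have hcl : IsClosed {x : Op H |
      P x z ∈ closure {y : K | ∃ b ∈ G, ∃ c ∈ G, y = P b z + P c (P u z)}} :=
    isClosed_closure.preimage hcont
  have ha' : a ∈ closure ((StarAlgebra.adjoin ℂ ((G : Set (Op H)) ∪ {u}) :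
    StarSubalgebra ℂ (Op H)) : Set (Op H)) := ha
  refine closure_minimal (fun x hx => ?_) hcl ha'
  have z_mem : z ∈ Key.Glue.cyc2 (G.map P) z (P u z) := by
    simpa using Key.Glue.mem_cyc2 (G := G.map P) (z := z) (y := P u z)
      (one_mem _) (zero_mem _)
  have h1 := Key.Glue.cyc2_closure ((hG.cyc2_adjoin hz (map_adjoin_mem P G u hx)).1 z z_mem)
  refine closure_mono ?_ h1
  rintro _ ⟨_, ⟨b, hb, rfl⟩, _, ⟨c, hc, rfl⟩, rfl⟩
  exact ⟨b, hb, c, hc, rfl⟩

end

end Vale.Agent.P070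
end
end

section

section

namespace Vale.Agent.P070

open scoped InnerProductSpace
open Filter Topology

universe u v w

section
variable {H : Type u} {K : Type v}
  [NormedAddCommGroup H] [InnerProductSpace ℂ H] [CompleteSpace H]
  [NormedAddCommGroup K] [InnerProductSpace ℂ K] [CompleteSpace K]

variable {ι : Type w} [LinearOrder ι] [WellFoundedLT ι] {P : Op H →⋆ₐ[ℂ] Op K}
  {A0 : StarSubalgebra ℂ (Op H)} {k0 U : Op H} {k u : ι → Op H}

theorem gen_empty (hA0 : IsClosed (A0 : Set (Op H))) : gen A0 u ∅ ≤ A0 :=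
  gen_le A0 u hA0 le_rfl (by simp)

/-- climbing lemma. -/
theorem climb (S : Set ι) {g : Op H} (hD : Det P g (gen A0 u S))
    (step : ∀ i, i ∉ S → Det P g (gen A0 u (S ∪ Set.Iio i)) →
      Det P g (gen A0 u (insert i (S ∪ Set.Iio i)))) :
    (∀ i, Det P g (gen A0 u (S ∪ Set.Iio i))) ∧ Det P g (gen A0 u Set.univ) := by
  have ins : ∀ j : ι, insert j (S ∪ Set.Iio j) = S ∪ Set.Iic j := by
    intro j; ext x; simp only [Set.mem_insert_iff, Set.mem_union, Set.mem_Iio, Set.mem_Iic,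
      le_iff_eq_or_lt]; tauto
  have step' : ∀ j, Det P g (gen A0 u (S ∪ Set.Iio j)) → Det P g (gen A0 u (S ∪ Set.Iic j)) := by
    intro j hj
    by_cases hjS : j ∈ S
    · have : S ∪ Set.Iic j = S ∪ Set.Iio j := by
        ext x; simp only [Set.mem_union, Set.mem_Iio, Set.mem_Iic, le_iff_eq_or_lt]
        constructor
        · rintro (h | rfl | h)
          · exact Or.inl h
          · exact Or.inl hjS
          · exact Or.inr h
        · rintro (h | h)
          · exact Or.inl h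
          · exact Or.inr (Or.inr h)
      rw [this]; exact hj
    · rw [← ins j]; exact step j hjS hj
  have main : ∀ J : Set ι, (∀ i ∈ J, ∀ j, j ≤ i → j ∈ J) →
      (∀ j ∈ J, Det P g (gen A0 u (S ∪ Set.Iic j))) → Det P g (gen A0 u (S ∪ J)) := by
    intro J hJ h
    have e : S ∪ J = ⋃₀ (insert S ((fun j => S ∪ Set.Iic j) '' J)) := by
      ext x
      simp only [Set.mem_union, Set.sUnion_insert, Set.sUnion_image, Set.mem_iUnion,
        Set.mem_Iic, exists_prop]
      constructor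
      · rintro (hx | hx)
        · exact Or.inl hx
        · exact Or.inr ⟨x, hx, Or.inr le_rfl⟩
      · rintro (hx | ⟨i, hi, hx | hx⟩)
        · exact Or.inl hx
        · exact Or.inl hx
        · exact Or.inr (hJ i hi x hx)
    rw [e]
    refine det_sUnion A0 u ⟨S, Set.mem_insert _ _⟩ ?_ ?_
    · rintro T1 (rfl | ⟨i, hi, rfl⟩) T2 (rfl | ⟨j, hj, rfl⟩)
      · exact ⟨_, Set.mem_insert _ _, subset_rfl, subset_rfl⟩
      · exact ⟨_, Or.inr ⟨j, hj, rfl⟩, Set.subset_union_left, subset_rfl⟩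
      · exact ⟨_, Or.inr ⟨i, hi, rfl⟩, subset_rfl, Set.subset_union_left⟩
      · refine ⟨_, Or.inr ⟨max i j, ?_, rfl⟩, ?_, ?_⟩
        · rcases max_choice i j with h | h <;> rw [h] <;> assumption
        · exact Set.union_subset_union_right _ (Set.Iic_subset_Iic.2 (le_max_left i j))
        · exact Set.union_subset_union_right _ (Set.Iic_subset_Iic.2 (le_max_right i j))
    · rintro T (rfl | ⟨i, hi, rfl⟩)
      · exact hD
      · exact h i hi
  have all : ∀ i, Det P g (gen A0 u (S ∪ Set.Iio i)) := by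
    intro i
    induction i using WellFoundedLT.induction with
    | _ i ih =>
      refine main (Set.Iio i) (fun a ha b hb => lt_of_le_of_lt hb ha) ?_
      intro j hj
      exact step' j (ih j hj)
  refine ⟨all, ?_⟩
  have := main Set.univ (fun _ _ _ _ => Set.mem_univ _) (fun j _ => step' j (all j))
  rwa [Set.union_univ] at this

/-- one application of the key lemma in the tower. -/
theorem tower_step (T : IsTower P A0 k0 U k u) {g : Op H} {S : Set ι} {i : ι}
    (hS : Set.Iio i ⊆ S) (hg : g ∈ gen A0 u S)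
    (D0 : Det P k0 (gen A0 u S)) (Di : Det P (k i) (gen A0 u S)) (Dg : Det P g (gen A0 u S))
    (I : Ineq P k0 (k i) (gen A0 u S)) : Det P g (gen A0 u (insert i S)) := by
  have G := T.good i
  refine Det.mono ?_ (gen_insert_le A0 u S i)
  exact key_ue P (gen A0 u S) k0 (k i) g (u i) (le_gen A0 u S T.k0_mem)
    (gen_mono A0 u hS G.k_mem) hg T.k0_nonneg.isSelfAdjoint G.u_unitary
    (gen_mono A0 u hS G.uk_mem) G.map G.map' D0 Di Dg I

theorem tower_det0 (hA0 : IsClosed (A0 : Set (Op H))) (T : IsTower P A0 k0 U k u) :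
    Det P k0 (gen A0 u Set.univ) := by
  refine (climb (P := P) (A0 := A0) (u := u) (g := k0) ∅
    (T.det0.mono (gen_empty hA0)) ?_).2
  intro i _ hD
  rw [Set.empty_union] at hD ⊢
  exact tower_step T subset_rfl (le_gen A0 u _ T.k0_mem) hD (T.good i).det hD (T.good i).ineq

/-- Step 1 -/
theorem tower_step1 (hA0 : IsClosed (A0 : Set (Op H))) (T : IsTower P A0 k0 U k u) {g : Op H}
    {i : ι} (hg : g ∈ gen A0 u (Set.Iio i)) (hD : Det P g (gen A0 u (Set.Iio i))) :
    Det P g (gen A0 u Set.univ) := by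
  refine (climb (P := P) (A0 := A0) (u := u) (g := g) (Set.Iio i) hD ?_).2
  intro j hj hDj
  have hij : i ≤ j := not_lt.1 hj
  have e : Set.Iio i ∪ Set.Iio j = Set.Iio j :=
    Set.union_eq_self_of_subset_left (Set.Iio_subset_Iio hij)
  rw [e] at hDj ⊢
  exact tower_step T subset_rfl (gen_mono A0 u (Set.Iio_subset_Iio hij) hg)
    ((tower_det0 hA0 T).mono (gen_mono A0 u (Set.subset_univ _))) (T.good j).det hDj
    (T.good j).ineq

/-- support data for a tower. -/
structure IsSupp (A0 : StarSubalgebra ℂ (Op H)) (k0 : Op H) (k u : ι → Op H)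
    (T : ι → Set ι) : Prop where
  sub : ∀ i, T i ⊆ Set.Iio i
  countable : ∀ i, (T i).Countable
  k_mem : ∀ i, k i ∈ gen A0 u (T i)
  uk_mem : ∀ i, u i * k0 ∈ gen A0 u (T i)

theorem exists_supp (T : IsTower P A0 k0 U k u) : ∃ T : ι → Set ι, IsSupp A0 k0 k u T := by
  choose T1 h1 c1 m1 using fun i => exists_countable_support A0 u (T.good i).k_mem
  choose T2 h2 c2 m2 using fun i => exists_countable_support A0 u (T.good i).uk_mem
  exact ⟨fun i => T1 i ∪ T2 i,
    { sub := fun i => Set.union_subset (h1 i) (h2 i)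
      countable := fun i => (c1 i).union (c2 i)
      k_mem := fun i => gen_mono A0 u Set.subset_union_left (m1 i)
      uk_mem := fun i => gen_mono A0 u Set.subset_union_right (m2 i) }⟩

/-- closed sets of letters. -/
def IsCl (T : ι → Set ι) (S : Set ι) : Prop := ∀ i ∈ S, T i ⊆ S

theorem IsCl.inter_Iio {T : ι → Set ι} (hT : ∀ i, T i ⊆ Set.Iio i) {S : Set ι}
    (hS : IsCl T S) (i : ι) : IsCl T (S ∩ Set.Iio i) := by
  rintro j ⟨hj, hji⟩ x hx
  exact ⟨hS j hj hx, lt_trans (hT j hx) hji⟩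

theorem IsCl.inter_Iic {T : ι → Set ι} (hT : ∀ i, T i ⊆ Set.Iio i) {S : Set ι}
    (hS : IsCl T S) (i : ι) : IsCl T (S ∩ Set.Iic i) := by
  rintro j ⟨hj, hji⟩ x hx
  exact ⟨hS j hj hx, le_of_lt (lt_of_lt_of_le (hT j hx) hji)⟩

theorem IsCl.union_Iio {T : ι → Set ι} (hT : ∀ i, T i ⊆ Set.Iio i) {S : Set ι}
    (hS : IsCl T S) (i : ι) : IsCl T (S ∪ Set.Iio i) := by
  rintro j (hj | hj) x hx
  · exact Or.inl (hS j hj hx)
  · exact Or.inr (lt_trans (hT j hx) hj)

/-- Step 2 -/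
theorem tower_orth (hA0 : IsClosed (A0 : Set (Op H))) (T : IsTower P A0 k0 U k u)
    {Tc : ι → Set ι} (hT : IsSupp A0 k0 k u Tc) {i : ι} {z z' : K} (hz : P k0 z = 0)
    (hz' : P k0 z' = 0) {S : Set ι} (hS : IsCl Tc S) (hi : i ∉ S) :
    (gen A0 u S : Set (Op H)) ⊆ {a | ⟪P (u i) z', P a z⟫_ℂ = 0} := by
  have Gi := T.good i
  have base : ∀ S : Set ι, S ⊆ Set.Iio i →
      (gen A0 u S : Set (Op H)) ⊆ {a | ⟪P (u i) z', P a z⟫_ℂ = 0} := by
    intro S hS a ha
    exact Gi.ineq a (gen_mono A0 u hS ha) z _ hz (Gi.map z' hz')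
  -- directed union along initial segments
  have dir : ∀ (S J : Set ι), (∀ i ∈ J, ∀ j, j ≤ i → j ∈ J) → S ⊆ J →
      (∀ j ∈ J, (gen A0 u (S ∩ Set.Iic j) : Set (Op H)) ⊆ {a | ⟪P (u i) z', P a z⟫_ℂ = 0}) →
      (gen A0 u S : Set (Op H)) ⊆ {a | ⟪P (u i) z', P a z⟫_ℂ = 0} := by
    intro S J hJ hSJ h
    have e : S = ⋃₀ (insert ∅ ((fun j => S ∩ Set.Iic j) '' J)) := by
      ext x
      simp only [Set.sUnion_insert, Set.sUnion_image, Set.mem_union, Set.mem_empty_iff_false,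
        Set.mem_iUnion, Set.mem_inter_iff, Set.mem_Iic, exists_prop, false_or]
      constructor
      · intro hx
        exact ⟨x, hSJ hx, hx, le_rfl⟩
      · rintro ⟨_, _, hx, _⟩
        exact hx
    rw [e]
    refine gen_sUnion_subset A0 u ⟨∅, Set.mem_insert _ _⟩ ?_ (isClosed_orth P _ _) ?_
    · rintro T1 (rfl | ⟨i, hi, rfl⟩) T2 (rfl | ⟨j, hj, rfl⟩)
      · exact ⟨_, Set.mem_insert _ _, subset_rfl, subset_rfl⟩
      · exact ⟨_, Or.inr ⟨j, hj, rfl⟩, Set.empty_subset _, subset_rfl⟩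
      · exact ⟨_, Or.inr ⟨i, hi, rfl⟩, subset_rfl, Set.empty_subset _⟩
      · refine ⟨_, Or.inr ⟨max i j, ?_, rfl⟩, ?_, ?_⟩
        · rcases max_choice i j with h | h <;> rw [h] <;> assumption
        · exact Set.inter_subset_inter_right _ (Set.Iic_subset_Iic.2 (le_max_left i j))
        · exact Set.inter_subset_inter_right _ (Set.Iic_subset_Iic.2 (le_max_right i j))
    · rintro T (rfl | ⟨i, hi, rfl⟩)
      · exact base ∅ (Set.empty_subset _)
      · exact h i hi
  have claim : ∀ γ : ι, ∀ S : Set ι, IsCl Tc S → i ∉ S → S ⊆ Set.Iic γ →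
      (gen A0 u S : Set (Op H)) ⊆ {a | ⟪P (u i) z', P a z⟫_ℂ = 0} := by
    intro γ
    induction γ using WellFoundedLT.induction with
    | _ γ ih =>
      intro S hS hi hSγ
      by_cases hlt : γ < i
      · exact base S fun x hx => lt_of_le_of_lt (hSγ hx) hlt
      have hiγ : i ≤ γ := not_lt.1 hlt
      -- the part below γ
      have low : (gen A0 u (S ∩ Set.Iio γ) : Set (Op H)) ⊆
          {a | ⟪P (u i) z', P a z⟫_ℂ = 0} := by
        refine dir (S ∩ Set.Iio γ) (Set.Iio γ) (fun a ha b hb => lt_of_le_of_lt hb ha)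
          Set.inter_subset_right ?_
        intro j hj
        refine ih j hj _ ((hS.inter_Iio hT.sub γ).inter_Iic hT.sub j) ?_ Set.inter_subset_right
        rintro ⟨⟨h, _⟩, _⟩
        exact hi h
      by_cases hγ : γ ∈ S
      · have hne : i ≠ γ := fun h => hi (h ▸ hγ)
        have hltγ : i < γ := lt_of_le_of_ne hiγ hne
        have Gγ := T.good γ
        have hSe : S = insert γ (S ∩ Set.Iio γ) := by
          ext x
          simp only [Set.mem_insert_iff, Set.mem_inter_iff, Set.mem_Iio]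
          constructor
          · intro hx
            rcases eq_or_lt_of_le (hSγ hx) with h | h
            · exact Or.inl h
            · exact Or.inr ⟨hx, h⟩
          · rintro (rfl | ⟨hx, _⟩)
            · exact hγ
            · exact hx
        have hTγ : Tc γ ⊆ S ∩ Set.Iio γ := fun x hx => ⟨hS γ hγ hx, hT.sub γ hx⟩
        have hsub : gen A0 u (S ∩ Set.Iio γ) ≤ gen A0 u (Set.Iio γ) :=
          gen_mono A0 u Set.inter_subset_right
        intro a ha
        rw [hSe] at ha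
        have ha' := gen_insert_le A0 u (S ∩ Set.Iio γ) γ ha
        have hv := key_v P (gen A0 u (S ∩ Set.Iio γ)) k0 (k γ) (u γ)
          (le_gen A0 u _ T.k0_mem) (gen_mono A0 u hTγ (hT.k_mem γ)) T.k0_nonneg.isSelfAdjoint
          Gγ.u_unitary (gen_mono A0 u hTγ (hT.uk_mem γ)) Gγ.map Gγ.map'
          ((tower_det0 hA0 T).mono (gen_mono A0 u (Set.subset_univ _)))
          (Gγ.det.mono hsub) (Gγ.ineq.mono hsub) z hz a ha'
        refine (closure_minimal (s := {y : K | ∃ b ∈ gen A0 u (S ∩ Set.Iio γ),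
          ∃ c ∈ gen A0 u (S ∩ Set.Iio γ), y = P b z + P c (P (u γ) z)})
          (t := {y : K | ⟪P (u i) z', y⟫_ℂ = 0}) ?_ ?_) hv
        · rintro y ⟨b, hb, c, hc, rfl⟩
          have h1 : ⟪P (u i) z', P b z⟫_ℂ = 0 := low hb
          have h2 : ⟪P (u i) z', P c (P (u γ) z)⟫_ℂ = 0 := by
            have hm : star c * u i ∈ gen A0 u (Set.Iio γ) :=
              mul_mem (star_mem (hsub hc)) (letter_mem_gen A0 u hltγ)
            have h3 := Gγ.ineq _ hm z' (P (u γ) z) hz' (Gγ.map z hz)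
            rw [map_mul, map_star] at h3
            have h4 : ⟪P (u γ) z, star (P c) (P (u i) z')⟫_ℂ = 0 := h3
            rw [ContinuousLinearMap.star_eq_adjoint,
              ContinuousLinearMap.adjoint_inner_right] at h4
            rw [← inner_conj_symm, h4, map_zero]
          simp only [Set.mem_ofPred_eq, inner_add_right, h1, h2, add_zero]
        · exact isClosed_eq (continuous_const.inner continuous_id) continuous_const
      · have hSe : S = S ∩ Set.Iio γ := by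
          ext x
          simp only [Set.mem_inter_iff, Set.mem_Iio]
          constructor
          · intro hx
            refine ⟨hx, lt_of_le_of_ne (hSγ hx) ?_⟩
            rintro rfl
            exact hγ hx
          · exact fun h => h.1
        rw [hSe]; exact low
  refine dir S Set.univ (fun _ _ _ _ => Set.mem_univ _) (Set.subset_univ _) ?_
  intro j _
  exact claim j _ (hS.inter_Iic hT.sub j) (fun h => hi h.1) Set.inter_subset_right

/-- Step 3 -/
theorem tower_ext (hA0 : IsClosed (A0 : Set (Op H))) (T : IsTower P A0 k0 U k u)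
    {Tc : ι → Set ι} (hT : IsSupp A0 k0 k u Tc) {S : Set ι} (hS : IsCl Tc S) {g : Op H}
    (hg : g ∈ gen A0 u S) (hD : Det P g (gen A0 u S)) : Det P g (gen A0 u Set.univ) := by
  refine (climb (P := P) (A0 := A0) (u := u) (g := g) S hD ?_).2
  intro i hi hDi
  have Gi := T.good i
  refine tower_step T Set.subset_union_right (gen_mono A0 u Set.subset_union_left hg)
    ((tower_det0 hA0 T).mono (gen_mono A0 u (Set.subset_univ _)))
    ((tower_step1 hA0 T Gi.k_mem Gi.det).mono (gen_mono A0 u (Set.subset_univ _))) hDi ?_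
  intro x hx z1 z2 hz1 hz2
  have h1 : P k0 (P (star (u i)) z2) = 0 := Gi.map' z2 hz2
  have hni : i ∉ S ∪ Set.Iio i := by
    rintro (h | h)
    · exact hi h
    · exact lt_irrefl i h
  have h2 := tower_orth hA0 T hT hz1 h1 (hS.union_Iio hT.sub i) hni hx
  have h3 : P (u i) (P (star (u i)) z2) = z2 := by
    have : P (u i * star (u i)) z2 = z2 := by
      rw [(Unitary.mem_iff.1 Gi.u_unitary).2, map_one]; rfl
    rwa [map_mul] at this
  rw [Set.mem_ofPred_eq, h3] at h2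
  exact h2

end

end Vale.Agent.P070
end
end

section

section

namespace Vale.Agent.P070

open scoped InnerProductSpace
open Filter Topology

namespace Kad

/-- a criterion for simultaneous approximation in a real Hilbert space -/
theorem real_approx {E : Type*} [NormedAddCommGroup E] [InnerProductSpace ℝ E] [CompleteSpace E]
    {V : Type*} [AddCommGroup V] [Module ℝ V] (f g : V →ₗ[ℝ] E) (u v : E)
    (h : ∀ p q : E, (∀ a, ⟪p, f a⟫_ℝ + ⟪q, g a⟫_ℝ = 0) → ⟪p, u⟫_ℝ + ⟪q, v⟫_ℝ = 0)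
    {ε : ℝ} (hε : 0 < ε) : ∃ a, ‖f a - u‖ < ε ∧ ‖g a - v‖ < ε := by
  let orb : V →ₗ[ℝ] WithLp 2 (E × E) :=
    { toFun := fun a => WithLp.toLp 2 (f a, g a)
      map_add' := by
        intro a b
        apply (WithLp.ofLp_injective 2)
        simp
      map_smul' := by
        intro c a
        apply (WithLp.ofLp_injective 2)
        simp }
  have hTW : (WithLp.toLp 2 (u, v) : WithLp 2 (E × E)) ∈ 
      (LinearMap.range orb).topologicalClosure := by
    rw [← Submodule.orthogonal_orthogonal_eq_closure]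
    intro w hw
    have h1 := h w.fst w.snd (by
      intro a
      have h2 := hw (orb a) ⟨a, rfl⟩
      rw [WithLp.prod_inner_apply] at h2
      rw [real_inner_comm, real_inner_comm (g a)]
      exact h2)
    rw [WithLp.prod_inner_apply]
    exact h1
  have hTs' : (WithLp.toLp 2 (u, v) : WithLp 2 (E × E)) ∈
    closure (LinearMap.range orb : Set (WithLp 2 (E × E))) := hTW
  rw [Metric.mem_closure_iff] at hTs'
  obtain ⟨_, ⟨a, rfl⟩, ha⟩ := hTs' ε hε
  rw [dist_comm, dist_eq_norm] at ha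
  exact ⟨a, lt_of_le_of_lt (WithLp.norm_fst_le E (orb a - WithLp.toLp 2 (u, v))) ha,
    lt_of_le_of_lt (WithLp.norm_snd_le E (orb a - WithLp.toLp 2 (u, v))) ha⟩

section Kadison
variable {𝒜 : Type*} [CStarAlgebra 𝒜] {L : Type*} [NormedAddCommGroup L]
    [InnerProductSpace ℂ L] [CompleteSpace L]

/-- Irreducibility of a representation. -/
def Irr (π : 𝒜 →⋆ₐ[ℂ] Op L) : Prop :=
  ∀ V : Submodule ℂ L, IsClosed (V : Set L) → (∀ a, ∀ x ∈ V, π a x ∈ V) → V = ⊥ ∨ V = ⊤

theorem schur_sa [Nontrivial L] (π : 𝒜 →⋆ₐ[ℂ] Op L) (hirr : Irr π) (T : Op L)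
    (hT : IsSelfAdjoint T) (hc : ∀ a, Commute T (π a)) : ∃ c : ℝ, T = (c : ℂ) • (1 : Op L) := by
  have key : ∀ f : ℝ → ℝ, Continuous f → cfc f T ≠ 0 →
      ∀ x, cfc f T x = 0 → x = 0 := by
    intro f hf hne x hx
    have hcl : IsClosed ((LinearMap.ker (cfc f T).toLinearMap : Submodule ℂ L) : Set L) :=
      (cfc f T).isClosed_ker
    have hinv : ∀ a, ∀ y ∈ LinearMap.ker (cfc f T).toLinearMap,
        π a y ∈ LinearMap.ker (cfc f T).toLinearMap := by
      intro a y hy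
      have hy' : cfc f T y = 0 := hy
      have hcom : Commute (cfc f T) (π a) := (hc a).cfc_real f
      show cfc f T (π a y) = 0
      have : (cfc f T * π a) y = (π a * cfc f T) y := by rw [hcom.eq]
      simpa [hy'] using this
    rcases hirr (LinearMap.ker (cfc f T).toLinearMap) hcl hinv with h | h
    · have : x ∈ LinearMap.ker (cfc f T).toLinearMap := hx
      rw [h] at this
      simpa using this
    · exfalso
      apply hne
      ext y
      have : y ∈ LinearMap.ker (cfc f T).toLinearMap := by rw [h]; trivial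
      exact this
  obtain ⟨t, ht⟩ : (spectrum ℝ T).Nonempty := 
    ContinuousFunctionalCalculus.spectrum_nonempty T hT
  refine ⟨t, ?_⟩
  have hsub : ∀ s ∈ spectrum ℝ T, s = t := by
    intro s hs
    by_contra hst
    have hd : 0 < |s - t| := abs_pos.mpr (sub_ne_zero.mpr hst)
    set d := |s - t| with hdd
    set f : ℝ → ℝ := fun x => max 0 (d / 2 - |x - s|) with hf
    set g : ℝ → ℝ := fun x => max 0 (d / 2 - |x - t|) with hg
    have hfc : Continuous f := by fun_prop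
    have hgc : Continuous g := by fun_prop
    have hfs : f s ≠ 0 := by
      simp only [hf, sub_self, abs_zero, sub_zero]
      have : 0 < d / 2 := by linarith
      rw [max_eq_right this.le]; exact this.ne'
    have hgt : g t ≠ 0 := by
      simp only [hg, sub_self, abs_zero, sub_zero]
      have : 0 < d / 2 := by linarith
      rw [max_eq_right this.le]; exact this.ne'
    have hfne : cfc f T ≠ 0 := by
      intro h0
      have h1 : cfc f T = cfc (fun _ : ℝ => (0 : ℝ)) T := by rw [h0]; simp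
      have := (cfc_eq_cfc_iff_eqOn (a := T) (f := f) (g := fun _ => (0 : ℝ))).mp h1
      exact hfs (this hs)
    have hgne : cfc g T ≠ 0 := by
      intro h0
      have h1 : cfc g T = cfc (fun _ : ℝ => (0 : ℝ)) T := by rw [h0]; simp
      have := (cfc_eq_cfc_iff_eqOn (a := T) (f := g) (g := fun _ => (0 : ℝ))).mp h1
      exact hgt (this ht)
    have hfg : cfc f T * cfc g T = 0 := by
      rw [← cfc_mul f g T]
      have : (fun x => f x * g x) = fun _ => (0 : ℝ) := by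
        funext x
        simp only [hf, hg]
        rcases le_or_gt (d / 2) |x - s| with h | h
        · rw [max_eq_left (by linarith : d / 2 - |x - s| ≤ 0)]; simp
        · have h2 : d ≤ |x - s| + |x - t| := by
            rw [hdd]
            calc |s - t| = |(x - t) - (x - s)| := by ring_nf
              _ ≤ |x - t| + |x - s| := abs_sub _ _
              _ = _ := add_comm _ _
          rw [max_eq_left (by linarith : d / 2 - |x - t| ≤ 0)]; simp
      rw [this]; simp
    apply hgne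
    ext y
    apply key f hfc hfne
    have : (cfc f T * cfc g T) y = 0 := by rw [hfg]; simp
    simpa using this
  have h1 : cfc (id : ℝ → ℝ) T = cfc (fun _ : ℝ => t) T := by
    apply cfc_congr
    intro s hs
    exact hsub s hs
  rw [cfc_id ℝ T, cfc_const t T] at h1
  rw [h1]
  ext x
  simp [Algebra.algebraMap_eq_smul_one]

theorem schur [Nontrivial L] (π : 𝒜 →⋆ₐ[ℂ] Op L) (hirr : Irr π) (T : Op L)
    (hc : ∀ a, Commute T (π a)) : ∃ c : ℂ, T = c • (1 : Op L) := by
  have hc' : ∀ a, Commute (star T) (π a) := by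
    intro a
    have := (hc (star a)).star_star
    rw [map_star, star_star] at this
    exact this
  have h1 : ∀ a, Commute (realPart T : Op L) (π a) := by
    intro a
    rw [realPart_apply_coe]
    exact ((hc a).add_left (hc' a)).smul_left _
  have h2 : ∀ a, Commute (imaginaryPart T : Op L) (π a) := by
    intro a
    rw [imaginaryPart_apply_coe]
    exact (((hc a).sub_left (hc' a)).smul_left _).smul_left _
  obtain ⟨r, hr⟩ := schur_sa π hirr _ (realPart T).2 h1
  obtain ⟨s, hs⟩ := schur_sa π hirr _ (imaginaryPart T).2 h2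
  refine ⟨(r : ℂ) + Complex.I * (s : ℂ), ?_⟩
  conv_lhs => rw [← realPart_add_I_smul_imaginaryPart T]
  rw [hr, hs, add_smul, smul_smul]



/-- the `n`-fold sum -/
abbrev XL (L : Type*) (n : ℕ) := PiLp 2 (fun _ : Fin n => L)

/-- the diagonal operator -/
noncomputable def diagOp (n : ℕ) (S : Op L) : XL L n →L[ℂ] XL L n :=
  (PiLp.continuousLinearEquiv 2 ℂ (fun _ : Fin n => L)).symm.toContinuousLinearMap ∘L
      (ContinuousLinearMap.pi fun i => S ∘L ContinuousLinearMap.proj i) ∘L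
      (PiLp.continuousLinearEquiv 2 ℂ (fun _ : Fin n => L)).toContinuousLinearMap

omit [CompleteSpace L] in
theorem diagOp_apply (n : ℕ) (S : Op L) (x : XL L n) (i : Fin n) :
    (diagOp n S x) i = S (x i) := rfl

/-- the orbit map -/
noncomputable def orbMap (π : 𝒜 →⋆ₐ[ℂ] Op L) {n : ℕ} (s : Fin n → L) : 𝒜 →ₗ[ℂ] XL L n where
  toFun a := WithLp.toLp 2 (fun i => π a (s i))
  map_add' a b := by ext i; simp [PiLp.add_apply]
  map_smul' c a := by ext i; simp [PiLp.smul_apply]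

theorem orbMap_apply (π : 𝒜 →⋆ₐ[ℂ] Op L) {n : ℕ} (s : Fin n → L) (a : 𝒜) (i : Fin n) :
    orbMap π s a i = π a (s i) := rfl

/-- density: an irreducible representation approximates every operator on finitely many
vectors -/
theorem density [Nontrivial L] (π : 𝒜 →⋆ₐ[ℂ] Op L) (hirr : Irr π) {n : ℕ} (s : Fin n → L)
    (T : Op L) {ε : ℝ} (hε : 0 < ε) : ∃ a : 𝒜, ∀ i, ‖π a (s i) - T (s i)‖ < ε := by
  classical
  set W : Submodule ℂ (XL L n) := (LinearMap.range (orbMap π s)).topologicalClosure with hW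
  have hWc : IsClosed (W : Set (XL L n)) := Submodule.isClosed_topologicalClosure _
  have : CompleteSpace W := hWc.completeSpace_coe
  have hinv : ∀ a, ∀ w ∈ W, diagOp n (π a) w ∈ W := by
    intro a
    have hm : Set.MapsTo (diagOp n (π a)) (LinearMap.range (orbMap π s) : Set (XL L n))
        (LinearMap.range (orbMap π s) : Set (XL L n)) := by
      rintro _ ⟨b, rfl⟩
      refine ⟨a * b, ?_⟩
      ext i
      rw [diagOp_apply, orbMap_apply, orbMap_apply, map_mul]
      rfl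
    intro w hw
    have := hm.closure (diagOp n (π a)).continuous
    exact this hw
  have hadj : ∀ a (x y : XL L n), ⟪diagOp n (π a) x, y⟫_ℂ = ⟪x, diagOp n (π (star a)) y⟫_ℂ := by
    intro a x y
    rw [PiLp.inner_apply, PiLp.inner_apply]
    refine Finset.sum_congr rfl fun i _ => ?_
    rw [diagOp_apply, diagOp_apply, map_star, ContinuousLinearMap.star_eq_adjoint,
      ContinuousLinearMap.adjoint_inner_right]
  have hcomm : ∀ a x, W.starProjection (diagOp n (π a) x) =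
      diagOp n (π a) (W.starProjection x) := by
    intro a x
    refine Submodule.eq_starProjection_of_mem_of_inner_eq_zero
      (hinv a _ (Submodule.starProjection_apply_mem _ x)) ?_
    intro w hw
    rw [← map_sub, hadj]
    exact Submodule.starProjection_inner_eq_zero _ _ (hinv _ _ hw)
  -- entries
  have hent : ∀ i j, ∃ c : ℂ, ∀ x : L,
      (W.starProjection (WithLp.toLp 2 (Pi.single j x) : XL L n)) i = c • x := by
    intro i j
    let E : Op L := (PiLp.proj 2 (fun _ : Fin n => L) i : XL L n →L[ℂ] L) ∘L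
      W.starProjection ∘L
      (PiLp.continuousLinearEquiv 2 ℂ (fun _ : Fin n => L)).symm.toContinuousLinearMap ∘L
      ContinuousLinearMap.single ℂ (fun _ : Fin n => L) j
    have hE : ∀ x, E x = (W.starProjection (WithLp.toLp 2 (Pi.single j x) : XL L n)) i := by
      intro x
      rfl
    obtain ⟨c, hc⟩ := schur π hirr E (by
      intro a
      show E * π a = π a * E
      ext x
      show E (π a x) = π a (E x)
      have he : (WithLp.toLp 2 (Pi.single j (π a x)) : XL L n) =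
          diagOp n (π a) (WithLp.toLp 2 (Pi.single j x)) := by
        refine PiLp.ext fun k => ?_
        rw [diagOp_apply]
        by_cases hk : k = j
        · subst hk; simp
        · simp [Pi.single_eq_of_ne hk]
      rw [hE, hE, he, hcomm, diagOp_apply])
    refine ⟨c, fun x => ?_⟩
    rw [← hE, hc]
    simp
  choose lam hlam using hent
  have hP : ∀ (x : XL L n) i, (W.starProjection x) i = ∑ j, lam i j • x j := by
    intro x i
    have hx : x = ∑ j, (WithLp.toLp 2 (Pi.single j (x j)) : XL L n) := by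
      ext k
      rw [WithLp.ofLp_sum, Finset.sum_apply]
      simp [Pi.single_apply]
    conv_lhs => rw [hx]
    rw [map_sum, WithLp.ofLp_sum, Finset.sum_apply]
    exact Finset.sum_congr rfl fun j _ => hlam i j (x j)
  have hs : (WithLp.toLp 2 s : XL L n) ∈ W := by
    apply Submodule.le_topologicalClosure
    refine ⟨1, ?_⟩
    ext i
    rw [orbMap_apply, map_one]
    rfl
  have hTs : diagOp n T (WithLp.toLp 2 s : XL L n) ∈ W := by
    rw [← Submodule.starProjection_eq_self_iff]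
    ext i
    rw [hP, diagOp_apply]
    simp only [diagOp_apply]
    have h1 := Submodule.starProjection_eq_self_iff.mpr hs
    have h2 := hP (WithLp.toLp 2 s : XL L n) i
    rw [h1] at h2
    have h3 : s i = ∑ j, lam i j • s j := h2
    show ∑ j, lam i j • T (s j) = T (s i)
    rw [h3, map_sum]
    simp
  rw [hW] at hTs
  have hTs' : diagOp n T (WithLp.toLp 2 s : XL L n) ∈
    closure (LinearMap.range (orbMap π s) : Set (XL L n)) := hTs
  rw [Metric.mem_closure_iff] at hTs'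
  obtain ⟨_, ⟨a, rfl⟩, ha⟩ := hTs' ε hε
  refine ⟨a, fun i => ?_⟩
  have h3 := PiLp.norm_apply_le (diagOp n T (WithLp.toLp 2 s : XL L n) - orbMap π s a) i
  rw [dist_eq_norm] at ha
  rw [norm_sub_rev]
  exact lt_of_le_of_lt h3 ha


/-- density for self-adjoint operators on two vectors -/
theorem density_sa [Nontrivial L] (π : 𝒜 →⋆ₐ[ℂ] Op L) (hirr : Irr π) (x y : L)
    (T : Op L) (hT : IsSelfAdjoint T) {ε : ℝ} (hε : 0 < ε) :
    ∃ a : 𝒜, IsSelfAdjoint a ∧ ‖π a x - T x‖ < ε ∧ ‖π a y - T y‖ < ε := by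
  let _ : InnerProductSpace ℝ L := InnerProductSpace.complexToReal
  let ev : L → (selfAdjoint 𝒜 →ₗ[ℝ] L) := fun z =>
    { toFun := fun a => π (a : 𝒜) z
      map_add' := by
        intro a b
        simp
      map_smul' := by
        intro c a
        rw [selfAdjoint.val_smul, RingHom.id_apply]
        have : (c • (a : 𝒜)) = (c : ℂ) • (a : 𝒜) := (Complex.coe_smul c (a : 𝒜)).symm
        rw [this, map_smul]
        simp }
  have main := real_approx (ev x) (ev y) (T x) (T y) (by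
    intro p q hpq
    let G : Op L → ℂ := fun S => ⟪S p, x⟫_ℂ + ⟪S q, y⟫_ℂ + ⟪S x, p⟫_ℂ + ⟪S y, q⟫_ℂ
    have hGadd : ∀ S S', G (S + S') = G S + G S' := by
      intro S S'
      simp only [G, add_apply, inner_add_left]
      ring
    have hGI : ∀ S, G (Complex.I • S) = - Complex.I * G S := by
      intro S
      simp only [G, smul_apply, inner_smul_left, Complex.conj_I]
      ring
    have hGsa : ∀ S, IsSelfAdjoint S →
        G S = ((2 * (⟪p, S x⟫_ℝ + ⟪q, S y⟫_ℝ) : ℝ) : ℂ) := by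
      intro S hS
      have e1 : ∀ u v, ⟪S u, v⟫_ℂ = ⟪u, S v⟫_ℂ := by
        intro u v
        have := ContinuousLinearMap.adjoint_inner_right S u v
        rw [← this, ← ContinuousLinearMap.star_eq_adjoint, hS.star_eq]
      have e2 : ∀ u v : L, ⟪u, v⟫_ℂ + ⟪v, u⟫_ℂ = ((2 * ⟪u, v⟫_ℝ : ℝ) : ℂ) := by
        intro u v
        rw [← inner_conj_symm v u, Complex.add_conj]
        rfl
      simp only [G]
      rw [e1 p x, e1 q y]
      have := e2 p (S x)
      have h' := e2 q (S y)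
      rw [mul_add, Complex.ofReal_add, ← this, ← h']
      ring
    have hG0 : ∀ a : 𝒜, G (π a) = 0 := by
      have hsa : ∀ a : 𝒜, IsSelfAdjoint a → G (π a) = 0 := by
        intro a ha
        rw [hGsa (π a) (ha.map π)]
        have := hpq ⟨a, ha⟩
        have h' : ⟪p, π a x⟫_ℝ + ⟪q, π a y⟫_ℝ = 0 := this
        rw [h']; simp
      intro a
      rw [← realPart_add_I_smul_imaginaryPart a, map_add, map_smul, hGadd, hGI,
        hsa _ (realPart a).2, hsa _ (imaginaryPart a).2]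
      simp
    have hGT : G T = 0 := by
      by_contra hne
      have hpos : 0 < ‖G T‖ := norm_pos_iff.mpr hne
      set M := ‖x‖ + ‖y‖ + ‖p‖ + ‖q‖ + 1 with hM
      have hMpos : 0 < M := by positivity
      obtain ⟨a, ha⟩ := density π hirr ![p, q, x, y] T (ε := ‖G T‖ / M) (by positivity)
      have h0 := ha 0
      have h1 := ha 1
      have h2 := ha 2
      have h3 := ha 3
      simp only [Matrix.cons_val] at h0 h1 h2 h3
      have hb : ‖G T‖ ≤ ‖G T‖ / M * (‖x‖ + ‖y‖ + ‖p‖ + ‖q‖) := by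
        have e : G T = - (⟪π a p - T p, x⟫_ℂ + ⟪π a q - T q, y⟫_ℂ + ⟪π a x - T x, p⟫_ℂ
            + ⟪π a y - T y, q⟫_ℂ) := by
          have := hG0 a
          simp only [G] at this ⊢
          simp only [inner_sub_left]
          linear_combination this
        calc ‖G T‖ = ‖⟪π a p - T p, x⟫_ℂ + ⟪π a q - T q, y⟫_ℂ + ⟪π a x - T x, p⟫_ℂ
            + ⟪π a y - T y, q⟫_ℂ‖ := by rw [e, norm_neg]
          _ ≤ ‖⟪π a p - T p, x⟫_ℂ‖ + ‖⟪π a q - T q, y⟫_ℂ‖ + ‖⟪π a x - T x, p⟫_ℂ‖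
            + ‖⟪π a y - T y, q⟫_ℂ‖ := by
              refine (norm_add_le _ _).trans (add_le_add ?_ le_rfl)
              refine (norm_add_le _ _).trans (add_le_add ?_ le_rfl)
              exact norm_add_le _ _
          _ ≤ ‖G T‖ / M * ‖x‖ + ‖G T‖ / M * ‖y‖ + ‖G T‖ / M * ‖p‖ + ‖G T‖ / M * ‖q‖ := by
              have g : ∀ (u v : L), ‖u‖ < ‖G T‖ / M → ‖⟪u, v⟫_ℂ‖ ≤ ‖G T‖ / M * ‖v‖ := by
                intro u v hu
                exact (norm_inner_le_norm u v).trans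
                  (mul_le_mul_of_nonneg_right hu.le (norm_nonneg _))
              exact add_le_add (add_le_add (add_le_add (g _ _ h0) (g _ _ h1)) (g _ _ h2))
                (g _ _ h3)
          _ = _ := by ring
      have hlt : ‖G T‖ / M * (‖x‖ + ‖y‖ + ‖p‖ + ‖q‖) < ‖G T‖ := by
        rw [div_mul_eq_mul_div, div_lt_iff₀ hMpos]
        apply mul_lt_mul_of_pos_left _ hpos
        rw [hM]; linarith
      linarith
    have h5 := hGsa T hT
    rw [hGT] at h5
    have h6 : (2 * (⟪p, T x⟫_ℝ + ⟪q, T y⟫_ℝ) : ℝ) = 0 := by exact_mod_cast h5.symm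
    linarith) hε
  obtain ⟨a, h1, h2⟩ := main
  exact ⟨a, a.2, h1, h2⟩

/-- functional calculus with `2 t / (1 + t ^ 2)` -/
theorem exists_bounded (a : 𝒜) (ha : IsSelfAdjoint a) :
    ∃ f g : 𝒜, IsSelfAdjoint f ∧ ‖f‖ ≤ 1 ∧ ‖g‖ ≤ 1 ∧ f = (2 : ℂ) • (g * a) ∧
      g * (1 + a * a) = 1 := by
  have hpos : ∀ t : ℝ, 0 < 1 + t * t := fun t => by nlinarith [mul_self_nonneg t]
  have hgc : Continuous (fun t : ℝ => (1 + t * t)⁻¹) :=
    Continuous.inv₀ (by fun_prop) (fun t => (hpos t).ne')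
  have hfc : Continuous (fun t : ℝ => 2 * ((1 + t * t)⁻¹ * t)) := by fun_prop
  refine ⟨cfc (fun t : ℝ => 2 * ((1 + t * t)⁻¹ * t)) a, cfc (fun t : ℝ => (1 + t * t)⁻¹) a,
    cfc_predicate _ _, ?_, ?_, ?_, ?_⟩
  · apply norm_cfc_le zero_le_one
    intro t _
    rw [Real.norm_eq_abs, abs_le]
    have h := hpos t
    constructor
    · rw [← sub_nonneg]
      have : 2 * ((1 + t * t)⁻¹ * t) - -1 = (1 + t) ^ 2 / (1 + t * t) := by
        field_simp
        ring
      rw [this]; positivity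
    · rw [← sub_nonneg]
      have : 1 - 2 * ((1 + t * t)⁻¹ * t) = (1 - t) ^ 2 / (1 + t * t) := by
        field_simp
        ring
      rw [this]; positivity
  · apply norm_cfc_le zero_le_one
    intro t _
    rw [Real.norm_eq_abs, abs_of_pos (inv_pos.mpr (hpos t))]
    apply inv_le_one_of_one_le₀
    nlinarith [mul_self_nonneg t]
  · rw [cfc_const_mul (2 : ℝ) (fun t : ℝ => (1 + t * t)⁻¹ * t) a (by fun_prop),
      cfc_mul (fun t : ℝ => (1 + t * t)⁻¹) (fun t => t) a hgc.continuousOn (by fun_prop),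
      cfc_id' ℝ a]
    rw [← Complex.coe_smul]
    simp
  · have h1 : (1 + a * a) = cfc (fun t : ℝ => 1 + t * t) a := by
      rw [cfc_add (a := a) (fun _ : ℝ => (1 : ℝ)) (fun t : ℝ => t * t) (by fun_prop)
        (by fun_prop), cfc_const_one ℝ a,
        cfc_mul (fun t : ℝ => t) (fun t : ℝ => t) a (by fun_prop) (by fun_prop), cfc_id' ℝ a]
    rw [h1, ← cfc_mul _ _ a hgc.continuousOn (by fun_prop)]
    have : (fun t : ℝ => (1 + t * t)⁻¹ * (1 + t * t)) = fun _ => 1 := by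
      funext t
      exact inv_mul_cancel₀ (hpos t).ne'
    rw [this, cfc_const_one ℝ a]

theorem bounded_est (π : 𝒜 →⋆ₐ[ℂ] Op L) {a f g : 𝒜} (hf : ‖f‖ ≤ 1) (hg : ‖g‖ ≤ 1)
    (hfg : f = (2 : ℂ) • (g * a)) (hga : g * (1 + a * a) = 1) (u v : L) {δ : ℝ}
    (h1 : ‖π a u - v‖ ≤ δ) (h2 : ‖π a v - u‖ ≤ δ) : ‖π f u - v‖ ≤ 2 * δ := by
  have hga2 : ‖g * a‖ ≤ 1 := by
    have : g * a = (1 / 2 : ℂ) • f := by
      rw [hfg, smul_smul]; norm_num
    rw [this, norm_smul]
    have : ‖(1 / 2 : ℂ)‖ = 1 / 2 := by norm_num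
    rw [this]; linarith
  have e : π f u - v = π g (π a u - v) - π (g * a) (π a v - u) := by
    have h3 : v = π g v + π (g * a) (π a v) := by
      have : (π (g * (1 + a * a))) v = v := by rw [hga, map_one]; rfl
      rw [mul_add, mul_one, ← mul_assoc, map_add] at this
      conv_lhs => rw [← this]
      simp
    have h4 : π f u = (2 : ℂ) • π (g * a) u := by rw [hfg, map_smul]; rfl
    have h5 : π (g * a) u = π g (π a u) := by rw [map_mul]; rfl
    rw [map_sub, map_sub, h4]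
    conv_lhs => rw [h3]
    rw [h5, two_smul]
    abel
  rw [e]
  have hπ : ∀ (c : 𝒜) (z : L), ‖c‖ ≤ 1 → ‖π c z‖ ≤ ‖z‖ := by
    intro c z hc
    calc ‖π c z‖ ≤ ‖π c‖ * ‖z‖ := (π c).le_opNorm z
      _ ≤ 1 * ‖z‖ := mul_le_mul_of_nonneg_right
          ((NonUnitalStarAlgHom.norm_apply_le π c).trans hc) (norm_nonneg _)
      _ = ‖z‖ := one_mul _
  calc ‖π g (π a u - v) - π (g * a) (π a v - u)‖
      ≤ ‖π g (π a u - v)‖ + ‖π (g * a) (π a v - u)‖ := norm_sub_le _ _
    _ ≤ δ + δ := add_le_add ((hπ _ _ hg).trans h1) ((hπ _ _ hga2).trans h2)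
    _ = 2 * δ := by ring

/-- approximate transitivity, with norm bound and adjoint condition -/
theorem approx_unit [Nontrivial L] (π : 𝒜 →⋆ₐ[ℂ] Op L) (hirr : Irr π) (η y : L) (hη : ‖η‖ = 1)
    (hy1 : ‖y‖ = 1) (hy : ⟪η, y⟫_ℂ = 0) {ε : ℝ} (hε : 0 < ε) :
    ∃ b : 𝒜, ‖b‖ ≤ 1 ∧ ‖π b η - y‖ ≤ ε ∧ ‖π (star b) η‖ ≤ ε := by
  have hy' : ⟪y, η⟫_ℂ = 0 := by rw [← inner_conj_symm, hy, map_zero]
  have hηη : ⟪η, η⟫_ℂ = 1 := by rw [inner_self_eq_norm_sq_to_K, hη]; simp
  have hyy : ⟪y, y⟫_ℂ = 1 := by rw [inner_self_eq_norm_sq_to_K, hy1]; simp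
  let T₁ : Op L := (innerSL ℂ η).smulRight y + (innerSL ℂ y).smulRight η
  let T₂ : Op L := (innerSL ℂ η).smulRight η
  have hT₁ : ∀ z, T₁ z = ⟪η, z⟫_ℂ • y + ⟪y, z⟫_ℂ • η := fun z => rfl
  have hT₂ : ∀ z, T₂ z = ⟪η, z⟫_ℂ • η := fun z => rfl
  have hs₁ : IsSelfAdjoint T₁ := by
    rw [ContinuousLinearMap.isSelfAdjoint_iff_isSymmetric]
    intro u v
    show ⟪T₁ u, v⟫_ℂ = ⟪u, T₁ v⟫_ℂ
    rw [hT₁, hT₁, inner_add_left, inner_add_right, inner_smul_left, inner_smul_left,
      inner_smul_right, inner_smul_right, inner_conj_symm, inner_conj_symm]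
    ring
  have hs₂ : IsSelfAdjoint T₂ := by
    rw [ContinuousLinearMap.isSelfAdjoint_iff_isSymmetric]
    intro u v
    show ⟪T₂ u, v⟫_ℂ = ⟪u, T₂ v⟫_ℂ
    rw [hT₂, hT₂, inner_smul_left, inner_smul_right, inner_conj_symm]
    ring
  obtain ⟨a₁, ha₁, h11, h12⟩ := density_sa π hirr η y T₁ hs₁ (ε := ε / 4) (by positivity)
  obtain ⟨a₂, ha₂, h21, h22⟩ := density_sa π hirr η y T₂ hs₂ (ε := ε / 4) (by positivity)
  rw [hT₁, hηη, hy', one_smul, zero_smul, add_zero] at h11
  rw [hT₁, hy, hyy, one_smul, zero_smul, zero_add] at h12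
  rw [hT₂, hηη, one_smul] at h21
  rw [hT₂, hy, zero_smul, sub_zero] at h22
  obtain ⟨f₁, g₁, hf₁, hf₁n, hg₁n, hfg₁, hga₁⟩ := exists_bounded a₁ ha₁
  obtain ⟨f₂, g₂, hf₂, hf₂n, hg₂n, hfg₂, hga₂⟩ := exists_bounded a₂ ha₂
  have e1 : ‖π f₁ η - y‖ ≤ ε / 2 := by
    have := bounded_est π hf₁n hg₁n hfg₁ hga₁ η y h11.le h12.le
    linarith
  have e2 : ‖π f₁ y - η‖ ≤ ε / 2 := by
    have := bounded_est π hf₁n hg₁n hfg₁ hga₁ y η h12.le h11.le
    linarith
  have e3 : ‖π f₂ η - η‖ ≤ ε / 2 := by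
    have := bounded_est π hf₂n hg₂n hfg₂ hga₂ η η h21.le h21.le
    linarith
  have hπ : ∀ (c : 𝒜) (z : L), ‖c‖ ≤ 1 → ‖π c z‖ ≤ ‖z‖ := by
    intro c z hc
    calc ‖π c z‖ ≤ ‖π c‖ * ‖z‖ := (π c).le_opNorm z
      _ ≤ 1 * ‖z‖ := mul_le_mul_of_nonneg_right
          ((NonUnitalStarAlgHom.norm_apply_le π c).trans hc) (norm_nonneg _)
      _ = ‖z‖ := one_mul _
  have e4 : ‖π f₂ y‖ ≤ ε / 2 := by
    have : π f₂ y = (2 : ℂ) • π g₂ (π a₂ y) := by
      rw [hfg₂, map_smul, map_mul]; rfl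
    rw [this, norm_smul]
    have h2 : ‖(2 : ℂ)‖ = 2 := by norm_num
    rw [h2]
    have := hπ g₂ (π a₂ y) hg₂n
    linarith
  refine ⟨f₁ * f₂, ?_, ?_, ?_⟩
  · calc ‖f₁ * f₂‖ ≤ ‖f₁‖ * ‖f₂‖ := norm_mul_le _ _
      _ ≤ 1 * 1 := mul_le_mul hf₁n hf₂n (norm_nonneg _) zero_le_one
      _ = 1 := one_mul 1
  · have : π (f₁ * f₂) η - y = π f₁ (π f₂ η - η) + (π f₁ η - y) := by
      rw [map_mul, map_sub]
      show π f₁ (π f₂ η) - y = _
      abel
    rw [this]
    calc _ ≤ ‖π f₁ (π f₂ η - η)‖ + ‖π f₁ η - y‖ := norm_add_le _ _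
      _ ≤ ε / 2 + ε / 2 := add_le_add ((hπ _ _ hf₁n).trans e3) e1
      _ = ε := by ring
  · rw [star_mul, hf₁.star_eq, hf₂.star_eq, map_mul]
    have : (π f₂ * π f₁) η = π f₂ (π f₁ η - y) + π f₂ y := by
      rw [map_sub]
      show π f₂ (π f₁ η) = _
      abel
    rw [this]
    calc _ ≤ ‖π f₂ (π f₁ η - y)‖ + ‖π f₂ y‖ := norm_add_le _ _
      _ ≤ ε / 2 + ε / 2 := add_le_add ((hπ _ _ hf₂n).trans e1) e4
      _ = ε := by ring

theorem approx_orth [Nontrivial L] (π : 𝒜 →⋆ₐ[ℂ] Op L) (hirr : Irr π) (η y : L) (hη : ‖η‖ = 1)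
    (hy : ⟪η, y⟫_ℂ = 0) {ε : ℝ} (hε : 0 < ε) :
    ∃ b : 𝒜, ‖b‖ ≤ ‖y‖ ∧ ‖π b η - y‖ ≤ ε ∧ ‖π (star b) η‖ ≤ ε := by
  by_cases h0 : y = 0
  · subst h0
    refine ⟨0, by simp, ?_, ?_⟩
    · simp [hε.le]
    · simp [hε.le]
  · have hpos : 0 < ‖y‖ := norm_pos_iff.mpr h0
    have hne : (‖y‖ : ℂ) ≠ 0 := by exact_mod_cast hpos.ne'
    obtain ⟨b, hb1, hb2, hb3⟩ := approx_unit π hirr η ((‖y‖ : ℂ)⁻¹ • y) hη
      (by rw [norm_smul, norm_inv, Complex.norm_real, norm_norm]; field_simp)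
      (by rw [inner_smul_right, hy, mul_zero]) (ε := ε / ‖y‖) (by positivity)
    refine ⟨(‖y‖ : ℂ) • b, ?_, ?_, ?_⟩
    · rw [norm_smul, Complex.norm_real, norm_norm]
      calc ‖y‖ * ‖b‖ ≤ ‖y‖ * 1 := mul_le_mul_of_nonneg_left hb1 hpos.le
        _ = ‖y‖ := mul_one _
    · have : π ((‖y‖ : ℂ) • b) η - y = (‖y‖ : ℂ) • (π b η - (‖y‖ : ℂ)⁻¹ • y) := by
        rw [map_smul, smul_sub, smul_smul, mul_inv_cancel₀ hne, one_smul]
        rfl
      rw [this, norm_smul, Complex.norm_real, norm_norm]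
      calc ‖y‖ * ‖π b η - (‖y‖ : ℂ)⁻¹ • y‖ ≤ ‖y‖ * (ε / ‖y‖) :=
            mul_le_mul_of_nonneg_left hb2 hpos.le
        _ = ε := by field_simp
    · have : π (star ((‖y‖ : ℂ) • b)) η = (‖y‖ : ℂ) • π (star b) η := by
        rw [star_smul, map_smul]
        simp
      rw [this, norm_smul, Complex.norm_real, norm_norm]
      calc ‖y‖ * ‖π (star b) η‖ ≤ ‖y‖ * (ε / ‖y‖) :=
            mul_le_mul_of_nonneg_left hb3 hpos.le
        _ = ε := by field_simp

theorem approx_pair [Nontrivial L] (π : 𝒜 →⋆ₐ[ℂ] Op L) (hirr : Irr π) (η p q : L)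
    (hη : ‖η‖ = 1) (hpq : ⟪η, p⟫_ℂ = ⟪q, η⟫_ℂ) {ε : ℝ} (hε : 0 < ε) :
    ∃ b : 𝒜, ‖b‖ ≤ 3 * (‖p‖ + ‖q‖) ∧ ‖π b η - p‖ ≤ ε ∧ ‖π (star b) η - q‖ ≤ ε := by
  have hηη : ⟪η, η⟫_ℂ = 1 := by rw [inner_self_eq_norm_sq_to_K, hη]; simp
  set α := ⟪η, p⟫_ℂ with hα
  have hα' : ⟪η, q⟫_ℂ = (starRingEnd ℂ) α := by
    rw [hpq, inner_conj_symm]
  have hαp : ‖α‖ ≤ ‖p‖ := by
    rw [hα]; calc ‖⟪η, p⟫_ℂ‖ ≤ ‖η‖ * ‖p‖ := norm_inner_le_norm _ _
      _ = ‖p‖ := by rw [hη, one_mul]
  have hαq : ‖α‖ ≤ ‖q‖ := by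
    rw [hpq]; calc ‖⟪q, η⟫_ℂ‖ ≤ ‖q‖ * ‖η‖ := norm_inner_le_norm _ _
      _ = ‖q‖ := by rw [hη, mul_one]
  obtain ⟨b₁, h11, h12, h13⟩ := approx_orth π hirr η (p - α • η) hη
    (by rw [inner_sub_right, inner_smul_right, hηη, ← hα]; ring) (ε := ε / 2) (by positivity)
  obtain ⟨b₂, h21, h22, h23⟩ := approx_orth π hirr η (q - (starRingEnd ℂ) α • η) hη
    (by rw [inner_sub_right, inner_smul_right, hηη, hα']; ring) (ε := ε / 2) (by positivity)
  refine ⟨b₁ + star b₂ + α • 1, ?_, ?_, ?_⟩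
  · have n1 : ‖p - α • η‖ ≤ ‖p‖ + ‖α‖ := by
      refine (norm_sub_le _ _).trans ?_
      rw [norm_smul, hη, mul_one]
    have n2 : ‖q - (starRingEnd ℂ) α • η‖ ≤ ‖q‖ + ‖α‖ := by
      refine (norm_sub_le _ _).trans ?_
      rw [norm_smul, hη, mul_one, RCLike.norm_conj]
    have n3 : ‖α • (1 : 𝒜)‖ ≤ ‖α‖ := by
      rw [norm_smul]
      have h1 : ‖(1 : 𝒜)‖ ≤ 1 := by
        rcases subsingleton_or_nontrivial 𝒜 with h | h
        · rw [Subsingleton.elim (1 : 𝒜) 0, norm_zero]; exact zero_le_one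
        · exact CStarRing.norm_one.le
      calc ‖α‖ * ‖(1 : 𝒜)‖ ≤ ‖α‖ * 1 :=
            mul_le_mul_of_nonneg_left h1 (norm_nonneg _)
        _ = ‖α‖ := mul_one _
    calc ‖b₁ + star b₂ + α • 1‖ ≤ ‖b₁‖ + ‖star b₂‖ + ‖α • (1 : 𝒜)‖ :=
          (norm_add_le _ _).trans (add_le_add (norm_add_le _ _) le_rfl)
      _ ≤ _ := by rw [norm_star]; linarith [norm_nonneg q, norm_nonneg p]
  · have : π (b₁ + star b₂ + α • 1) η - p = (π b₁ η - (p - α • η)) + π (star b₂) η := by
      rw [map_add, map_add, map_smul, map_one]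
      show π b₁ η + π (star b₂) η + α • η - p = _
      abel
    rw [this]
    calc _ ≤ ‖π b₁ η - (p - α • η)‖ + ‖π (star b₂) η‖ := norm_add_le _ _
      _ ≤ ε / 2 + ε / 2 := add_le_add h12 h23
      _ = ε := by ring
  · have : π (star (b₁ + star b₂ + α • 1)) η - q =
        π (star b₁) η + (π b₂ η - (q - (starRingEnd ℂ) α • η)) := by
      rw [star_add, star_add, star_smul, star_star, star_one, map_add, map_add, map_smul,
        map_one]
      show π (star b₁) η + π b₂ η + (starRingEnd ℂ) α • η - q = _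
      abel
    rw [this]
    calc _ ≤ ‖π (star b₁) η‖ + ‖π b₂ η - (q - (starRingEnd ℂ) α • η)‖ := norm_add_le _ _
      _ ≤ ε / 2 + ε / 2 := add_le_add h13 h22
      _ = ε := by ring

end Kadison

end Kad

open Kad in
/-- exact transitivity with adjoint condition -/
theorem kadison {𝒜 : Type*} [CStarAlgebra 𝒜] {L : Type*} [NormedAddCommGroup L]
    [InnerProductSpace ℂ L] [CompleteSpace L] (π : 𝒜 →⋆ₐ[ℂ] Op L)
    (hirr : ∀ V : Submodule ℂ L, IsClosed (V : Set L) → (∀ a, ∀ x ∈ V, π a x ∈ V) →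
      V = ⊥ ∨ V = ⊤)
    (η y : L) (hη : ‖η‖ = 1) (hy : ⟪η, y⟫_ℂ = 0) :
    ∃ b : 𝒜, π b η = y ∧ π (star b) η = 0 := by
  have hnt : Nontrivial L := ⟨⟨η, 0, by
    intro h
    rw [h, norm_zero] at hη
    exact zero_ne_one hη⟩⟩
  -- one correction step
  have hstep : ∀ s : {s : L × L // ⟪η, s.1⟫_ℂ = ⟪s.2, η⟫_ℂ}, ∃ b : 𝒜,
      ‖b‖ ≤ 3 * (‖s.1.1‖ + ‖s.1.2‖) ∧
      ‖s.1.1 - π b η‖ + ‖s.1.2 - π (star b) η‖ ≤ (1 / 2) * (‖s.1.1‖ + ‖s.1.2‖) := by
    rintro ⟨⟨p, q⟩, hpq⟩
    by_cases h0 : ‖p‖ + ‖q‖ = 0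
    · have hp : p = 0 := by
        rw [← norm_eq_zero]; linarith [norm_nonneg p, norm_nonneg q]
      have hq : q = 0 := by
        rw [← norm_eq_zero]; linarith [norm_nonneg p, norm_nonneg q]
      subst hp
      subst hq
      exact ⟨0, by simp, by simp⟩
    · have hpos : 0 < ‖p‖ + ‖q‖ :=
        lt_of_le_of_ne (add_nonneg (norm_nonneg p) (norm_nonneg q)) (Ne.symm h0)
      obtain ⟨b, h1, h2, h3⟩ := approx_pair π hirr η p q hη hpq
        (ε := (1 / 4) * (‖p‖ + ‖q‖)) (by positivity)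
      refine ⟨b, h1, ?_⟩
      rw [norm_sub_rev p, norm_sub_rev q]
      linarith
  choose step hs1 hs2 using hstep
  let next : {s : L × L // ⟪η, s.1⟫_ℂ = ⟪s.2, η⟫_ℂ} → {s : L × L // ⟪η, s.1⟫_ℂ = ⟪s.2, η⟫_ℂ} :=
    fun s => ⟨(s.1.1 - π (step s) η, s.1.2 - π (star (step s)) η), by
      rw [inner_sub_right, inner_sub_left, s.2, map_star, ContinuousLinearMap.star_eq_adjoint,
        ContinuousLinearMap.adjoint_inner_left]⟩
  let S : ℕ → {s : L × L // ⟪η, s.1⟫_ℂ = ⟪s.2, η⟫_ℂ} := fun n =>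
    next^[n] ⟨(y, 0), by simp [hy]⟩
  have hS0 : S 0 = ⟨(y, 0), by simp [hy]⟩ := rfl
  have hSs : ∀ n, S (n + 1) = next (S n) := fun n => Function.iterate_succ_apply' _ _ _
  have hN : ∀ n, ‖(S n).1.1‖ + ‖(S n).1.2‖ ≤ (1 / 2) ^ n * ‖y‖ := by
    intro n
    induction n with
    | zero => rw [hS0]; simp
    | succ n ih =>
      rw [hSs, pow_succ]
      refine (hs2 (S n)).trans ?_
      calc 1 / 2 * (‖(S n).1.1‖ + ‖(S n).1.2‖) ≤ 1 / 2 * ((1 / 2) ^ n * ‖y‖) :=
            mul_le_mul_of_nonneg_left ih (by norm_num)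
        _ = _ := by ring
  have hsum : Summable (fun n => step (S n)) := by
    refine Summable.of_norm_bounded (g := fun n => 3 * ((1 / 2 : ℝ) ^ n * ‖y‖)) ?_ ?_
    · exact ((summable_geometric_two).mul_right _).mul_left _
    · intro n
      exact (hs1 (S n)).trans (mul_le_mul_of_nonneg_left (hN n) (by norm_num))
  set b := ∑' n, step (S n) with hb
  have hlim : Tendsto (fun n => ∑ i ∈ Finset.range n, step (S i)) atTop (𝓝 b) :=
    hsum.hasSum.tendsto_sum_nat
  have h1 : ∀ n, π (∑ i ∈ Finset.range n, step (S i)) η = y - (S n).1.1 := by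
    intro n
    induction n with
    | zero => rw [hS0]; simp
    | succ n ih =>
      rw [Finset.sum_range_succ, map_add, add_apply, ih, hSs]
      show y - (S n).1.1 + π (step (S n)) η = y - ((S n).1.1 - π (step (S n)) η)
      abel
  have h2 : ∀ n, π (star (∑ i ∈ Finset.range n, step (S i))) η = - (S n).1.2 := by
    intro n
    induction n with
    | zero => rw [hS0]; simp
    | succ n ih =>
      rw [Finset.sum_range_succ, star_add, map_add, add_apply, ih, hSs]
      show - (S n).1.2 + π (star (step (S n))) η = - ((S n).1.2 - π (star (step (S n))) η)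
      abel
  have hp : Tendsto (fun n => (1 / 2 : ℝ) ^ n * ‖y‖) atTop (𝓝 0) := by
    have := (tendsto_pow_atTop_nhds_zero_of_lt_one (r := (1 / 2 : ℝ)) (by norm_num)
      (by norm_num)).mul_const ‖y‖
    simpa using this
  have hz1 : Tendsto (fun n => (S n).1.1) atTop (𝓝 0) :=
    squeeze_zero_norm (fun n => by linarith [hN n, norm_nonneg (S n).1.2]) hp
  have hz2 : Tendsto (fun n => (S n).1.2) atTop (𝓝 0) :=
    squeeze_zero_norm (fun n => by linarith [hN n, norm_nonneg (S n).1.1]) hp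
  have hπc : Continuous (π : 𝒜 → Op L) := by
    exact AddMonoidHomClass.continuous_of_bound π 1 (fun a => by
      rw [one_mul]; exact NonUnitalStarAlgHom.norm_apply_le π a)
  refine ⟨b, ?_, ?_⟩
  · have e1 : Tendsto (fun n => π (∑ i ∈ Finset.range n, step (S i)) η) atTop (𝓝 (π b η)) :=
      (((ContinuousLinearMap.apply ℂ L η).continuous.comp hπc).tendsto b).comp hlim
    have e2 : Tendsto (fun n => π (∑ i ∈ Finset.range n, step (S i)) η) atTop (𝓝 y) := by
      simp only [h1]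
      simpa using tendsto_const_nhds.sub hz1
    exact tendsto_nhds_unique e1 e2
  · have e1 : Tendsto (fun n => π (star (∑ i ∈ Finset.range n, step (S i))) η) atTop
        (𝓝 (π (star b) η)) :=
      (((ContinuousLinearMap.apply ℂ L η).continuous.comp
        (hπc.comp continuous_star)).tendsto b).comp hlim
    have e2 : Tendsto (fun n => π (star (∑ i ∈ Finset.range n, step (S i))) η) atTop (𝓝 0) := by
      simp only [h2]
      simpa using hz2.neg
    exact tendsto_nhds_unique e1 e2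


end Vale.Agent.P070
end
end

section

section

namespace Vale.Agent.P070

open scoped InnerProductSpace
open Filter Topology

universe u v w

section
variable {H : Type u} {K : Type v} {L : Type w}
  [NormedAddCommGroup H] [InnerProductSpace ℂ H] [CompleteSpace H]
  [NormedAddCommGroup K] [InnerProductSpace ℂ K] [CompleteSpace K]
  [NormedAddCommGroup L] [InnerProductSpace ℂ L] [CompleteSpace L]

/-- representations of closed star subalgebras are contractive. -/
theorem sub_rep_norm_le (A : StarSubalgebra ℂ (Op H)) (hA : IsClosed (A : Set (Op H)))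
    (π : A →⋆ₐ[ℂ] Op L) (a : A) : ‖π a‖ ≤ ‖(a : Op H)‖ := by
  have : IsClosed (A : Set (Op H)) := hA
  exact NonUnitalStarAlgHom.norm_apply_le π a

/-- cut-offs fix the kernel in every representation -/
theorem sub_rep_cut_fix (A : StarSubalgebra ℂ (Op H)) (hA : IsClosed (A : Set (Op H)))
    (π : A →⋆ₐ[ℂ] Op L) {k : Op H} (hk : k ∈ A) (hk0 : 0 ≤ k) (n : ℕ) {z : L}
    (hz : π ⟨k, hk⟩ z = 0) : π ⟨cutOp n k, cutOp_mem A hA hk n⟩ z = z := by
  obtain ⟨g, hg, h1, -⟩ := exists_one_sub_cutOp A hA hk hk0 n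
  have h2 : (1 : A) - ⟨cutOp n k, cutOp_mem A hA hk n⟩ = (⟨g, hg⟩ : A) * ⟨k, hk⟩ :=
    Subtype.ext h1
  have h3 := congrArg (fun a : A => π a z) h2
  simp only [map_sub, map_one, map_mul] at h3
  have h4 : z - π ⟨cutOp n k, cutOp_mem A hA hk n⟩ z = π ⟨g, hg⟩ (π ⟨k, hk⟩ z) := h3
  rw [hz, map_zero, sub_eq_zero] at h4
  exact h4.symm

/-- square root of `f - f^2` for the cut-off `f` -/
theorem exists_sqrt_cut (A : StarSubalgebra ℂ (Op H)) (hA : IsClosed (A : Set (Op H)))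
    {k : Op H} (hk : k ∈ A) (n : ℕ) :
    ∃ s ∈ A, IsSelfAdjoint s ∧ s * s = cutOp n k - cutOp n k * cutOp n k := by
  let G : ℝ → ℝ := fun t => Real.sqrt (cut n t - cut n t * cut n t)
  have hc := cut_continuous n
  have hG : Continuous G := (hc.sub (hc.mul hc)).sqrt
  refine ⟨cfc G k, cfc_mem (𝕜' := ℂ) (s := A) (hs := hA) G hk, cfc_predicate G k, ?_⟩
  unfold cutOp
  rw [← cfc_mul G G k hG.continuousOn hG.continuousOn,
    ← cfc_mul (cut n) (cut n) k hc.continuousOn hc.continuousOn,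
    ← cfc_sub (cut n) (fun t => cut n t * cut n t) k hc.continuousOn (hc.mul hc).continuousOn]
  refine cfc_congr (fun t _ => ?_)
  have h1 := cut_nonneg n t
  have h2 := cut_le_one n t
  exact Real.mul_self_sqrt (by nlinarith)

/-- the determined constants are the same in every representation -/
theorem sub_rep_det {P : Op H →⋆ₐ[ℂ] Op K} (hP : IsUltraRep P) (A : StarSubalgebra ℂ (Op H))
    (hA : IsClosed (A : Set (Op H))) (π : A →⋆ₐ[ℂ] Op L) {k x : Op H} {c : ℂ} (hk : k ∈ A)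
    (hk0 : 0 ≤ k) (hx : x ∈ A) (hc : DetAt P k x c) {z w : L} (hz : π ⟨k, hk⟩ z = 0)
    (hw : π ⟨k, hk⟩ w = 0) : ⟪w, π ⟨x, hx⟩ z⟫_ℂ = c * ⟪w, z⟫_ℂ := by
  have hlim := DetAt.tendsto hP hk0 hc
  have key : ∀ n, ‖⟪w, π ⟨x, hx⟩ z⟫_ℂ - c * ⟪w, z⟫_ℂ‖ ≤
      ‖cutOp n k * x * cutOp n k - c • (cutOp n k * cutOp n k)‖ * (‖w‖ * ‖z‖) := by
    intro n
    set e : A := ⟨cutOp n k, cutOp_mem A hA hk n⟩ with he
    have ez : π e z = z := sub_rep_cut_fix A hA π hk hk0 n hz
    have ew : π e w = w := sub_rep_cut_fix A hA π hk hk0 n hw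
    have esa : IsSelfAdjoint (π e) := by
      have : IsSelfAdjoint e := Subtype.ext (cutOp_isSelfAdjoint n k)
      exact this.map π
    have emove : ∀ p q : L, ⟪p, π e q⟫_ℂ = ⟪π e p, q⟫_ℂ := by
      intro p q
      have := ContinuousLinearMap.isSelfAdjoint_iff_isSymmetric.mp esa p q
      exact this.symm
    set y : A := e * ⟨x, hx⟩ * e - c • (e * e) with hy
    have h1 : ⟪w, π y z⟫_ℂ = ⟪w, π ⟨x, hx⟩ z⟫_ℂ - c * ⟪w, z⟫_ℂ := by
      have : π y z = π e (π ⟨x, hx⟩ (π e z)) - c • (π e (π e z)) := by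
        rw [hy, map_sub, map_smul, map_mul, map_mul, map_mul]; rfl
      rw [this, inner_sub_right, inner_smul_right, ez, ez, emove, ew]
    rw [← h1]
    refine (norm_inner_le_norm _ _).trans ?_
    have h2 : ‖π y z‖ ≤ ‖(y : Op H)‖ * ‖z‖ :=
      ((π y).le_opNorm z).trans
        (mul_le_mul_of_nonneg_right (sub_rep_norm_le A hA π y) (norm_nonneg _))
    have h3 : (y : Op H) = cutOp n k * x * cutOp n k - c • (cutOp n k * cutOp n k) := rfl
    rw [← h3]
    calc ‖w‖ * ‖π y z‖ ≤ ‖w‖ * (‖(y : Op H)‖ * ‖z‖) :=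
          mul_le_mul_of_nonneg_left h2 (norm_nonneg _)
      _ = ‖(y : Op H)‖ * (‖w‖ * ‖z‖) := by ring
  have h2 : Tendsto (fun n => ‖cutOp n k * x * cutOp n k - c • (cutOp n k * cutOp n k)‖
      * (‖w‖ * ‖z‖)) atTop (𝓝 0) := by
    have := hlim.mul_const (‖w‖ * ‖z‖)
    rwa [zero_mul] at this
  have h3 : ‖⟪w, π ⟨x, hx⟩ z⟫_ℂ - c * ⟪w, z⟫_ℂ‖ ≤ 0 :=
    ge_of_tendsto' h2 key
  exact sub_eq_zero.mp (norm_le_zero_iff.mp h3)

/-- Step 5: a representation with a vector killed by `k` has a vector killed by `k0`. -/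
theorem step_five {P : Op H →⋆ₐ[ℂ] Op K} (hP : IsUltraRep P) (A : StarSubalgebra ℂ (Op H))
    (hA : IsClosed (A : Set (Op H))) (π : A →⋆ₐ[ℂ] Op L) {k0 k : Op H} (hk0 : k0 ∈ A)
    (hk : k ∈ A) (h0 : 0 ≤ k0) (h1 : 0 ≤ k) (D : Det P k A) (nI : ¬ Ineq P k0 k A)
    {η : L} (hη : π ⟨k, hk⟩ η = 0) (hη1 : η ≠ 0) :
    ∃ y : L, y ≠ 0 ∧ π ⟨k0, hk0⟩ y = 0 := by
  -- the connecting element
  have hex : ∃ x ∈ A, ∃ z1 z2 : K, P k0 z1 = 0 ∧ P k z2 = 0 ∧ ⟪z2, P x z1⟫_ℂ ≠ 0 := by
    by_contra hcon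
    apply nI
    intro x hx z1 z2 hz1 hz2
    by_contra hne
    exact hcon ⟨x, hx, z1, z2, hz1, hz2, hne⟩
  obtain ⟨x, hx, z1, z2, hz1, hz2, hne⟩ := hex
  have Pmul : ∀ (S T : Op H) (z : K), P (S * T) z = P S (P T z) := by
    intro S T z; rw [map_mul]; rfl
  have Pstar : ∀ (S : Op H) (z w : K), ⟪P (star S) z, w⟫_ℂ = ⟪z, P S w⟫_ℂ := by
    intro S z w
    rw [map_star, ContinuousLinearMap.star_eq_adjoint, ContinuousLinearMap.adjoint_inner_left]
  set f : ℕ → A := fun n => ⟨cutOp n k0, cutOp_mem A hA hk0 n⟩ with hf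
  set X : A := ⟨x, hx⟩ with hX
  have fsa : ∀ n, IsSelfAdjoint (f n) := fun n => Subtype.ext (cutOp_isSelfAdjoint n k0)
  have πsa : ∀ n, ∀ p q : L, ⟪p, π (f n) q⟫_ℂ = ⟪π (f n) p, q⟫_ℂ := by
    intro n p q
    exact (ContinuousLinearMap.isSelfAdjoint_iff_isSymmetric.mp ((fsa n).map π) p q).symm
  set v : L := π (star X) η with hv
  -- lower bound
  have hz1n : z1 ≠ 0 := by
    rintro rfl; apply hne; simp
  have hz2n : z2 ≠ 0 := by
    rintro rfl; apply hne; simp
  set c0 : ℝ := ‖⟪z2, P x z1⟫_ℂ‖ / ‖z1‖ / ‖z2‖ * ‖η‖ with hc0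
  have hc0pos : 0 < c0 := by
    have a1 := norm_pos_iff.mpr hne
    have a2 := norm_pos_iff.mpr hz1n
    have a3 := norm_pos_iff.mpr hz2n
    have a4 := norm_pos_iff.mpr hη1
    positivity
  have lower : ∀ n, c0 ≤ ‖π (f n) v‖ := by
    intro n
    set y : Op H := x * (cutOp n k0 * cutOp n k0) * star x with hy
    have hyA : y ∈ A := mul_mem (mul_mem hx (mul_mem (cutOp_mem A hA hk0 n)
      (cutOp_mem A hA hk0 n))) (star_mem hx)
    obtain ⟨c, hc⟩ := D y hyA
    have e1 : ⟪z2, P y z2⟫_ℂ = c * ⟪z2, z2⟫_ℂ := hc z2 z2 hz2 hz2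
    have e2 : ⟪η, π ⟨y, hyA⟩ η⟫_ℂ = c * ⟪η, η⟫_ℂ := sub_rep_det hP A hA π hk h1 hyA hc hη hη
    have e3 : ⟪η, π ⟨y, hyA⟩ η⟫_ℂ = ((‖π (f n) v‖ ^ 2 : ℝ) : ℂ) := by
      have h1 : (⟨y, hyA⟩ : A) = X * (f n * f n) * star X := rfl
      have h2 : π ⟨y, hyA⟩ η = π X (π (f n) (π (f n) v)) := by
        rw [h1, map_mul, map_mul, map_mul]; rfl
      have h3 : ⟪η, π X (π (f n) (π (f n) v))⟫_ℂ = ⟪v, π (f n) (π (f n) v)⟫_ℂ := by
        rw [hv, map_star π X, ContinuousLinearMap.star_eq_adjoint (π X),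
          ContinuousLinearMap.adjoint_inner_left]
      rw [h2, h3, πsa, inner_self_eq_norm_sq_to_K]
      norm_cast
    have e4 : ⟪z2, P y z2⟫_ℂ = ((‖P (cutOp n k0) (P (star x) z2)‖ ^ 2 : ℝ) : ℂ) := by
      rw [hy, Pmul, Pmul, Pmul, ← Pstar x, ← Pstar (cutOp n k0),
        (cutOp_isSelfAdjoint n k0).star_eq, inner_self_eq_norm_sq_to_K]
      norm_cast
    have e5 : ‖⟪z2, P x z1⟫_ℂ‖ ≤ ‖P (cutOp n k0) (P (star x) z2)‖ * ‖z1‖ := by
      have h1 : P (cutOp n k0) z1 = z1 := by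
        obtain ⟨g, hg, h1, -⟩ := exists_one_sub_cutOp A hA hk0 h0 n
        have h3 := congrArg (fun a => P a z1) h1
        simp only [map_sub, map_one, map_mul] at h3
        have h4 : z1 - P (cutOp n k0) z1 = P g (P k0 z1) := h3
        rw [hz1, map_zero, sub_eq_zero] at h4
        exact h4.symm
      have h2 : ⟪z2, P x z1⟫_ℂ = ⟪P (cutOp n k0) (P (star x) z2), z1⟫_ℂ := by
        rw [← Pstar x]
        conv_lhs => rw [← h1]
        rw [← Pstar (cutOp n k0), (cutOp_isSelfAdjoint n k0).star_eq]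
      rw [h2]
      exact norm_inner_le_norm _ _
    have e6 : (‖π (f n) v‖ * ‖z2‖) ^ 2 = (‖P (cutOp n k0) (P (star x) z2)‖ * ‖η‖) ^ 2 := by
      rw [inner_self_eq_norm_sq_to_K] at e1 e2
      rw [e4] at e1
      rw [e3] at e2
      have h1 : ((‖π (f n) v‖ ^ 2 * ‖z2‖ ^ 2 : ℝ) : ℂ) =
          ((‖P (cutOp n k0) (P (star x) z2)‖ ^ 2 * ‖η‖ ^ 2 : ℝ) : ℂ) := by
        push_cast
        push_cast at e1 e2
        rw [e1, e2]
        change c * (‖η‖ : ℂ) ^ 2 * (‖z2‖ : ℂ) ^ 2 = c * (‖z2‖ : ℂ) ^ 2 * (‖η‖ : ℂ) ^ 2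
        ring
      have h2 := Complex.ofReal_injective h1
      rw [mul_pow, mul_pow]; exact h2
    have e7 : ‖π (f n) v‖ * ‖z2‖ = ‖P (cutOp n k0) (P (star x) z2)‖ * ‖η‖ :=
      (sq_eq_sq₀ (by positivity) (by positivity)).mp e6
    have a2 := norm_pos_iff.mpr hz1n
    have a3 := norm_pos_iff.mpr hz2n
    have e8 : ‖⟪z2, P x z1⟫_ℂ‖ / ‖z1‖ ≤ ‖P (cutOp n k0) (P (star x) z2)‖ :=
      (div_le_iff₀ a2).mpr e5
    have e9 : ‖π (f n) v‖ = ‖P (cutOp n k0) (P (star x) z2)‖ * ‖η‖ / ‖z2‖ := by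
      rw [eq_div_iff a3.ne']; exact e7
    rw [e9, hc0]
    have : ‖⟪z2, P x z1⟫_ℂ‖ / ‖z1‖ / ‖z2‖ * ‖η‖ = ‖⟪z2, P x z1⟫_ℂ‖ / ‖z1‖ * ‖η‖ / ‖z2‖ := by ring
    rw [this]
    exact div_le_div_of_nonneg_right (mul_le_mul_of_nonneg_right e8 (norm_nonneg _)) a3.le
  -- the sequence is Cauchy
  have hdiff : ∀ n m, n < m → ‖π (f n) v - π (f m) v‖ ^ 2 ≤ ‖π (f n) v‖ ^ 2 - ‖π (f m) v‖ ^ 2 := by
    intro n m hnm
    have h1 : f n * f m = f m := Subtype.ext (cutOp_mul_of_lt' hnm h0)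
    have h2 : ⟪π (f n) v, π (f m) v⟫_ℂ = ⟪v, π (f m) v⟫_ℂ := by
      rw [← πsa n]
      have : π (f n) (π (f m) v) = π (f n * f m) v := by rw [map_mul]; rfl
      rw [this, h1]
    have h3 : ‖π (f m) v‖ ^ 2 ≤ (⟪v, π (f m) v⟫_ℂ).re := by
      obtain ⟨s, hsA, hs, hss⟩ := exists_sqrt_cut A hA hk0 m
      have h4 : π (⟨s, hsA⟩ : A) (π (⟨s, hsA⟩ : A) v) = π (f m) v - π (f m) (π (f m) v) := by
        have h5 : (⟨s, hsA⟩ : A) * ⟨s, hsA⟩ = f m - f m * f m := Subtype.ext hss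
        have h6 := congrArg (fun a : A => π a v) h5
        simp only [map_sub, map_mul] at h6
        exact h6
      have h7 : IsSelfAdjoint (π (⟨s, hsA⟩ : A)) := by
        have : IsSelfAdjoint (⟨s, hsA⟩ : A) := Subtype.ext hs
        exact this.map π
      have h8 : ⟪v, π (⟨s, hsA⟩ : A) (π (⟨s, hsA⟩ : A) v)⟫_ℂ =
          ((‖π (⟨s, hsA⟩ : A) v‖ ^ 2 : ℝ) : ℂ) := by
        have h9 := (ContinuousLinearMap.isSelfAdjoint_iff_isSymmetric.mp h7
          v (π (⟨s, hsA⟩ : A) v))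
        change ⟪π (⟨s, hsA⟩ : A) v, π (⟨s, hsA⟩ : A) v⟫_ℂ =
          ⟪v, π (⟨s, hsA⟩ : A) (π (⟨s, hsA⟩ : A) v)⟫_ℂ at h9
        rw [← h9, inner_self_eq_norm_sq_to_K]
        norm_cast
      have h10 : ⟪v, π (f m) (π (f m) v)⟫_ℂ = ((‖π (f m) v‖ ^ 2 : ℝ) : ℂ) := by
        rw [πsa, inner_self_eq_norm_sq_to_K]
        norm_cast
      rw [h4, inner_sub_right, h10] at h8
      have h11 := congrArg Complex.re h8
      rw [Complex.sub_re, Complex.ofReal_re, Complex.ofReal_re] at h11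
      nlinarith [sq_nonneg ‖π (⟨s, hsA⟩ : A) v‖]
    have h5 := norm_sub_sq (𝕜 := ℂ) (π (f n) v) (π (f m) v)
    rw [h2] at h5
    have h6 : RCLike.re ⟪v, π (f m) v⟫_ℂ = (⟪v, π (f m) v⟫_ℂ).re := rfl
    rw [h6] at h5
    linarith
  set N : ℕ → ℝ := fun n => ‖π (f n) v‖ ^ 2 with hN
  have hanti : Antitone N := antitone_nat_of_succ_le fun n => by
    have := hdiff n (n + 1) (Nat.lt_succ_self n)
    have h2 : 0 ≤ ‖π (f n) v - π (f (n + 1)) v‖ ^ 2 := sq_nonneg _
    simp only [hN]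
    linarith
  have hbdd : BddBelow (Set.range N) := ⟨0, by rintro _ ⟨n, rfl⟩; exact sq_nonneg _⟩
  have hNlim : Tendsto N atTop (𝓝 (⨅ n, N n)) := tendsto_atTop_ciInf hanti hbdd
  have hNc : CauchySeq N := hNlim.cauchySeq
  have hcau : CauchySeq (fun n => π (f n) v) := by
    rw [Metric.cauchySeq_iff]
    intro ε hε
    obtain ⟨n0, hn0⟩ := Metric.cauchySeq_iff.mp hNc (ε ^ 2) (by positivity)
    refine ⟨n0, ?_⟩
    have hw : ∀ m ≥ n0, ∀ n ≥ n0, m < n → dist (π (f m) v) (π (f n) v) < ε := by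
      intro m hm n hn hmn
      have h1 := hn0 m hm n hn
      rw [Real.dist_eq] at h1
      have h2 := hdiff m n hmn
      have h3 : N m - N n < ε ^ 2 := lt_of_le_of_lt (le_abs_self _) h1
      rw [dist_eq_norm]
      have h4 : ‖π (f m) v - π (f n) v‖ ^ 2 < ε ^ 2 := lt_of_le_of_lt h2 h3
      exact lt_of_pow_lt_pow_left₀ 2 hε.le h4
    intro m hm n hn
    rcases lt_trichotomy m n with h | h | h
    · exact hw m hm n hn h
    · rw [h, dist_self]; exact hε
    · rw [dist_comm]; exact hw n hn m hm h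
  obtain ⟨y, hy⟩ := cauchySeq_tendsto_of_complete hcau
  refine ⟨y, ?_, ?_⟩
  · have h1 : c0 ≤ ‖y‖ := ge_of_tendsto' hy.norm lower
    exact norm_pos_iff.mp (lt_of_lt_of_le hc0pos h1)
  · have h1 : Tendsto (fun n => π ⟨k0, hk0⟩ (π (f n) v)) atTop (𝓝 (π ⟨k0, hk0⟩ y)) :=
      ((π ⟨k0, hk0⟩).continuous.tendsto y).comp hy
    have h2 : Tendsto (fun n => π ⟨k0, hk0⟩ (π (f n) v)) atTop (𝓝 0) := by
      rw [tendsto_zero_iff_norm_tendsto_zero]
      have h3 : Tendsto (fun n : ℕ => (1 / 2 : ℝ) ^ n * ‖v‖) atTop (𝓝 0) := by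
        have := (tendsto_pow_atTop_nhds_zero_of_lt_one (by norm_num : (0:ℝ) ≤ 1 / 2)
          (by norm_num)).mul_const ‖v‖
        rwa [zero_mul] at this
      refine squeeze_zero (fun n => norm_nonneg _) (fun n => ?_) h3
      have h4 : π ⟨k0, hk0⟩ (π (f n) v) = π (⟨k0, hk0⟩ * f n) v := by rw [map_mul]; rfl
      rw [h4]
      refine ((π _).le_opNorm v).trans (mul_le_mul_of_nonneg_right ?_ (norm_nonneg _))
      exact (sub_rep_norm_le A hA π _).trans (norm_mul_cutOp_le n h0)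
    exact tendsto_nhds_unique h1 h2

theorem step5 {P : Op H →⋆ₐ[ℂ] Op K} (hP : IsUltraRep P) (A : StarSubalgebra ℂ (Op H))
    (hA : IsClosed (A : Set (Op H))) {k0 k : Op H} (hk0 : k0 ∈ A) (hk : k ∈ A) (hk0n : 0 ≤ k0)
    (hkn : 0 ≤ k) (hdet : Det P k A) (hni : ¬ Ineq P k0 k A) (π : A →⋆ₐ[ℂ] Op L) (η : L)
    (hη : ‖η‖ = 1) (hkη : π ⟨k, hk⟩ η = 0) : ∃ y : L, y ≠ 0 ∧ π ⟨k0, hk0⟩ y = 0 :=
  step_five hP A hA π hk0 hk hk0n hkn hdet hni hkη (by
    rintro rfl
    rw [norm_zero] at hη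
    exact zero_ne_one hη)

theorem det_transfer {P : Op H →⋆ₐ[ℂ] Op K} (hP : IsUltraRep P) (A : StarSubalgebra ℂ (Op H))
    (hA : IsClosed (A : Set (Op H))) {k : Op H} (hk : k ∈ A) (hkn : 0 ≤ k) {a : A} {c : ℂ}
    (h : DetAt P k a c) (π : A →⋆ₐ[ℂ] Op L) (z w : L) (hz : π ⟨k, hk⟩ z = 0)
    (hw : π ⟨k, hk⟩ w = 0) : ⟪w, π a z⟫_ℂ = c * ⟪w, z⟫_ℂ :=
  sub_rep_det hP A hA π hk hkn a.2 h hz hw

end

end Vale.Agent.P070
end
end
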