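import Vale.Agent.P070.MathlibUsed
import Vale.Agent.P070.Bdl.B1
import Vale.Agent.P070.Statement

set_option linter.all false

section

section

namespace Vale.Agent.P070

open scoped InnerProductSpace ENNReal symmDiff ComplexConjugate
open Filter Topology

section wperm
variable {ι : Type*}

/-- the Hilbert space of square summable families -/
noncomputable abbrev L2 (ι : Type*) := lp (fun _ : ι => ℂ) 2

theorem memlp_wperm (e : ι ≃ ι) (σ : ι → ℂ) (hσ : ∀ i, ‖σ i‖ ≤ 1) (z : L2 ι) :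
    Memℓp (fun i => σ i * z (e i)) 2 := by
  have h0 := lp.memℓp z
  rw [memℓp_gen_iff (by norm_num)] at h0 ⊢
  have h1 : Summable fun i => ‖z (e i)‖ ^ (2 : ℝ≥0∞).toReal :=
    (e.summable_iff (f := fun i => ‖z i‖ ^ (2 : ℝ≥0∞).toReal)).2 h0
  refine Summable.of_nonneg_of_le (fun i => by positivity) (fun i => ?_) h1
  have h2 : ‖σ i * z (e i)‖ ≤ ‖z (e i)‖ := by
    rw [norm_mul]
    exact mul_le_of_le_one_left (norm_nonneg _) (hσ i)
  exact Real.rpow_le_rpow (norm_nonneg _) h2 (by norm_num)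

/-- weighted permutation operators -/
noncomputable def wop (e : ι ≃ ι) (σ : ι → ℂ) (hσ : ∀ i, ‖σ i‖ ≤ 1) : Op (L2 ι) :=
  LinearMap.mkContinuous
    { toFun := fun z => (⟨fun i => σ i * z (e i), memlp_wperm e σ hσ z⟩ : L2 ι)
      map_add' := by
        intro x y
        ext i
        exact mul_add _ _ _
      map_smul' := by
        intro c x
        ext i
        exact mul_left_comm _ _ _ } 1 (by
      intro z
      rw [one_mul]
      refine lp.norm_le_of_tsum_le (by norm_num) (norm_nonneg _) ?_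
      rw [lp.norm_rpow_eq_tsum (by norm_num) z]
      have h0 := lp.memℓp z
      rw [memℓp_gen_iff (by norm_num)] at h0
      have h1 : Summable fun i => ‖z (e i)‖ ^ (2 : ℝ≥0∞).toReal :=
        (e.summable_iff (f := fun i => ‖z i‖ ^ (2 : ℝ≥0∞).toReal)).2 h0
      have h3 := memlp_wperm e σ hσ z
      rw [memℓp_gen_iff (by norm_num)] at h3
      rw [← e.tsum_eq (fun i => ‖z i‖ ^ (2 : ℝ≥0∞).toReal)]
      refine Summable.tsum_le_tsum (fun i => ?_) h3 h1
      have h2 : ‖σ i * z (e i)‖ ≤ ‖z (e i)‖ := by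
        rw [norm_mul]
        exact mul_le_of_le_one_left (norm_nonneg _) (hσ i)
      exact Real.rpow_le_rpow (norm_nonneg _) h2 (by norm_num))

theorem wop_apply (e : ι ≃ ι) (σ : ι → ℂ) (hσ : ∀ i, ‖σ i‖ ≤ 1) (z : L2 ι) (i : ι) :
    wop e σ hσ z i = σ i * z (e i) := rfl

theorem norm_wop_le (e : ι ≃ ι) (σ : ι → ℂ) (hσ : ∀ i, ‖σ i‖ ≤ 1) (z : L2 ι) :
    ‖wop e σ hσ z‖ ≤ ‖z‖ := by
  refine lp.norm_le_of_tsum_le (by norm_num) (norm_nonneg _) ?_
  rw [lp.norm_rpow_eq_tsum (by norm_num) z]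
  have h0 := lp.memℓp z
  rw [memℓp_gen_iff (by norm_num)] at h0
  have h1 : Summable fun i => ‖z (e i)‖ ^ (2 : ℝ≥0∞).toReal :=
    (e.summable_iff (f := fun i => ‖z i‖ ^ (2 : ℝ≥0∞).toReal)).2 h0
  have h3 := memlp_wperm e σ hσ z
  rw [memℓp_gen_iff (by norm_num)] at h3
  rw [← e.tsum_eq (fun i => ‖z i‖ ^ (2 : ℝ≥0∞).toReal)]
  refine Summable.tsum_le_tsum (fun i => ?_) h3 h1
  have h2 : ‖σ i * z (e i)‖ ≤ ‖z (e i)‖ := by
    rw [norm_mul]
    exact mul_le_of_le_one_left (norm_nonneg _) (hσ i)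
  exact Real.rpow_le_rpow (norm_nonneg _) h2 (by norm_num)

theorem star_wop (e : ι ≃ ι) (σ : ι → ℂ) (hσ : ∀ i, ‖σ i‖ ≤ 1)
    (hσ' : ∀ i, ‖conj (σ (e.symm i))‖ ≤ 1) :
    star (wop e σ hσ) = wop e.symm (fun i => conj (σ (e.symm i))) hσ' := by
  symm
  rw [ContinuousLinearMap.star_eq_adjoint, ContinuousLinearMap.eq_adjoint_iff]
  intro x y
  rw [lp.inner_eq_tsum, lp.inner_eq_tsum]
  rw [← e.tsum_eq]
  refine tsum_congr fun i => ?_
  rw [wop_apply, wop_apply]
  simp only [Equiv.symm_apply_apply, RCLike.inner_apply, map_mul, RingHomCompTriple.comp_apply, RingHom.id_apply]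
  ring

/-- coordinatewise convergence of bounded sequences gives weak convergence -/
theorem weak_conv {y : ℕ → L2 ι} {y0 : L2 ι} {C : ℝ} (hC : ∀ i, ‖y i‖ ≤ C)
    (hp : ∀ p, Tendsto (fun i => y i p) atTop (𝓝 (y0 p))) (w : L2 ι) :
    Tendsto (fun i => ⟪w, y i⟫_ℂ) atTop (𝓝 ⟪w, y0⟫_ℂ) := by
  classical
  have hs := lp.hasSum_single (p := 2) (by norm_num) w
  have hF : ∀ F : Finset ι, Tendsto (fun i => ⟪∑ p ∈ F, lp.single 2 p (w p), y i⟫_ℂ) atTop
      (𝓝 ⟪∑ p ∈ F, lp.single 2 p (w p), y0⟫_ℂ) := by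
    intro F
    simp only [sum_inner, lp.inner_single_left]
    refine tendsto_finsetSum _ fun p _ => ?_
    exact (Filter.Tendsto.inner tendsto_const_nhds (hp p))
  have hU : TendstoUniformly
      (fun (F : Finset ι) i => ⟪∑ p ∈ F, lp.single 2 p (w p), y i⟫_ℂ)
      (fun i => ⟪w, y i⟫_ℂ) atTop := by
    rw [Metric.tendstoUniformly_iff]
    intro ε hε
    have hC0 : 0 ≤ C := (norm_nonneg _).trans (hC 0)
    have h1 : ∀ᶠ F : Finset ι in atTop, dist (∑ p ∈ F, lp.single 2 p (w p)) w < ε / (C + 1) :=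
      hs.eventually (Metric.ball_mem_nhds _ (by positivity))
    filter_upwards [h1] with F hF1 i
    rw [dist_eq_norm, ← inner_sub_left]
    calc ‖⟪w - ∑ p ∈ F, lp.single 2 p (w p), y i⟫_ℂ‖
        ≤ ‖w - ∑ p ∈ F, lp.single 2 p (w p)‖ * ‖y i‖ := norm_inner_le_norm _ _
      _ ≤ ‖w - ∑ p ∈ F, lp.single 2 p (w p)‖ * C := by gcongr; exact hC i
      _ ≤ (ε / (C + 1)) * C := by
          gcongr
          rw [← dist_eq_norm, dist_comm]
          exact hF1.le
      _ < ε := by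
          rw [div_mul_eq_mul_div, div_lt_iff₀ (by positivity)]
          linarith
  exact hU.tendsto_of_eventually_tendsto (Eventually.of_forall hF)
    (Filter.Tendsto.inner hs tendsto_const_nhds)

end wperm

/-- index set of the model -/
abbrev Idx := ℤ × Finset ℕ

/-- sign of `i` in `S` -/
noncomputable def sg (i : ℕ) (S : Finset ℕ) : ℂ := if i ∈ S then -1 else 1

theorem sg_norm (i : ℕ) (S : Finset ℕ) : ‖sg i S‖ ≤ 1 := by
  unfold sg
  by_cases h : i ∈ S
  · rw [if_pos h]; simp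
  · rw [if_neg h]; simp

theorem sg_conj (i : ℕ) (S : Finset ℕ) : conj (sg i S) = sg i S := by
  unfold sg
  by_cases h : i ∈ S
  · rw [if_pos h]; simp only [map_neg, map_one]
  · rw [if_neg h]; simp

theorem sg_mul_self (i : ℕ) (S : Finset ℕ) : sg i S * sg i S = 1 := by
  unfold sg
  by_cases h : i ∈ S
  · rw [if_pos h]; simp
  · rw [if_neg h]; simp

theorem sg_symmDiff_self (i : ℕ) (S : Finset ℕ) : sg i (S ∆ {i}) = - sg i S := by
  unfold sg
  by_cases h : i ∈ S
  · rw [if_pos h, if_neg (by simp [Finset.mem_symmDiff, h])]; simp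
  · rw [if_neg h, if_pos (by simp [Finset.mem_symmDiff, h])]

theorem sg_symmDiff_of_ne {i j : ℕ} (hij : i ≠ j) (S : Finset ℕ) :
    sg i (S ∆ {j}) = sg i S := by
  unfold sg
  by_cases h : i ∈ S
  · rw [if_pos h, if_pos (by simp [Finset.mem_symmDiff, h, hij])]
  · rw [if_neg h, if_neg (by simp [Finset.mem_symmDiff, h, hij])]

/-- shift of the first coordinate -/
def eU : Idx ≃ Idx where
  toFun p := (p.1 - 1, p.2)
  invFun p := (p.1 + 1, p.2)
  left_inv p := by simp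
  right_inv p := by simp

/-- flip of `i` -/
def eZ (i : ℕ) : Idx ≃ Idx where
  toFun p := (p.1, p.2 ∆ {i})
  invFun p := (p.1, p.2 ∆ {i})
  left_inv p := by simp
  right_inv p := by simp

/-- the shift -/
noncomputable def opU : Op (L2 Idx) := wop eU (fun _ => 1) (fun _ => by simp)
/-- the inverse shift -/
noncomputable def opV : Op (L2 Idx) := wop eU.symm (fun _ => 1) (fun _ => by simp)
/-- the sign operators -/
noncomputable def opX (i : ℕ) : Op (L2 Idx) :=
  wop (Equiv.refl _) (fun p => sg i p.2) (fun p => sg_norm i p.2)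
/-- the flip operators -/
noncomputable def opZ (i : ℕ) : Op (L2 Idx) := wop (eZ i) (fun _ => 1) (fun _ => by simp)

theorem opU_apply (z : L2 Idx) (m : ℤ) (S : Finset ℕ) : opU z (m, S) = z (m - 1, S) :=
  one_mul _
theorem opV_apply (z : L2 Idx) (m : ℤ) (S : Finset ℕ) : opV z (m, S) = z (m + 1, S) :=
  one_mul _
theorem opZ_apply (i : ℕ) (z : L2 Idx) (m : ℤ) (S : Finset ℕ) :
    opZ i z (m, S) = z (m, S ∆ {i}) := one_mul _
theorem opX_apply (i : ℕ) (z : L2 Idx) (m : ℤ) (S : Finset ℕ) :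
    opX i z (m, S) = sg i S * z (m, S) := rfl

theorem star_opU : star opU = opV := by
  rw [opU, star_wop _ _ _ (by simp only [map_one, norm_one, Std.le_refl, implies_true])]
  ext z ⟨m, S⟩
  simp only [map_one, wop_apply, one_mul, opV]

theorem star_opX (i : ℕ) : star (opX i) = opX i := by
  rw [opX, star_wop _ _ _ (by intro p; simpa only [Equiv.refl_symm, Equiv.refl_apply, RCLike.norm_conj] using sg_norm i p.2)]
  ext z ⟨m, S⟩
  simp only [Equiv.refl_symm, Equiv.refl_apply, sg_conj, wop_apply]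

theorem star_opZ (i : ℕ) : star (opZ i) = opZ i := by
  rw [opZ, star_wop _ _ _ (by simp only [map_one, norm_one, Std.le_refl, implies_true])]
  ext z ⟨m, S⟩
  simp only [eZ, Equiv.symm_mk, map_one, wop_apply, Equiv.coe_fn_mk, one_mul]

/-- the anticommuting-square-zero operators -/
noncomputable def opA (i : ℕ) : Op (L2 Idx) :=
  opU * ((1 / 2 : ℂ) • (opX i + opZ i * opX i))

/-- their adjoints -/
noncomputable def opB (i : ℕ) : Op (L2 Idx) :=
  ((1 / 2 : ℂ) • (opX i + opX i * opZ i)) * opV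

theorem star_opA (i : ℕ) : star (opA i) = opB i := by
  simp only [opA, one_div, smul_add, star_mul, star_add, star_smul, star_inv₀, star_ofNat, star_opX, star_opZ, star_opU, opB]

theorem opA_apply (i : ℕ) (z : L2 Idx) (m : ℤ) (S : Finset ℕ) :
    opA i z (m, S) = (1 / 2) * (sg i S * z (m - 1, S) - sg i S * z (m - 1, S ∆ {i})) := by
  have h : opA i z = opU ((1 / 2 : ℂ) • (opX i z + opZ i (opX i z))) := by
    simp only [opA, one_div, smul_add, mul_apply_eq_comp, add_apply, smul_apply, map_add, map_smul]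
  rw [h, opU_apply, lp.coeFn_smul, Pi.smul_apply, lp.coeFn_add, Pi.add_apply, opZ_apply,
    opX_apply, opX_apply, sg_symmDiff_self, smul_eq_mul]
  ring

theorem opB_apply (i : ℕ) (z : L2 Idx) (m : ℤ) (S : Finset ℕ) :
    opB i z (m, S) = (1 / 2) * (sg i S * z (m + 1, S) + sg i S * z (m + 1, S ∆ {i})) := by
  have h : opB i z = (1 / 2 : ℂ) • (opX i (opV z) + opX i (opZ i (opV z))) := by
    simp only [opB, one_div, smul_add, mul_apply_eq_comp, add_apply, smul_apply]
  rw [h, lp.coeFn_smul, Pi.smul_apply, lp.coeFn_add, Pi.add_apply,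
    opX_apply, opX_apply, opZ_apply, opV_apply, opV_apply, smul_eq_mul]

theorem opA_sq (i : ℕ) : opA i * opA i = 0 := by
  ext z ⟨m, S⟩
  show opA i (opA i z) (m, S) = 0
  rw [opA_apply, opA_apply, opA_apply, sg_symmDiff_self, symmDiff_symmDiff_cancel_right]
  ring

theorem opA_car (i : ℕ) : opA i * opB i + opB i * opA i = 1 := by
  ext z ⟨m, S⟩
  show opA i (opB i z) (m, S) + opB i (opA i z) (m, S) = z (m, S)
  rw [opA_apply, opB_apply, opB_apply, opB_apply, opA_apply, opA_apply, sg_symmDiff_self,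
    symmDiff_symmDiff_cancel_right]
  simp only [sub_add_cancel, add_sub_cancel_right]
  linear_combination z (m, S) * sg_mul_self i S

theorem opA_comm {i j : ℕ} (h : i ≠ j) : opA i * opA j = opA j * opA i := by
  ext z ⟨m, S⟩
  show opA i (opA j z) (m, S) = opA j (opA i z) (m, S)
  simp only [opA_apply, sg_symmDiff_of_ne h, sg_symmDiff_of_ne h.symm]
  rw [symmDiff_right_comm S {i} {j}]
  ring

theorem opAB_comm {i j : ℕ} (h : i ≠ j) : opA i * opB j = opB j * opA i := by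
  ext z ⟨m, S⟩
  show opA i (opB j z) (m, S) = opB j (opA i z) (m, S)
  simp only [opA_apply, opB_apply, sg_symmDiff_of_ne h, sg_symmDiff_of_ne h.symm]
  rw [symmDiff_right_comm S {i} {j}]
  simp only [sub_add_cancel, add_sub_cancel_right]
  ring

theorem opUA_comm (i : ℕ) : opU * opA i = opA i * opU := by
  ext z ⟨m, S⟩
  show opU (opA i z) (m, S) = opA i (opU z) (m, S)
  simp only [opA_apply, opU_apply]

theorem opUB_comm (i : ℕ) : opU * opB i = opB i * opU := by
  ext z ⟨m, S⟩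
  show opU (opB i z) (m, S) = opB i (opU z) (m, S)
  simp only [opB_apply, opU_apply, sub_add_cancel, add_sub_cancel_right]

theorem opU_unitary : opU ∈ unitary (Op (L2 Idx)) := by
  rw [Unitary.mem_iff, star_opU]
  constructor
  · ext z ⟨m, S⟩
    show opV (opU z) (m, S) = z (m, S)
    rw [opV_apply, opU_apply, add_sub_cancel_right]
  · ext z ⟨m, S⟩
    show opU (opV z) (m, S) = z (m, S)
    rw [opU_apply, opV_apply, sub_add_cancel]

theorem norm_opU (z : L2 Idx) : ‖opU z‖ = ‖z‖ := by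
  refine le_antisymm (norm_wop_le _ _ _ _) ?_
  have h : z = opV (opU z) := by
    ext ⟨m, S⟩
    rw [opV_apply, opU_apply, add_sub_cancel_right]
  calc ‖z‖ = ‖opV (opU z)‖ := by rw [← h]
    _ ≤ ‖opU z‖ := norm_wop_le _ _ _ _

theorem norm_opA_apply (i : ℕ) (z : L2 Idx) : ‖opA i z‖ ≤ ‖z‖ := by
  have h : opA i z = opU ((1 / 2 : ℂ) • (opX i z + opZ i (opX i z))) := by
    simp only [opA, one_div, smul_add, mul_apply_eq_comp, add_apply, smul_apply, map_add, map_smul]
  rw [h, norm_opU, norm_smul]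
  have h1 : ‖opX i z‖ ≤ ‖z‖ := norm_wop_le _ _ _ _
  have h2 : ‖opZ i (opX i z)‖ ≤ ‖z‖ := (norm_wop_le _ _ _ _).trans h1
  have h3 := norm_add_le (opX i z) (opZ i (opX i z))
  have h4 : ‖(1 / 2 : ℂ)‖ = 1 / 2 := by norm_num
  rw [h4]
  linarith only [h1, h2, h3]

theorem norm_opA_le (i : ℕ) : ‖opA i‖ ≤ 1 :=
  ContinuousLinearMap.opNorm_le_bound _ zero_le_one fun z => by
    rw [one_mul]; exact norm_opA_apply i z

theorem lp_tendsto_cofinite {ι : Type*} (z : L2 ι) : Tendsto (fun p => z p) cofinite (𝓝 0) := by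
  have h0 := lp.memℓp z
  rw [memℓp_gen_iff (by norm_num)] at h0
  have h1 := h0.tendsto_cofinite_zero
  have h2 : Tendsto (fun p => ‖z p‖) cofinite (𝓝 0) := by
    have h3 := h1.rpow_const (p := (1 / 2 : ℝ)) (Or.inr (by norm_num))
    have h4 : ((0 : ℝ) ^ (1 / 2 : ℝ)) = 0 := by
      rw [Real.zero_rpow]; norm_num
    rw [h4] at h3
    refine h3.congr fun p => ?_
    rw [← Real.rpow_mul (norm_nonneg _)]
    norm_num
  exact tendsto_zero_iff_norm_tendsto_zero.2 h2

theorem opA_weak (w z : L2 Idx) :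
    Tendsto (fun i => ⟪w, opA i z⟫_ℂ) atTop (𝓝 ⟪w, (1 / 2 : ℂ) • opU z⟫_ℂ) := by
  refine weak_conv (C := ‖z‖) (fun i => norm_opA_apply i z) (fun p => ?_) w
  obtain ⟨m, S⟩ := p
  have h1 : ∀ᶠ i : ℕ in atTop, i ∉ S := by
    obtain ⟨N, hN⟩ := S.exists_nat_subset_range
    filter_upwards [eventually_ge_atTop N] with i hi h
    have := Finset.mem_range.1 (hN h)
    omega
  have h2 : Tendsto (fun i : ℕ => z (m - 1, S ∆ {i})) atTop (𝓝 0) := by
    rw [← Nat.cofinite_eq_atTop]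
    refine (lp_tendsto_cofinite z).comp (Function.Injective.tendsto_cofinite ?_)
    intro i j hij
    have h3 := (Prod.ext_iff.1 hij).2
    have h4 := symmDiff_right_injective S h3
    exact Finset.singleton_injective h4
  have h3 : Tendsto (fun i : ℕ => (1 / 2 : ℂ) * (z (m - 1, S) - z (m - 1, S ∆ {i}))) atTop
      (𝓝 ((1 / 2 : ℂ) * (z (m - 1, S) - 0))) :=
    (tendsto_const_nhds.sub h2).const_mul _
  have h4 : ((1 / 2 : ℂ) • opU z) (m, S) = (1 / 2 : ℂ) * (z (m - 1, S) - 0) := by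
    rw [lp.coeFn_smul, Pi.smul_apply, opU_apply, sub_zero, smul_eq_mul]
  rw [h4]
  refine h3.congr' ?_
  filter_upwards [h1] with i hi
  rw [opA_apply, sg, if_neg hi, one_mul, one_mul]

/-- the bilateral shift has no eigenvector -/
theorem opU_eigen {z : L2 Idx} {μ : ℂ} (h : opU z = μ • z) : z = 0 := by
  by_contra hz
  have h1 : ‖μ‖ = 1 := by
    have h2 := norm_opU z
    rw [h, norm_smul] at h2
    have h3 : ‖z‖ ≠ 0 := norm_ne_zero_iff.2 hz
    exact mul_right_cancel₀ h3 (by rw [h2, one_mul])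
  apply hz
  ext ⟨m, S⟩
  have h2 : ∀ m : ℤ, ‖z (m - 1, S)‖ = ‖z (m, S)‖ := by
    intro m
    rw [← opU_apply, h, lp.coeFn_smul, Pi.smul_apply, norm_smul, h1, one_mul]
  have h3 : ∀ k : ℕ, ‖z (m - k, S)‖ = ‖z (m, S)‖ := by
    intro k
    induction k with
    | zero => simp only [Int.cast_ofNat_Int, sub_zero]
    | succ k ih =>
      rw [← ih, ← h2 (m - k)]
      push_cast
      rw [sub_sub]
  have h4 : Tendsto (fun k : ℕ => z (m - k, S)) atTop (𝓝 0) := by
    rw [← Nat.cofinite_eq_atTop]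
    refine (lp_tendsto_cofinite z).comp
      (Function.Injective.tendsto_cofinite (f := fun k : ℕ => ((m - k, S) : Idx)) ?_)
    intro i j hij
    have h3 := (Prod.ext_iff.1 hij).1
    simp at h3
    exact h3
  have h5 := h4.norm
  simp only [h3, norm_zero] at h5
  have h6 : ‖z (m, S)‖ = 0 := tendsto_nhds_unique tendsto_const_nhds h5
  simpa only [ZeroMemClass.coe_zero, PreLp.zero_apply, norm_eq_zero] using h6

theorem opA_noV (k' : Op (L2 Idx)) (hk : k' ∈ StarSubalgebra.centralizer ℂ {opU})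
    (h : ∀ i, ∃ c : ℂ, ∀ z w : L2 Idx, k' z = 0 → k' w = 0 →
      ⟪w, opA i z⟫_ℂ = c * ⟪w, z⟫_ℂ) (z : L2 Idx) (hz : k' z = 0) : z = 0 := by
  by_contra hz0
  choose c hc using h
  have hU : ∀ w, k' w = 0 → k' (opU w) = 0 := by
    intro w hw
    have h1 := ((StarSubalgebra.mem_centralizer_iff ℂ).1 hk opU rfl).1
    have h2 : opU (k' w) = k' (opU w) := congrArg (fun T : Op (L2 Idx) => T w) h1
    rw [← h2, hw, map_zero]
  have hzz : ⟪z, z⟫_ℂ ≠ 0 := inner_self_ne_zero.2 hz0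
  have h1 : Tendsto c atTop (𝓝 (⟪z, (1 / 2 : ℂ) • opU z⟫_ℂ / ⟪z, z⟫_ℂ)) := by
    have h2 := (opA_weak z z).div_const ⟪z, z⟫_ℂ
    refine h2.congr fun i => ?_
    rw [hc i z z hz hz, mul_div_assoc, div_self hzz, mul_one]
  set s := ⟪z, (1 / 2 : ℂ) • opU z⟫_ℂ / ⟪z, z⟫_ℂ with hs
  have h2 : ∀ w, k' w = 0 → ⟪w, (1 / 2 : ℂ) • opU z⟫_ℂ = s * ⟪w, z⟫_ℂ := by
    intro w hw
    refine tendsto_nhds_unique (opA_weak w z) ?_
    refine (h1.mul_const ⟪w, z⟫_ℂ).congr fun i => ?_
    rw [hc i z w hz hw]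
  have h3 : (1 / 2 : ℂ) • opU z - s • z = 0 := by
    set w := (1 / 2 : ℂ) • opU z - s • z with hw
    have h4 : k' w = 0 := by
      rw [hw, map_sub, map_smul, map_smul, hU z hz, hz]
      simp
    have h5 := h2 w h4
    have h6 : ⟪w, w⟫_ℂ = 0 := by
      conv_lhs => rw [hw]
      rw [← hw, inner_sub_right, h5, inner_smul_right, sub_self]
    exact inner_self_eq_zero.1 h6
  refine hz0 (opU_eigen (μ := 2 * s) ?_)
  have h4 := sub_eq_zero.1 h3
  rw [mul_smul, ← h4, smul_smul]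
  norm_num

/-- the model -/
theorem exists_model : ∃ (H : Type) (_ : NormedAddCommGroup H) (_ : InnerProductSpace ℂ H)
    (_ : CompleteSpace H) (_ : Nontrivial H) (U : Op H) (a : ℕ → Op H),
    U ∈ unitary (Op H) ∧ (∀ i, a i * a i = 0) ∧ (∀ i, a i * star (a i) + star (a i) * a i = 1) ∧
    (∀ i j, i ≠ j → a i * a j = a j * a i) ∧
    (∀ i j, i ≠ j → a i * star (a j) = star (a j) * a i) ∧
    (∀ i, U * a i = a i * U) ∧ (∀ i, U * star (a i) = star (a i) * U) ∧ (∀ i, ‖a i‖ ≤ 1) ∧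
    (∀ k' ∈ StarSubalgebra.centralizer ℂ {U},
      (∀ i, ∃ c : ℂ, ∀ z w : H, k' z = 0 → k' w = 0 → ⟪w, a i z⟫_ℂ = c * ⟪w, z⟫_ℂ) →
      ∀ z : H, k' z = 0 → z = 0) := by
  classical
  refine ⟨L2 Idx, inferInstance, inferInstance, inferInstance, ?_, opU, opA, opU_unitary,
    opA_sq, fun i => ?_, fun i j h => opA_comm h, fun i j h => ?_, opUA_comm, fun i => ?_,
    norm_opA_le, opA_noV⟩
  · refine ⟨⟨0, lp.single 2 (0, ∅) 1, fun h => ?_⟩⟩
    have h1 := congrArg (fun z : L2 Idx => z (0, ∅)) h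
    simp only [ZeroMemClass.coe_zero, PreLp.zero_apply, lp.single_apply, Pi.single_eq_same, zero_ne_one] at h1
  · rw [star_opA]; exact opA_car i
  · rw [star_opA]; exact opAB_comm h
  · rw [star_opA]; exact opUB_comm i

end Vale.Agent.P070
end
end

section

section

namespace Vale.Agent.P070

open scoped InnerProductSpace

theorem exists_base : ∃ (H : Type) (_ : NormedAddCommGroup H) (_ : InnerProductSpace ℂ H)
    (_ : CompleteSpace H) (_ : Nontrivial H) (A0 : StarSubalgebra ℂ (Op H)) (k U : Op H),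
    IsBase A0 k U := by
  obtain ⟨H, i1, i2, i3, i4, U, a, -, h1, h2, h3, h4, h5, h6, -, h8⟩ := exists_model
  have R : Rel a U := ⟨h1, h2, h3, h4, h5, h6⟩
  exact ⟨H, i1, i2, i3, i4, baseAlg a, kk a, U, R.isBase h8⟩

end Vale.Agent.P070
end
end

section

section

namespace Vale.Agent.P070

open scoped InnerProductSpace
open Filter Topology

universe u v w

section
variable {H : Type u} {K : Type v}
  [NormedAddCommGroup H] [InnerProductSpace ℂ H] [CompleteSpace H]
  [NormedAddCommGroup K] [InnerProductSpace ℂ K] [CompleteSpace K]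

theorem countable_submonoid_closure {M : Type*} [Monoid M] {s : Set M} (hs : s.Countable) :
    (Submonoid.closure s : Set M).Countable := by
  have := hs.to_subtype
  refine (Set.countable_range (fun l : List s => (l.map Subtype.val).prod)).mono ?_
  intro x hx
  obtain ⟨l, hl, rfl⟩ := Submonoid.exists_list_of_mem_closure hx
  refine ⟨l.attach.map (fun y => ⟨y.1, hl y.1 y.2⟩), ?_⟩
  simp only [List.map_map, Function.comp_def, List.map_subtype, List.unattach_attach, List.map_id_fun', id_eq]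

theorem isSeparable_adjoin {s : Set (Op H)} (hs : s.Countable) :
    TopologicalSpace.IsSeparable ((StarAlgebra.adjoin ℂ s : StarSubalgebra ℂ (Op H)) :
      Set (Op H)) := by
  have h1 : ((StarAlgebra.adjoin ℂ s : StarSubalgebra ℂ (Op H)) : Set (Op H)) =
      (Submodule.span ℂ (Submonoid.closure (s ∪ star s) : Set (Op H)) : Set (Op H)) := by
    rw [← Algebra.adjoin_eq_span]; rfl
  rw [h1]
  have hs' : (star s).Countable := by
    rw [← Set.image_star]; exact hs.image _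
  exact ((countable_submonoid_closure (hs.union hs')).isSeparable).span

theorem isSeparable_gen {ι : Type w} {A0 : StarSubalgebra ℂ (Op H)}
    (hc : ∃ s : Set (Op H), s.Countable ∧ A0 = (StarAlgebra.adjoin ℂ s).topologicalClosure)
    (u : ι → Op H) {S : Set ι} (hS : S.Countable) :
    TopologicalSpace.IsSeparable (gen A0 u S : Set (Op H)) := by
  obtain ⟨s, hs, rfl⟩ := hc
  have hle : gen (StarAlgebra.adjoin ℂ s).topologicalClosure u S ≤
      (StarAlgebra.adjoin ℂ (s ∪ u '' S)).topologicalClosure := by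
    refine gen_le _ u (StarSubalgebra.isClosed_topologicalClosure _) ?_ ?_
    · exact StarSubalgebra.topologicalClosure_mono (StarAlgebra.adjoin_mono Set.subset_union_left)
    · intro i hi
      exact StarSubalgebra.le_topologicalClosure _
        (StarAlgebra.subset_adjoin ℂ _ (Or.inr ⟨i, hi, rfl⟩))
  refine TopologicalSpace.IsSeparable.mono ?_ hle
  exact (isSeparable_adjoin (hs.union (hS.image u))).closure

theorem exists_dense_gen {ι : Type w} {A0 : StarSubalgebra ℂ (Op H)}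
    (hc : ∃ s : Set (Op H), s.Countable ∧ A0 = (StarAlgebra.adjoin ℂ s).topologicalClosure)
    (u : ι → Op H) {S : Set ι} (hS : S.Countable) :
    ∃ Q : Set (Op H), Q ⊆ gen A0 u S ∧ Q.Countable ∧ (gen A0 u S : Set (Op H)) ⊆ closure Q :=
  (isSeparable_gen hc u hS).exists_countable_dense_subset

/-- kernel of a sum of three squares -/
theorem ker_sum_three {L : Type*} [NormedAddCommGroup L] [InnerProductSpace ℂ L]
    [CompleteSpace L] {a b c : L →L[ℂ] L} {z : L}
    (h : (star a * a + star b * b + star c * c) z = 0) : a z = 0 ∧ b z = 0 ∧ c z = 0 := by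
  have e : ∀ t : L →L[ℂ] L, ⟪z, (star t * t) z⟫_ℂ = ((‖t z‖ ^ 2 : ℝ) : ℂ) := by
    intro t
    rw [mul_apply_eq_comp, ContinuousLinearMap.star_eq_adjoint,
      ContinuousLinearMap.adjoint_inner_right, inner_self_eq_norm_sq_to_K]
    norm_cast
  have h1 : ⟪z, (star a * a + star b * b + star c * c) z⟫_ℂ = 0 := by rw [h, inner_zero_right]
  rw [add_apply, add_apply, inner_add_right,
    inner_add_right, e, e, e] at h1
  norm_cast at h1
  have ha := sq_nonneg ‖a z‖
  have hb := sq_nonneg ‖b z‖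
  have hc := sq_nonneg ‖c z‖
  refine ⟨?_, ?_, ?_⟩
  · have : ‖a z‖ ^ 2 = 0 := by linarith only [ha, h1, hb, hc]
    simpa only [ne_eq, OfNat.ofNat_ne_zero, not_false_eq_true, pow_eq_zero_iff, norm_eq_zero] using this
  · have : ‖b z‖ ^ 2 = 0 := by linarith only [hb, h1, ha, hc]
    simpa only [ne_eq, OfNat.ofNat_ne_zero, not_false_eq_true, pow_eq_zero_iff, norm_eq_zero] using this
  · have : ‖c z‖ ^ 2 = 0 := by linarith only [hc, h1, ha, hb]
    simpa only [ne_eq, OfNat.ofNat_ne_zero, not_false_eq_true, pow_eq_zero_iff, norm_eq_zero] using this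

theorem exists_forcing (A : StarSubalgebra ℂ (Op H)) (hA : IsClosed (A : Set (Op H)))
    {L : Type*} [NormedAddCommGroup L] [InnerProductSpace ℂ L] [CompleteSpace L]
    (π : A →⋆ₐ[ℂ] Op L)
    (hirr : ∀ V : Submodule ℂ L, IsClosed (V : Set L) → (∀ a, ∀ x ∈ V, π a x ∈ V) →
      V = ⊥ ∨ V = ⊤) (η : L) (hη : ‖η‖ = 1) (P : Op H →⋆ₐ[ℂ] Op K) (a : A) :
    ∃ κ : A, 0 ≤ (κ : Op H) ∧ ‖(κ : Op H)‖ ≤ 1 ∧ π κ η = 0 ∧
      ∃ c, DetAt P (κ : Op H) (a : Op H) c := by
  have hηη : ⟪η, η⟫_ℂ = 1 := by rw [inner_self_eq_norm_sq_to_K, hη]; norm_num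
  set c : ℂ := ⟪η, π a η⟫_ℂ with hc
  set a' : A := a - algebraMap ℂ A c with ha'
  have hπa' : ∀ x, π a' x = π a x - c • x := by
    intro x
    rw [ha', map_sub, AlgHomClass.commutes, sub_apply]
    rfl
  have hy : ⟪η, π a' η⟫_ℂ = 0 := by
    rw [hπa', inner_sub_right, inner_smul_right, hηη, ← hc, mul_one, sub_self]
  have hy' : ⟪η, π (star a') η⟫_ℂ = 0 := by
    rw [map_star, ContinuousLinearMap.star_eq_adjoint,
      ContinuousLinearMap.adjoint_inner_right, ← inner_conj_symm, hy, map_zero]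
  have : IsClosed (A : Set (Op H)) := hA
  obtain ⟨b1, hb1, hb1'⟩ := kadison π hirr η _ hη hy
  obtain ⟨b2, hb2, hb2'⟩ := kadison π hirr η _ hη hy'
  set d : A := a' - b1 - star b2 with hd
  have hdη : π d η = 0 := by
    rw [hd, map_sub, map_sub, sub_apply, sub_apply, hb1,
      hb2', sub_self, sub_zero]
  set κ0 : A := b1 * star b1 + b2 * star b2 + star d * d with hκ0
  have hκ0η : π κ0 η = 0 := by
    rw [hκ0, map_add, map_add, map_mul, map_mul, map_mul, add_apply,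
      add_apply, mul_apply_eq_comp,
      mul_apply_eq_comp, mul_apply_eq_comp, hb1', hb2', hdη]
    simp only [map_zero, add_zero]
  have hκ0pos : 0 ≤ (κ0 : Op H) := by
    rw [hκ0]
    push_cast
    exact add_nonneg (add_nonneg (mul_star_self_nonneg _) (mul_star_self_nonneg _))
      (star_mul_self_nonneg _)
  set r : ℝ := (1 + ‖(κ0 : Op H)‖)⁻¹ with hr
  have hrpos : 0 < r := by (clear hirr hη P hηη hc ha' hπa' hy hy' hb1 hb1' hb2 hb2' hd hdη hκ0 hκ0η hκ0pos hr; positivity)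
  refine ⟨(r : ℂ) • κ0, ?_, ?_, ?_, c, ?_⟩
  · have : ((((r : ℂ) • κ0 : A)) : Op H) = r • (κ0 : Op H) := by
      simp
    rw [this]
    exact smul_nonneg hrpos.le hκ0pos
  · have : ((((r : ℂ) • κ0 : A)) : Op H) = (r : ℂ) • (κ0 : Op H) := rfl
    rw [this, norm_smul, Complex.norm_real, Real.norm_of_nonneg hrpos.le, hr,
      inv_mul_le_iff₀ (by (clear hirr hη P hηη hc ha' hπa' hy hy' hb1 hb1' hb2 hb2' hd hdη hκ0 hκ0η hκ0pos r hr hrpos this; positivity))]
    (clear hirr hη P hηη hc ha' hπa' hy hy' hb1 hb1' hb2 hb2' hd hdη hκ0 hκ0η hκ0pos r hr hrpos this; linarith [norm_nonneg (κ0 : Op H)])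
  · rw [map_smul, smul_apply, hκ0η, smul_zero]
  · have ker : ∀ z, P (((r : ℂ) • κ0 : A) : Op H) z = 0 →
        P (star (b1 : Op H)) z = 0 ∧ P (star (b2 : Op H)) z = 0 ∧ P (d : Op H) z = 0 := by
      intro z hz
      have h1 : P (κ0 : Op H) z = 0 := by
        have : ((((r : ℂ) • κ0 : A)) : Op H) = (r : ℂ) • (κ0 : Op H) := rfl
        rw [this, map_smul, smul_apply] at hz
        rcases smul_eq_zero.1 hz with h | h
        · exfalso
          have : r = 0 := by exact_mod_cast h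
          exact hrpos.ne' this
        · exact h
      have h2 : (κ0 : Op H) = (b1 : Op H) * star (b1 : Op H) + (b2 : Op H) * star (b2 : Op H) +
          star (d : Op H) * (d : Op H) := by
        rw [hκ0]; push_cast; rfl
      rw [h2, map_add, map_add, map_mul, map_mul, map_mul, map_star P (d : Op H)] at h1
      have e1 : P (b1 : Op H) = star (P (star (b1 : Op H))) := by rw [map_star, star_star]
      have e2 : P (b2 : Op H) = star (P (star (b2 : Op H))) := by rw [map_star, star_star]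
      rw [e1, e2] at h1
      exact ker_sum_three h1
    intro z w hz hw
    obtain ⟨z1, z2, z3⟩ := ker z hz
    obtain ⟨w1, w2, w3⟩ := ker w hw
    have ea : (a : Op H) = c • (1 : Op H) + (b1 : Op H) + star (b2 : Op H) + (d : Op H) := by
      have : a = algebraMap ℂ A c + b1 + star b2 + d := by
        rw [hd, ha']; abel
      conv_lhs => rw [this]
      push_cast
      rw [Algebra.algebraMap_eq_smul_one]
      rfl
    rw [ea]
    simp only [map_add, map_smul, map_one, add_apply,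
      smul_apply, one_apply_eq_self, inner_add_right,
      inner_smul_right, z2, z3, add_zero]
    have : ⟪w, P (b1 : Op H) z⟫_ℂ = 0 := by
      have e1 : P (b1 : Op H) = star (P (star (b1 : Op H))) := by rw [map_star, star_star]
      rw [e1, ContinuousLinearMap.star_eq_adjoint, ContinuousLinearMap.adjoint_inner_right, w1,
        inner_zero_left]
    rw [this, add_zero]

theorem apply_eq_zero_of_le {L : Type*} [NormedAddCommGroup L] [InnerProductSpace ℂ L]
    [CompleteSpace L] {a b : L →L[ℂ] L} (ha : 0 ≤ a) (hab : a ≤ b) {z : L} (hb : b z = 0) :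
    a z = 0 := by
  have h1 : ∀ x : L, (0 : ℝ) ≤ RCLike.re ⟪x, (b - a) x⟫_ℂ := fun x =>
    ((ContinuousLinearMap.le_def a b).1 hab).re_inner_nonneg_right x
  have h2 := h1 z
  rw [sub_apply, hb, zero_sub, inner_neg_right, map_neg] at h2
  set s := CFC.sqrt a with hs
  have hss : a = s * s := (CFC.sqrt_mul_sqrt_self a ha).symm
  have hsa : star s = s := (CFC.sqrt_nonneg a).isSelfAdjoint
  have h3 : ⟪z, a z⟫_ℂ = ((‖s z‖ ^ 2 : ℝ) : ℂ) := by
    rw [hss, mul_apply_eq_comp]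
    have : ⟪z, s (s z)⟫_ℂ = ⟪z, (star s) (s z)⟫_ℂ := by rw [hsa]
    rw [this, ContinuousLinearMap.star_eq_adjoint, ContinuousLinearMap.adjoint_inner_right,
      inner_self_eq_norm_sq_to_K]
    norm_cast
  rw [h3] at h2
  have h4 : ‖s z‖ ^ 2 ≤ 0 := by
    have : RCLike.re (((‖s z‖ ^ 2 : ℝ) : ℂ)) = ‖s z‖ ^ 2 := Complex.ofReal_re _
    rw [this] at h2
    linarith only [h2]
  have h5 : s z = 0 := by
    have : ‖s z‖ ^ 2 = 0 := le_antisymm h4 (sq_nonneg _)
    simpa only [ne_eq, OfNat.ofNat_ne_zero, not_false_eq_true, pow_eq_zero_iff, norm_eq_zero] using this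
  rw [hss, mul_apply_eq_comp, h5, map_zero]

theorem reflect {ι : Type w} [LinearOrder ι] [WellFoundedLT ι] {P : Op H →⋆ₐ[ℂ] Op K}
    {A0 : StarSubalgebra ℂ (Op H)} {k0 U : Op H} {k u : ι → Op H}
    (hA0 : IsClosed (A0 : Set (Op H)))
    (hc : ∃ s : Set (Op H), s.Countable ∧ A0 = (StarAlgebra.adjoin ℂ s).topologicalClosure)
    (T : IsTower P A0 k0 U k u)
    {L : Type*} [NormedAddCommGroup L] [InnerProductSpace ℂ L] [CompleteSpace L]
    (π : gen A0 u Set.univ →⋆ₐ[ℂ] Op L)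
    (hirr : ∀ V : Submodule ℂ L, IsClosed (V : Set L) → (∀ a, ∀ x ∈ V, π a x ∈ V) →
      V = ⊥ ∨ V = ⊤) (η : L) (hη : ‖η‖ = 1) :
    ∃ κ : gen A0 u Set.univ, 0 ≤ (κ : Op H) ∧ ‖(κ : Op H)‖ ≤ 1 ∧ π κ η = 0 ∧
      Det P (κ : Op H) (gen A0 u Set.univ) := by
  classical
  obtain ⟨Tc, hT⟩ := exists_supp T
  have hcl := gen_isClosed A0 u Set.univ
  choose κ hκ0 hκ1 hκη hκd using exists_forcing (gen A0 u Set.univ) hcl π hirr η hη P
  choose sp _ spc spm using fun a : gen A0 u Set.univ =>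
    exists_countable_support A0 u (S := Set.univ) (x := (κ a : Op H)) (κ a).2
  choose! Q hQ1 hQ2 hQ3 using fun (S : Set ι) (hS : S.Countable) => exists_dense_gen hc u hS
  set F : Set ι → Set ι := fun S =>
    S ∪ (⋃ i ∈ S, Tc i) ∪ ⋃ a ∈ {a : gen A0 u Set.univ | (a : Op H) ∈ Q S}, sp a with hF
  have hFc : ∀ S : Set ι, S.Countable → (F S).Countable := by
    intro S hS
    refine (hS.union (hS.biUnion fun i _ => hT.countable i)).union ?_
    refine Set.Countable.biUnion ?_ fun a _ => spc a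
    exact (hQ2 S hS).preimage_of_injOn (Subtype.val_injective.injOn)
  set Sn : ℕ → Set ι := fun n => F^[n] ∅ with hSn
  have hSn1 : ∀ n, Sn (n + 1) = F (Sn n) := fun n => Function.iterate_succ_apply' F n ∅
  have hSnc : ∀ n, (Sn n).Countable := by
    intro n
    induction n with
    | zero => exact Set.countable_empty
    | succ n ih => rw [hSn1]; exact hFc _ ih
  have hmono : Monotone Sn := by
    refine monotone_nat_of_le_succ fun n => ?_
    rw [hSn1]
    exact fun x hx => Or.inl (Or.inl hx)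
  set S : Set ι := ⋃ n, Sn n with hS
  have hScl : IsCl Tc S := by
    intro i hi x hx
    obtain ⟨n, hn⟩ := Set.mem_iUnion.1 hi
    refine Set.mem_iUnion.2 ⟨n + 1, ?_⟩
    rw [hSn1]
    exact Or.inl (Or.inr (Set.mem_biUnion hn hx))
  set D : Set (gen A0 u Set.univ) := {a | ∃ n, (a : Op H) ∈ Q (Sn n)} with hD
  have hDc : D.Countable := by
    have : D = ⋃ n, {a : gen A0 u Set.univ | (a : Op H) ∈ Q (Sn n)} := by
      ext a; simp only [hD, Set.mem_ofPred_eq, Set.mem_iUnion]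
    rw [this]
    exact Set.countable_iUnion fun n =>
      (hQ2 _ (hSnc n)).preimage_of_injOn (Subtype.val_injective.injOn)
  have hsubU : ∀ R : Set ι, gen A0 u R ≤ gen A0 u Set.univ := fun R =>
    gen_mono A0 u (Set.subset_univ R)
  have hDne : D.Nonempty := by
    have h1 : (1 : Op H) ∈ closure (Q (Sn 0)) := hQ3 _ (hSnc 0) (one_mem _)
    have h2 : (Q (Sn 0)).Nonempty := by
      rw [Set.nonempty_iff_ne_empty]
      intro h
      rw [h, closure_empty] at h1
      exact h1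
    obtain ⟨x, hx⟩ := h2
    exact ⟨⟨x, hsubU _ (hQ1 _ (hSnc 0) hx)⟩, 0, hx⟩
  obtain ⟨f, hf⟩ := hDc.exists_eq_range hDne
  have hκS : ∀ n, (κ (f n) : Op H) ∈ gen A0 u S := by
    intro n
    have hn : f n ∈ D := by rw [hf]; exact ⟨n, rfl⟩
    obtain ⟨m, hm⟩ := hn
    refine gen_mono A0 u ?_ (spm (f n))
    intro x hx
    refine Set.mem_iUnion.2 ⟨m + 1, ?_⟩
    rw [hSn1]
    exact Or.inr (Set.mem_biUnion hm hx)
  -- the sum
  set g : ℕ → Op H := fun n => ((1 / 2 : ℝ) ^ (n + 1)) • (κ (f n) : Op H) with hg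
  have hg0 : ∀ n, 0 ≤ g n := fun n => smul_nonneg (by positivity) (hκ0 _)
  have hgn : ∀ n, ‖g n‖ ≤ (1 / 2 : ℝ) ^ (n + 1) := by
    intro n
    rw [hg, norm_smul, Real.norm_of_nonneg (by positivity)]
    exact mul_le_of_le_one_right (by positivity) (hκ1 _)
  have hgs' : HasSum (fun n : ℕ => (1 / 2 : ℝ) ^ (n + 1)) 1 := by
    have := hasSum_geometric_two.mul_left (1 / 2 : ℝ)
    norm_num at this
    have e : (fun n : ℕ => (1 / 2 : ℝ) ^ (n + 1)) = fun n : ℕ => 1 / 2 * (1 / 2 : ℝ) ^ n := by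
      funext n
      rw [pow_succ]; ring
    rw [e]
    exact this
  have hgs : Summable g := Summable.of_norm_bounded hgs'.summable hgn
  set k' : Op H := ∑' n, g n with hk'
  have hgS : ∀ n, g n ∈ gen A0 u S := fun n => by
    have : g n = (((1 / 2 : ℝ) ^ (n + 1) : ℝ) : ℂ) • (κ (f n) : Op H) := by
      rw [Complex.coe_smul]
    rw [this]
    exact (gen A0 u S).smul_mem (hκS n) _
  have hk'S : k' ∈ gen A0 u S := by
    have h1 : Tendsto (fun n => ∑ i ∈ Finset.range n, g i) atTop (𝓝 k') :=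
      hgs.hasSum.tendsto_sum_nat
    refine (gen_isClosed A0 u S).mem_of_tendsto h1 (Filter.Eventually.of_forall fun n => ?_)
    exact sum_mem fun i _ => hgS i
  have hk'0 : 0 ≤ k' := tsum_nonneg hg0
  have hk'1 : ‖k'‖ ≤ 1 := tsum_of_norm_bounded hgs' hgn
  have hk'η : π ⟨k', hsubU S hk'S⟩ η = 0 := by
    set s : ℕ → gen A0 u Set.univ := fun n =>
      ∑ i ∈ Finset.range n, (((1 / 2 : ℝ) ^ (i + 1) : ℝ) : ℂ) • κ (f i) with hs
    have hs1 : ∀ n, π (s n) η = 0 := by
      intro n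
      rw [hs, map_sum]
      simp only [map_smul]
      rw [sum_apply]
      refine Finset.sum_eq_zero fun i _ => ?_
      rw [smul_apply, hκη, smul_zero]
    have hs2 : Tendsto s atTop (𝓝 ⟨k', hsubU S hk'S⟩) := by
      rw [tendsto_subtype_rng]
      have h1 : Tendsto (fun n => ∑ i ∈ Finset.range n, g i) atTop (𝓝 k') :=
        hgs.hasSum.tendsto_sum_nat
      convert h1 using 2 with n
      rw [hs]
      push_cast
      refine Finset.sum_congr rfl fun i _ => ?_
      rw [hg]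
      simp only [← Complex.coe_smul]
      push_cast
      rfl
    have hπ : Continuous π := by
      have : IsClosed (gen A0 u Set.univ : Set (Op H)) := hcl
      exact AddMonoidHomClass.continuous_of_bound π 1 (by
        simpa only [one_mul] using NonUnitalStarAlgHom.norm_apply_le π)
    have hs3 : Tendsto (fun n => π (s n) η) atTop (𝓝 (π ⟨k', hsubU S hk'S⟩ η)) :=
      (((ContinuousLinearMap.apply ℂ L η).continuous.comp hπ).tendsto _).comp hs2
    simp only [hs1] at hs3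
    exact tendsto_nhds_unique hs3 tendsto_const_nhds
  refine ⟨⟨k', hsubU S hk'S⟩, hk'0, hk'1, hk'η, ?_⟩
  -- determination
  have hker : ∀ (n : ℕ) (z : K), P k' z = 0 → P (κ (f n) : Op H) z = 0 := by
    intro n z hz
    have h1 : g n ≤ k' := hgs.le_tsum n fun j _ => hg0 j
    have hmon : ∀ x y : Op H, x ≤ y → P x ≤ P y := by
      intro x y hxy
      exact OrderHomClass.mono P hxy
    have h2 : P (g n) z = 0 := by
      refine apply_eq_zero_of_le ?_ (hmon _ _ h1) hz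
      have := hmon _ _ (hg0 n)
      rwa [map_zero] at this
    have h3 : g n = (((1 / 2 : ℝ) ^ (n + 1) : ℝ) : ℂ) • (κ (f n) : Op H) := by
      rw [Complex.coe_smul]
    rw [h3, map_smul, smul_apply] at h2
    rcases smul_eq_zero.1 h2 with h | h
    · exfalso
      have : ((1 / 2 : ℝ) ^ (n + 1)) = 0 := by exact_mod_cast h
      exact (pow_pos (by norm_num : (0 : ℝ) < 1 / 2) (n + 1)).ne' this
    · exact h
  have hdetD : Det P k' ((fun a : gen A0 u Set.univ => (a : Op H)) '' D) := by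
    rintro _ ⟨a, ha, rfl⟩
    rw [hf] at ha
    obtain ⟨n, rfl⟩ := ha
    obtain ⟨c, hc⟩ := hκd (f n)
    exact ⟨c, fun z w hz hw => hc z w (hker n z hz) (hker n w hw)⟩
  refine tower_ext hA0 T hT hScl hk'S (hdetD.closure.mono ?_)
  have hSU : S = ⋃₀ (Set.range Sn) := by rw [Set.sUnion_range]
  rw [hSU]
  refine gen_sUnion_subset A0 u (Set.range_nonempty _) ?_ isClosed_closure ?_
  · rintro _ ⟨n, rfl⟩ _ ⟨m, rfl⟩
    exact ⟨_, ⟨max n m, rfl⟩, hmono (le_max_left n m), hmono (le_max_right n m)⟩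
  · rintro _ ⟨n, rfl⟩
    refine (hQ3 _ (hSnc n)).trans (closure_mono ?_)
    intro x hx
    exact ⟨⟨x, hsubU _ (hQ1 _ (hSnc n) hx)⟩, ⟨n, hx⟩, rfl⟩

end

end Vale.Agent.P070
end
end

section

section

namespace Vale.Agent.P070

open scoped InnerProductSpace
open Filter Topology

universe u v

section
variable {H : Type u} {K : Type v}
  [NormedAddCommGroup H] [InnerProductSpace ℂ H] [CompleteSpace H]
  [NormedAddCommGroup K] [InnerProductSpace ℂ K] [CompleteSpace K]

theorem skew_isUnit {D : Op H} (hD : star D = -D) : IsUnit (1 - D) := by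
  have hT : IsSelfAdjoint (Complex.I • D) := by
    rw [isSelfAdjoint_iff, star_smul, hD]
    simp
  have hI : Complex.I ∉ spectrum ℂ (Complex.I • D) := by
    intro h
    have := hT.im_eq_zero_of_mem_spectrum h
    simp at this
  rw [spectrum.notMem_iff] at hI
  have h2 : (1 - D) = (-Complex.I) • (algebraMap ℂ (Op H) Complex.I - Complex.I • D) := by
    rw [Algebra.algebraMap_eq_smul_one, smul_sub, smul_smul, smul_smul]
    simp
  rw [h2]
  have h3 : (-Complex.I) ≠ 0 := by simp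
  exact hI.smul (Units.mk0 _ h3)

theorem skew_norm_le {D : Op H} (hD : star D = -D) (v : H) : ‖v‖ ≤ ‖(1 - D) v‖ := by
  have h1 : ⟪v, D v⟫_ℂ = - ⟪D v, v⟫_ℂ := by
    have : ⟪v, D v⟫_ℂ = ⟪(star D) v, v⟫_ℂ := by
      rw [ContinuousLinearMap.star_eq_adjoint, ContinuousLinearMap.adjoint_inner_left]
    rw [this, hD]
    simp only [neg_apply, inner_neg_left]
  have h2 : (⟪v, D v⟫_ℂ).re = 0 := by
    have h3 : (⟪D v, v⟫_ℂ).re = (⟪v, D v⟫_ℂ).re := inner_re_symm (𝕜 := ℂ) _ _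
    have h4 := congrArg Complex.re h1
    simp only [Complex.neg_re] at h4
    linarith only [h3, h4]
  have h5 : ‖(1 - D) v‖ ^ 2 = ‖v‖ ^ 2 + ‖D v‖ ^ 2 := by
    have := norm_sub_sq (𝕜 := ℂ) v (D v)
    simp only [RCLike.re_to_complex] at this
    rw [h2] at this
    simpa only [sub_apply, one_apply_eq_self, mul_zero, sub_zero] using this
  have h6 : ‖v‖ ^ 2 ≤ ‖(1 - D) v‖ ^ 2 := by
    rw [h5]; nlinarith only []
  exact le_of_sq_le_sq h6 (norm_nonneg _)

theorem cayley_inv (A : StarSubalgebra ℂ (Op H)) (hA : IsClosed (A : Set (Op H))) {D : Op H}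
    (hDA : D ∈ A) (hD : star D = -D) :
    ∃ r ∈ A, ‖r‖ ≤ 1 ∧ r * (1 - D) = 1 ∧ (1 - D) * r = 1 := by
  have : IsClosed (A : Set (Op H)) := hA
  have hu := skew_isUnit hD
  have hmem : (1 - D) ∈ A := A.sub_mem A.one_mem hDA
  have hu' : IsUnit (⟨1 - D, hmem⟩ : A) := (StarSubalgebra.coe_isUnit A).mp hu
  obtain ⟨w, hw⟩ := hu'
  refine ⟨((w⁻¹ : Aˣ) : A), Subtype.property _, ?_, ?_, ?_⟩
  · have h1 : (1 - D) * (((w⁻¹ : Aˣ) : A) : Op H) = 1 := by
      have : (w : A) * ((w⁻¹ : Aˣ) : A) = 1 := w.mul_inv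
      have := congrArg (Subtype.val) this
      rw [hw] at this
      exact this
    refine ContinuousLinearMap.opNorm_le_bound _ zero_le_one (fun v => ?_)
    have h2 := skew_norm_le hD ((((w⁻¹ : Aˣ) : A) : Op H) v)
    have h3 : (1 - D) ((((w⁻¹ : Aˣ) : A) : Op H) v) = v := by
      have := congrArg (fun T : Op H => T v) h1
      exact this
    rw [h3] at h2
    simpa only [one_mul, ge_iff_le] using h2
  · have : ((w⁻¹ : Aˣ) : A) * (w : A) = 1 := w.inv_mul
    have := congrArg (Subtype.val) this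
    rw [hw] at this
    exact this
  · have : (w : A) * ((w⁻¹ : Aˣ) : A) = 1 := w.mul_inv
    have := congrArg (Subtype.val) this
    rw [hw] at this
    exact this

theorem cayley_vec (P : Op H →⋆ₐ[ℂ] Op K) {D r w : Op H} (hr : r * (1 - D) = 1)
    (hrn : ‖r‖ ≤ 1) (hw : w = r * (1 + D)) (ξ α : K) :
    ‖P w ξ - α‖ ≤ ‖P D ξ - α‖ + ‖P D α + ξ‖ := by
  have h1 : P r (P (1 - D) α) = α := by
    have : P r * P (1 - D) = 1 := by rw [← map_mul, hr, map_one]
    exact congrArg (fun T : Op K => T α) this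
  have h2 : P w ξ - α = P r ((P D ξ - α) + (P D α + ξ)) := by
    have h3 : P w ξ = P r (P (1 + D) ξ) := by rw [hw, map_mul]; rfl
    have h4 : P w ξ - α = P r (P (1 + D) ξ - P (1 - D) α) := by
      rw [map_sub (P r), h1, h3]
    rw [h4]
    congr 1
    rw [map_add P, map_sub P, map_one]
    simp only [add_apply, sub_apply, one_apply_eq_self]
    abel
  rw [h2]
  have h5 : ‖P r‖ ≤ 1 := (NonUnitalStarAlgHom.norm_apply_le P r).trans hrn
  calc ‖P r ((P D ξ - α) + (P D α + ξ))‖ ≤ ‖P r‖ * ‖(P D ξ - α) + (P D α + ξ)‖ :=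
        (P r).le_opNorm _
    _ ≤ 1 * ‖(P D ξ - α) + (P D α + ξ)‖ := by gcongr
    _ ≤ _ := by rw [one_mul]; exact norm_add_le _ _

theorem P_mul_apply (P : Op H →⋆ₐ[ℂ] Op K) (a b : Op H) (v : K) :
    P (a * b) v = P a (P b v) := by
  rw [map_mul]; rfl

theorem P_norm_le (P : Op H →⋆ₐ[ℂ] Op K) (a : Op H) (v : K) :
    ‖P a v‖ ≤ ‖a‖ * ‖v‖ :=
  ((P a).le_opNorm v).trans
    (mul_le_mul_of_nonneg_right (NonUnitalStarAlgHom.norm_apply_le P a) (norm_nonneg v))

theorem P_star_inner (P : Op H →⋆ₐ[ℂ] Op K) (a : Op H) (v w : K) :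
    ⟪P (star a) v, w⟫_ℂ = ⟪v, P a w⟫_ℂ := by
  rw [map_star, ContinuousLinearMap.star_eq_adjoint, ContinuousLinearMap.adjoint_inner_left]

theorem P_star_inner' (P : Op H →⋆ₐ[ℂ] Op K) (a : Op H) (v w : K) :
    ⟪v, P (star a) w⟫_ℂ = ⟪P a v, w⟫_ℂ := by
  rw [map_star, ContinuousLinearMap.star_eq_adjoint, ContinuousLinearMap.adjoint_inner_right]

theorem cutOp_fix (P : Op H →⋆ₐ[ℂ] Op K) {k : Op H} (hk : 0 ≤ k) (n : ℕ) {ξ : K}
    (hξ : P k ξ = 0) : P (cutOp n k) ξ = ξ := by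
  obtain ⟨g, -, hg, -⟩ := exists_one_sub_cutOp (⊤ : StarSubalgebra ℂ (Op H))
    (by simp only [StarSubalgebra.coe_top, isClosed_univ]) (StarSubalgebra.mem_top (x := k)) hk n
  have h1 : P (1 - cutOp n k) ξ = 0 := by
    rw [hg, P_mul_apply, hξ, map_zero]
  rw [map_sub, map_one] at h1
  simp only [sub_apply, one_apply_eq_self] at h1
  exact (sub_eq_zero.mp h1).symm

/-- the hypotheses for one side. -/
structure Side (P : Op H →⋆ₐ[ℂ] Op K) (A : StarSubalgebra ℂ (Op H))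
    (k1 k2 : Op H) (ξ : K) : Prop where
  hP : IsUltraRep P
  hA : IsClosed (A : Set (Op H))
  k1_mem : k1 ∈ A
  k2_mem : k2 ∈ A
  k1_nonneg : 0 ≤ k1
  k2_nonneg : 0 ≤ k2
  det1 : Det P k1 A
  ineq : Ineq P k1 k2 A
  ξ_norm : ‖ξ‖ = 1
  ξ_ker : P k1 ξ = 0

theorem Side.detAt {P : Op H →⋆ₐ[ℂ] Op K} {A : StarSubalgebra ℂ (Op H)}
    {k1 k2 : Op H} {ξ : K} (S : Side P A k1 k2 ξ) {c : Op H} (hc : c ∈ A) :
    DetAt P k1 c ⟪ξ, P c ξ⟫_ℂ := by
  obtain ⟨t, ht⟩ := S.det1 c hc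
  have h1 := ht ξ ξ S.ξ_ker S.ξ_ker
  have h2 : ⟪ξ, ξ⟫_ℂ = 1 := by
    rw [inner_self_eq_norm_sq_to_K, S.ξ_norm]; simp
  rw [h2, mul_one] at h1
  rw [h1]; exact ht

theorem Side.tendsto1 {P : Op H →⋆ₐ[ℂ] Op K} {A : StarSubalgebra ℂ (Op H)}
    {k1 k2 : Op H} {ξ : K} (S : Side P A k1 k2 ξ) {c : Op H} (hc : c ∈ A) :
    Tendsto (fun m => P (cutOp m k1) (P c ξ)) atTop (𝓝 (⟪ξ, P c ξ⟫_ℂ • ξ)) := by
  have h1 := (S.detAt hc).tendsto S.hP S.k1_nonneg
  rw [tendsto_iff_norm_sub_tendsto_zero]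
  refine squeeze_zero (fun _ => norm_nonneg _) (fun m => ?_) h1
  have h2 : P (cutOp m k1) (P c ξ) - ⟪ξ, P c ξ⟫_ℂ • ξ =
      P (cutOp m k1 * c * cutOp m k1 - ⟪ξ, P c ξ⟫_ℂ • (cutOp m k1 * cutOp m k1)) ξ := by
    rw [map_sub, map_smul]
    simp only [sub_apply, smul_apply, P_mul_apply]
    rw [cutOp_fix P S.k1_nonneg m S.ξ_ker, cutOp_fix P S.k1_nonneg m S.ξ_ker]
  rw [h2]
  have := P_norm_le P (cutOp m k1 * c * cutOp m k1 -
    ⟪ξ, P c ξ⟫_ℂ • (cutOp m k1 * cutOp m k1)) ξ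
  rwa [S.ξ_norm, mul_one] at this

theorem Side.tendsto2 {P : Op H →⋆ₐ[ℂ] Op K} {A : StarSubalgebra ℂ (Op H)}
    {k1 k2 : Op H} {ξ : K} (S : Side P A k1 k2 ξ) {c : Op H} (hc : c ∈ A) :
    Tendsto (fun m => P (cutOp m k2) (P c ξ)) atTop (𝓝 0) := by
  have h1 := Ineq.tendsto S.hP S.k1_nonneg S.k2_nonneg (S.ineq c hc)
  rw [tendsto_zero_iff_norm_tendsto_zero]
  refine squeeze_zero (fun _ => norm_nonneg _) (fun m => ?_) h1
  have h2 : P (cutOp m k2) (P c ξ) = P (cutOp m k2 * c * cutOp m k1) ξ := by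
    simp only [P_mul_apply]
    rw [cutOp_fix P S.k1_nonneg m S.ξ_ker]
  rw [h2]
  have := P_norm_le P (cutOp m k2 * c * cutOp m k1) ξ
  rwa [S.ξ_norm, mul_one] at this

theorem Side.eventually_norm {P : Op H →⋆ₐ[ℂ] Op K} {A : StarSubalgebra ℂ (Op H)}
    {k1 k2 : Op H} {ξ : K} (S : Side P A k1 k2 ξ) {c : Op H} (hc : c ∈ A) {t : ℝ}
    (ht : 0 < t) (h : ‖P c ξ‖ ≤ t) :
    ∀ᶠ m in atTop, ‖c * cutOp m k1‖ ≤ 2 * t := by
  have hcc : star c * c ∈ A := mul_mem (star_mem hc) hc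
  have h1 := (S.detAt hcc).tendsto S.hP S.k1_nonneg
  have h2 : ∀ᶠ m in atTop, ‖cutOp m k1 * (star c * c) * cutOp m k1 -
      ⟪ξ, P (star c * c) ξ⟫_ℂ • (cutOp m k1 * cutOp m k1)‖ < t ^ 2 :=
    h1.eventually (gt_mem_nhds (by positivity))
  filter_upwards [h2] with m hm
  have h3 : ‖⟪ξ, P (star c * c) ξ⟫_ℂ‖ ≤ t ^ 2 := by
    rw [P_mul_apply, P_star_inner', inner_self_eq_norm_sq_to_K]
    simp only [norm_pow]
    calc _ = ‖P c ξ‖ ^ 2 := by simp only [Complex.coe_algebraMap, Complex.norm_real, norm_norm]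
      _ ≤ t ^ 2 := by (clear A k1 k2 S hc ht hcc h1 h2 m hm; gcongr)
  have h4 : ‖cutOp m k1 * cutOp m k1‖ ≤ 1 := by
    calc _ ≤ ‖cutOp m k1‖ * ‖cutOp m k1‖ := norm_mul_le _ _
      _ ≤ 1 * 1 := by gcongr <;> exact cutOp_norm_le m k1
      _ = 1 := one_mul 1
  have h5 : ‖c * cutOp m k1‖ * ‖c * cutOp m k1‖ =
      ‖cutOp m k1 * (star c * c) * cutOp m k1‖ := by
    rw [← CStarRing.norm_star_mul_self, star_mul, (cutOp_isSelfAdjoint m k1).star_eq]
    simp only [mul_assoc]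
  have h6 : ‖cutOp m k1 * (star c * c) * cutOp m k1‖ ≤ 2 * t ^ 2 := by
    calc ‖cutOp m k1 * (star c * c) * cutOp m k1‖ =
        ‖(cutOp m k1 * (star c * c) * cutOp m k1 -
          ⟪ξ, P (star c * c) ξ⟫_ℂ • (cutOp m k1 * cutOp m k1)) +
          ⟪ξ, P (star c * c) ξ⟫_ℂ • (cutOp m k1 * cutOp m k1)‖ := by
            rw [sub_add_cancel]
      _ ≤ t ^ 2 + t ^ 2 * 1 := by
          refine (norm_add_le _ _).trans (add_le_add hm.le ?_)
          rw [norm_smul]
          (clear A k2 S hc hcc h1 h2 hm h5; gcongr)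
      _ = 2 * t ^ 2 := by ring
  rw [← h5] at h6
  (clear P A k2 ξ S hc h hcc h1 h2 hm h3 h4 h5; nlinarith [norm_nonneg (c * cutOp m k1)])

/-- the skew element. -/
noncomputable def skewD (k1 k2 a b : Op H) (m : ℕ) : Op H :=
  a * cutOp m k1 - cutOp m k1 * star a + cutOp m k2 * star b - b * cutOp m k2

theorem skewD_swap (k1 k2 a b : Op H) (m : ℕ) :
    skewD k2 k1 b a m = - skewD k1 k2 a b m := by
  unfold skewD; abel

theorem skewD_star (k1 k2 a b : Op H) (m : ℕ) :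
    star (skewD k1 k2 a b m) = - skewD k1 k2 a b m := by
  unfold skewD
  simp only [star_sub, star_add, star_mul, (cutOp_isSelfAdjoint m k1).star_eq, star_star, (cutOp_isSelfAdjoint m k2).star_eq]
  abel

theorem skewD_mem {A : StarSubalgebra ℂ (Op H)} (hA : IsClosed (A : Set (Op H)))
    {k1 k2 a b : Op H} (h1 : k1 ∈ A) (h2 : k2 ∈ A) (ha : a ∈ A) (hb : b ∈ A) (m : ℕ) :
    skewD k1 k2 a b m ∈ A := by
  have e1 := cutOp_mem A hA h1 m
  have e2 := cutOp_mem A hA h2 m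
  unfold skewD
  exact sub_mem (add_mem (sub_mem (mul_mem ha e1) (mul_mem e1 (star_mem ha)))
    (mul_mem e2 (star_mem hb))) (mul_mem hb e2)

theorem Side.tendstoD {P : Op H →⋆ₐ[ℂ] Op K} {A : StarSubalgebra ℂ (Op H)}
    {k1 k2 : Op H} {ξ : K} (S : Side P A k1 k2 ξ) {a b c : Op H} (ha : a ∈ A) (hb : b ∈ A)
    (hc : c ∈ A) :
    Tendsto (fun m => P (skewD k1 k2 a b m) (P c ξ)) atTop
      (𝓝 (⟪ξ, P c ξ⟫_ℂ • P a ξ - ⟪ξ, P (star a * c) ξ⟫_ℂ • ξ)) := by
  have h1 := ((P a).continuous.tendsto _).comp (S.tendsto1 hc)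
  have h2 := S.tendsto1 (mul_mem (star_mem ha) hc)
  have h3 := S.tendsto2 (mul_mem (star_mem hb) hc)
  have h4 := ((P b).continuous.tendsto _).comp (S.tendsto2 hc)
  have h5 := ((h1.sub h2).add h3).sub h4
  refine Tendsto.congr' (Eventually.of_forall (fun m => ?_)) (h5.trans (le_of_eq ?_))
  · simp only [skewD, map_sub, map_add, sub_apply, add_apply, P_mul_apply, Function.comp]
  · simp only [map_smul, map_mul, mul_apply_eq_comp, add_zero, map_zero, sub_zero]

theorem Side.final {P : Op H →⋆ₐ[ℂ] Op K} {A : StarSubalgebra ℂ (Op H)}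
    {k1 k2 : Op H} {ξ : K} (S : Side P A k1 k2 ξ) {a b : Op H} (ha : a ∈ A) (hb : b ∈ A)
    {κ : ℝ} (hκ : 0 < κ) (hn : ‖P a ξ‖ = 1) (h : ‖⟪ξ, P a ξ⟫_ℂ‖ ≤ κ) :
    ∀ᶠ m in atTop, ‖P (skewD k1 k2 a b m) ξ - P a ξ‖ ≤ 2 * κ ∧
      ‖P (skewD k1 k2 a b m) (P a ξ) + ξ‖ ≤ 2 * κ := by
  have hξξ : ⟪ξ, ξ⟫_ℂ = 1 := by
    rw [inner_self_eq_norm_sq_to_K, S.ξ_norm]; simp
  have h1 := S.tendstoD ha hb A.one_mem
  have h2 := S.tendstoD ha hb ha
  simp only [map_one, one_apply_eq_self, mul_one, hξξ, one_smul] at h1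
  have e1 : ⟪ξ, P (star a * a) ξ⟫_ℂ = 1 := by
    rw [P_mul_apply, P_star_inner', inner_self_eq_norm_sq_to_K, hn]; simp
  rw [e1, one_smul] at h2
  have h3 := (h1.sub_const (P a ξ)).norm
  have h4 := (h2.add_const ξ).norm
  have e3 : ‖P a ξ - ⟪ξ, P (star a) ξ⟫_ℂ • ξ - P a ξ‖ < 2 * κ := by
    have : P a ξ - ⟪ξ, P (star a) ξ⟫_ℂ • ξ - P a ξ = - (⟪ξ, P (star a) ξ⟫_ℂ • ξ) := by abel
    rw [this, norm_neg, norm_smul, S.ξ_norm, mul_one, P_star_inner', ← inner_conj_symm,
      RCLike.norm_conj]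
    linarith
  have e4 : ‖⟪ξ, P a ξ⟫_ℂ • P a ξ - ξ + ξ‖ < 2 * κ := by
    rw [sub_add_cancel, norm_smul, hn, mul_one]
    (clear A k1 k2 S b ha hb hn hξξ h2 h1 e1 h3 h4 e3; linarith)
  filter_upwards [h3.eventually (gt_mem_nhds e3), h4.eventually (gt_mem_nhds e4)] with m hm1 hm2
  exact ⟨hm1.le, hm2.le⟩

theorem norm_mul_skewD {k1 k2 a b : Op H} (h1 : 0 ≤ k1) (h2 : 0 ≤ k2) {m n : ℕ} (hnm : n < m)
    {δ : ℝ} (hδ : 0 < δ) (e1 : ‖k2 * cutOp n k2‖ ≤ δ) (e2 : ‖k2 * cutOp n k1‖ ≤ 2 * δ)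
    (ea : cutOp n k2 * a = a) (eb : cutOp n k1 * b = b)
    (na : ‖a * cutOp m k1‖ ≤ 2) (nb : ‖b * cutOp m k2‖ ≤ 2) :
    ‖k2 * skewD k1 k2 a b m‖ ≤ 12 * δ := by
  have na' : ‖cutOp m k1 * star a‖ ≤ 2 := by
    rw [← norm_star, star_mul, star_star, (cutOp_isSelfAdjoint m k1).star_eq]; exact na
  have nb' : ‖cutOp m k2 * star b‖ ≤ 2 := by
    rw [← norm_star, star_mul, star_star, (cutOp_isSelfAdjoint m k2).star_eq]; exact nb
  have t1 : ‖k2 * (a * cutOp m k1)‖ ≤ δ * 2 := by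
    have : k2 * (a * cutOp m k1) = (k2 * cutOp n k2) * (a * cutOp m k1) := by
      conv_lhs => rw [← ea]
      simp only [mul_assoc]
    rw [this]
    exact (norm_mul_le _ _).trans (by (clear b h1 h2 hnm e2 ea eb nb na' nb' this; gcongr))
  have t2 : ‖k2 * (cutOp m k1 * star a)‖ ≤ (2 * δ) * 2 := by
    have : k2 * (cutOp m k1 * star a) = (k2 * cutOp n k1) * (cutOp m k1 * star a) := by
      conv_lhs => rw [← cutOp_mul_of_lt' hnm h1]
      simp only [mul_assoc]
    rw [this]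
    exact (norm_mul_le _ _).trans (by (clear b h1 h2 hnm e1 ea eb nb nb' t1 this; gcongr))
  have t3 : ‖k2 * (cutOp m k2 * star b)‖ ≤ δ * 2 := by
    have : k2 * (cutOp m k2 * star b) = (k2 * cutOp n k2) * (cutOp m k2 * star b) := by
      conv_lhs => rw [← cutOp_mul_of_lt' hnm h2]
      simp only [mul_assoc]
    rw [this]
    exact (norm_mul_le _ _).trans (by (clear k1 a h1 h2 hnm e2 ea eb na na' t1 t2 this; gcongr))
  have t4 : ‖k2 * (b * cutOp m k2)‖ ≤ (2 * δ) * 2 := by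
    have : k2 * (b * cutOp m k2) = (k2 * cutOp n k1) * (b * cutOp m k2) := by
      conv_lhs => rw [← eb]
      simp only [mul_assoc]
    rw [this]
    exact (norm_mul_le _ _).trans (by (clear a h1 h2 hnm e1 ea eb na na' nb' t1 t2 t3 this; gcongr))
  have e : k2 * skewD k1 k2 a b m = k2 * (a * cutOp m k1) - k2 * (cutOp m k1 * star a) +
      k2 * (cutOp m k2 * star b) - k2 * (b * cutOp m k2) := by
    unfold skewD
    rw [mul_sub, mul_add, mul_sub]
  rw [e]
  have u1 := norm_sub_le (k2 * (a * cutOp m k1) - k2 * (cutOp m k1 * star a) +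
      k2 * (cutOp m k2 * star b)) (k2 * (b * cutOp m k2))
  have u2 := norm_add_le (k2 * (a * cutOp m k1) - k2 * (cutOp m k1 * star a))
      (k2 * (cutOp m k2 * star b))
  have u3 := norm_sub_le (k2 * (a * cutOp m k1)) (k2 * (cutOp m k1 * star a))
  linarith

theorem Side.exists_a {P : Op H →⋆ₐ[ℂ] Op K} {A : StarSubalgebra ℂ (Op H)}
    {k1 k2 : Op H} {ξ : K} (S : Side P A k1 k2 ξ)
    (full1 : ∀ n, ∃ a ∈ A, P (cutOp n k2) (P a ξ) ≠ 0) (n : ℕ) {κ : ℝ}
    (hκ : ‖P (cutOp n k2) (P 1 ξ)‖ ≤ κ) :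
    ∃ a ∈ A, ‖P a ξ‖ = 1 ∧ cutOp n k2 * a = a ∧ ‖⟪ξ, P a ξ⟫_ℂ‖ ≤ κ := by
  obtain ⟨a', ha', hne⟩ := full1 (n + 1)
  have hne' : P (cutOp (n + 1) k2 * a') ξ ≠ 0 := by rwa [P_mul_apply]
  have hpos : 0 < ‖P (cutOp (n + 1) k2 * a') ξ‖ := norm_pos_iff.mpr hne'
  have hn1 : ‖P (((‖P (cutOp (n + 1) k2 * a') ξ‖⁻¹ : ℝ) : ℂ) • (cutOp (n + 1) k2 * a')) ξ‖
      = 1 := by
    rw [map_smul, smul_apply, norm_smul, Complex.norm_real, norm_inv, norm_norm]
    exact inv_mul_cancel₀ hpos.ne'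
  have hn2 : cutOp n k2 * (((‖P (cutOp (n + 1) k2 * a') ξ‖⁻¹ : ℝ) : ℂ) •
      (cutOp (n + 1) k2 * a')) = ((‖P (cutOp (n + 1) k2 * a') ξ‖⁻¹ : ℝ) : ℂ) •
      (cutOp (n + 1) k2 * a') := by
    rw [mul_smul_comm, ← mul_assoc, cutOp_mul_of_lt' (Nat.lt_succ_self n) S.k2_nonneg]
  refine ⟨_, A.smul_mem (mul_mem (cutOp_mem A S.hA S.k2_mem (n + 1)) ha') _, hn1, hn2, ?_⟩
  rw [← hn2]
  generalize (((‖P (cutOp (n + 1) k2 * a') ξ‖⁻¹ : ℝ) : ℂ) • (cutOp (n + 1) k2 * a')) = a at *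
  have h1 : ⟪ξ, P (cutOp n k2 * a) ξ⟫_ℂ = ⟪P (cutOp n k2) ξ, P a ξ⟫_ℂ := by
    rw [P_mul_apply, ← P_star_inner', (cutOp_isSelfAdjoint n k2).star_eq]
  rw [h1]
  refine (norm_inner_le_norm _ _).trans ?_
  rw [hn1, mul_one]
  simpa using hκ

theorem one_step {P : Op H →⋆ₐ[ℂ] Op K} (hP : IsUltraRep P) (A : StarSubalgebra ℂ (Op H))
    (hA : IsClosed (A : Set (Op H))) {k1 k2 : Op H} {ξ ζ : K} (C : Conf P A k1 k2 ξ ζ)
    {δ δ' : ℝ} (hδ : 0 < δ) (hδ' : 0 < δ') (h1 : ‖P k2 ξ‖ ≤ δ) (h2 : ‖P k1 ζ‖ ≤ δ) :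
    ∃ w ∈ A, w ∈ unitary (Op H) ∧ ‖(w - 1) * k1‖ ≤ 24 * δ ∧ ‖k2 * (w - 1)‖ ≤ 24 * δ ∧
      ‖P k2 (P w ξ)‖ ≤ δ' ∧ ‖P k1 (P (star w) ζ)‖ ≤ δ' := by
  have S1 : Side P A k1 k2 ξ := ⟨hP, hA, C.k1_mem, C.k2_mem, C.k1_nonneg, C.k2_nonneg,
    C.det1, C.ineq, C.ξ_norm, C.ξ_ker⟩
  have I' : Ineq P k2 k1 A := by
    intro x hx z1 z2 hz1 hz2
    have := C.ineq (star x) (star_mem hx) z2 z1 hz2 hz1
    rw [P_star_inner'] at this
    rw [← inner_conj_symm, this, map_zero]
  have S2 : Side P A k2 k1 ζ := ⟨hP, hA, C.k2_mem, C.k1_mem, C.k2_nonneg, C.k1_nonneg,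
    C.det2, I', C.ζ_norm, C.ζ_ker⟩
  have hκ : 0 < δ' / 10 := by positivity
  -- choice of n
  have c1 := S1.eventually_norm C.k2_mem hδ h1
  have c2 := S2.eventually_norm C.k1_mem hδ h2
  have c3 : ∀ᶠ n : ℕ in atTop, ((1 : ℝ) / 2) ^ n < min δ (δ' / 2) :=
    (tendsto_pow_atTop_nhds_zero_of_lt_one (by norm_num) (by norm_num)).eventually
      (gt_mem_nhds (by positivity))
  have c4 : ∀ᶠ n : ℕ in atTop, ‖P (cutOp n k2) (P 1 ξ)‖ < δ' / 10 :=
    (tendsto_zero_iff_norm_tendsto_zero.mp (S1.tendsto2 A.one_mem)).eventually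
      (gt_mem_nhds hκ)
  have c5 : ∀ᶠ n : ℕ in atTop, ‖P (cutOp n k1) (P 1 ζ)‖ < δ' / 10 :=
    (tendsto_zero_iff_norm_tendsto_zero.mp (S2.tendsto2 A.one_mem)).eventually
      (gt_mem_nhds hκ)
  obtain ⟨n, d1, d2, d3, d4, d5⟩ := (c1.and (c2.and (c3.and (c4.and c5)))).exists
  obtain ⟨a, ha, na, ea, pa⟩ := S1.exists_a C.full1 n d4.le
  obtain ⟨b, hb, nb, eb, pb⟩ := S2.exists_a C.full2 n d5.le
  -- choice of m
  have f1 := S1.final ha hb hκ na pa
  have f2 := S2.final hb ha hκ nb pb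
  have f3 := S1.eventually_norm ha one_pos na.le
  have f4 := S2.eventually_norm hb one_pos nb.le
  obtain ⟨m, g1, g2, g3, g4, hm⟩ := (f1.and (f2.and (f3.and (f4.and (eventually_gt_atTop n))))).exists
  rw [mul_one] at g3 g4
  have q1 : ‖k2 * cutOp n k2‖ ≤ δ :=
    (norm_mul_cutOp_le n C.k2_nonneg).trans (d3.le.trans (min_le_left _ _))
  have q2 : ‖k1 * cutOp n k1‖ ≤ δ :=
    (norm_mul_cutOp_le n C.k1_nonneg).trans (d3.le.trans (min_le_left _ _))
  have q3 : ‖k2 * cutOp n k2‖ ≤ δ' / 2 :=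
    (norm_mul_cutOp_le n C.k2_nonneg).trans (d3.le.trans (min_le_right _ _))
  have q4 : ‖k1 * cutOp n k1‖ ≤ δ' / 2 :=
    (norm_mul_cutOp_le n C.k1_nonneg).trans (d3.le.trans (min_le_right _ _))
  have b1 := norm_mul_skewD C.k1_nonneg C.k2_nonneg hm hδ q1 d1 ea eb g3 g4
  have b2 := norm_mul_skewD C.k2_nonneg C.k1_nonneg hm hδ q2 d2 eb ea g4 g3
  rw [skewD_swap] at b2 g2
  have hDs := skewD_star k1 k2 a b m
  have hDA := skewD_mem hA C.k1_mem C.k2_mem ha hb m
  generalize skewD k1 k2 a b m = D at *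
  have b3 : ‖D * k1‖ ≤ 12 * δ := by
    have : ‖D * k1‖ = ‖k1 * -D‖ := by
      rw [← norm_star, star_mul, hDs, (IsSelfAdjoint.of_nonneg C.k1_nonneg).star_eq]
    rw [this]; exact b2
  obtain ⟨r, hrA, hrn, r1, r2⟩ := cayley_inv A hA hDA hDs
  have hcomm : r * D = D * r := by
    have := r1.trans r2.symm
    rw [mul_sub, sub_mul, mul_one, one_mul] at this
    exact sub_right_injective this
  have s1 : star r * (1 + D) = 1 := by
    have := congrArg star r2
    rw [star_mul, star_sub, star_one, hDs, sub_neg_eq_add] at this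
    exact this
  have s2 : (1 + D) * star r = 1 := by
    have := congrArg star r1
    rw [star_mul, star_sub, star_one, hDs, sub_neg_eq_add] at this
    exact this
  have w1 : r * (1 + D) = (1 + D) * r := by rw [mul_add, add_mul, hcomm, mul_one, one_mul]
  have w2 : star (r * (1 + D)) = star r * (1 - D) := by
    rw [w1, star_mul, star_add, star_one, hDs, ← sub_eq_add_neg]
  have w3 : star (r * (1 + D)) = (1 - D) * star r := by
    rw [star_mul, star_add, star_one, hDs, ← sub_eq_add_neg]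
  have w4 : r * (1 + D) - 1 = (2 : ℂ) • (r * D) := by
    have : r * (1 + D) - 1 = r * (1 + D) - r * (1 - D) := by rw [r1]
    rw [this, ← mul_sub, two_smul, ← mul_add]
    congr 1
    abel
  have hcD : (1 - D) * (1 + D) = (1 + D) * (1 - D) := by
    simp only [mul_add, mul_sub, sub_mul, add_mul, mul_one, one_mul]; abel
  refine ⟨r * (1 + D), mul_mem hrA (add_mem A.one_mem hDA), ?_, ?_, ?_, ?_, ?_⟩
  · rw [Unitary.mem_iff]
    constructor
    · rw [w2, w1]
      calc star r * (1 - D) * ((1 + D) * r) = star r * ((1 - D) * (1 + D)) * r := by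
            simp only [mul_assoc]
        _ = (star r * (1 + D)) * ((1 - D) * r) := by rw [hcD]; simp only [mul_assoc]
        _ = 1 := by rw [s1, r2, one_mul]
    · rw [w3]
      calc r * (1 + D) * ((1 - D) * star r) = r * ((1 + D) * (1 - D)) * star r := by
            simp only [mul_assoc]
        _ = (r * (1 - D)) * ((1 + D) * star r) := by rw [← hcD]; simp only [mul_assoc]
        _ = 1 := by rw [s2, r1, one_mul]
  · rw [w4, smul_mul_assoc, norm_smul, mul_assoc]
    have : ‖r * (D * k1)‖ ≤ 1 * (12 * δ) := (norm_mul_le _ _).trans (by (clear hP δ' hδ hδ' h1 h2 S1 I' S2 hκ c1 c2 c3 c4 c5 n d1 d2 d3 d4 d5 a ha na ea pa b hb nb eb pb f1 f2 f3 f4 m g3 g4 hm q1 q2 q3 q4 g1 g2 b1 hDA hrA r1 r2 hcomm s1 s2 w1 w2 w3 w4 hcD; gcongr))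
    have h2 : ‖(2 : ℂ)‖ = 2 := by simp
    rw [h2]
    linarith only [this]
  · rw [w4, mul_smul_comm, norm_smul, hcomm, ← mul_assoc]
    have : ‖(k2 * D) * r‖ ≤ (12 * δ) * 1 := (norm_mul_le _ _).trans (by (clear P hP k1 ξ ζ C δ' hδ' h1 h2 S1 I' S2 hκ c1 c2 c3 c4 c5 n d1 d2 d3 d4 d5 a ha na ea pa b hb nb eb pb f1 f2 f3 f4 m g3 g4 hm q1 q2 q3 q4 g1 g2 b2 hDs hDA b3 hrA r1 r2 hcomm s1 s2 w1 w2 w3 w4 hcD; gcongr))
    have h2 : ‖(2 : ℂ)‖ = 2 := by simp
    rw [h2]
    linarith only [this]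
  · have v1 := cayley_vec P r1 hrn rfl ξ (P a ξ)
    have v2 : P k2 (P a ξ) = P (k2 * cutOp n k2) (P a ξ) := by
      rw [← P_mul_apply, ← P_mul_apply, mul_assoc, ea]
    have v3 : ‖P k2 (P a ξ)‖ ≤ δ' / 2 := by
      rw [v2]
      refine (P_norm_le P _ _).trans ?_
      rw [na, mul_one]; exact q3
    have v4 : ‖P k2 (P (r * (1 + D)) ξ - P a ξ)‖ ≤ 1 * ‖P (r * (1 + D)) ξ - P a ξ‖ :=
      (P_norm_le P _ _).trans (by gcongr; exact C.k2_norm)
    have v5 : P k2 (P (r * (1 + D)) ξ) = P k2 (P a ξ) + P k2 (P (r * (1 + D)) ξ - P a ξ) := by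
      rw [map_sub]; abel
    rw [v5]
    refine (norm_add_le _ _).trans ?_
    (clear hP δ hδ h1 h2 S1 I' S2 hκ c1 c2 c3 c4 c5 d1 d2 d3 d4 d5 ha pa b hb nb eb pb f1 f2 f3 f4 m g3 g4 hm q1 q2 q4 g2 b1 b2 hDs hDA b3 hrA r2 hcomm s1 s2 w1 w2 w3 w4 hcD v5; linarith [g1.1, g1.2])
  · have hr' : star r * (1 - -D) = 1 := by rw [sub_neg_eq_add]; exact s1
    have hrn' : ‖star r‖ ≤ 1 := by rw [norm_star]; exact hrn
    have hw' : star (r * (1 + D)) = star r * (1 + -D) := by rw [← sub_eq_add_neg]; exact w2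
    have v1 := cayley_vec P hr' hrn' hw' ζ (P b ζ)
    have v2 : P k1 (P b ζ) = P (k1 * cutOp n k1) (P b ζ) := by
      rw [← P_mul_apply, ← P_mul_apply, mul_assoc, eb]
    have v3 : ‖P k1 (P b ζ)‖ ≤ δ' / 2 := by
      rw [v2]
      refine (P_norm_le P _ _).trans ?_
      rw [nb, mul_one]; exact q4
    have v4 : ‖P k1 (P (star (r * (1 + D))) ζ - P b ζ)‖ ≤
        1 * ‖P (star (r * (1 + D))) ζ - P b ζ‖ :=
      (P_norm_le P _ _).trans (by gcongr; exact C.k1_norm)
    have v5 : P k1 (P (star (r * (1 + D))) ζ) =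
        P k1 (P b ζ) + P k1 (P (star (r * (1 + D))) ζ - P b ζ) := by
      rw [map_sub]; abel
    rw [v5]
    refine (norm_add_le _ _).trans ?_
    (clear hP δ hδ h1 h2 S1 I' S2 hκ c1 c2 c3 c4 c5 d1 d2 d3 d4 d5 a ha na ea pa hb pb f1 f2 f3 f4 m g3 g4 hm q1 q2 q3 g1 b1 b2 hDA b3 hrA s2 w3 w4 hcD v5; linarith [g2.1, g2.2])

end
end Vale.Agent.P070
end
end

section

section

/-! The key construction, by iterating the one-step lemma. -/

namespace Vale.Agent.P070

open scoped InnerProductSpace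
open Filter Topology

universe u v

section
variable {H : Type u} {K : Type v}
  [NormedAddCommGroup H] [InnerProductSpace ℂ H] [CompleteSpace H]
  [NormedAddCommGroup K] [InnerProductSpace ℂ K] [CompleteSpace K]

namespace KeyCon

theorem map_unitary_cancel (P : Op H →⋆ₐ[ℂ] Op K) {u : Op H} (hu : u ∈ unitary (Op H)) (z : K) :
    P (star u) (P u z) = z := by
  rw [← mul_apply_eq_comp, ← map_mul, (Unitary.mem_iff.1 hu).1, map_one, one_apply_eq_self]

theorem map_unitary_cancel' (P : Op H →⋆ₐ[ℂ] Op K) {u : Op H} (hu : u ∈ unitary (Op H)) (z : K) :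
    P u (P (star u) z) = z := by
  rw [← mul_apply_eq_comp, ← map_mul, (Unitary.mem_iff.1 hu).2, map_one, one_apply_eq_self]

theorem inner_map_star (P : Op H →⋆ₐ[ℂ] Op K) (x : Op H) (z w : K) :
    ⟪P (star x) w, z⟫_ℂ = ⟪w, P x z⟫_ℂ := by
  rw [map_star, ContinuousLinearMap.star_eq_adjoint, ContinuousLinearMap.adjoint_inner_left]

theorem norm_map_unitary (P : Op H →⋆ₐ[ℂ] Op K) {u : Op H} (hu : u ∈ unitary (Op H)) (z : K) :
    ‖P u z‖ = ‖z‖ := by
  have h : ⟪P u z, P u z⟫_ℂ = ⟪z, z⟫_ℂ := by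
    rw [← inner_map_star, map_unitary_cancel P hu]
  rw [inner_self_eq_norm_sq_to_K, inner_self_eq_norm_sq_to_K] at h
  have h' : ‖P u z‖ ^ 2 = ‖z‖ ^ 2 := by exact_mod_cast h
  exact (pow_left_inj₀ (norm_nonneg _) (norm_nonneg _) two_ne_zero).1 h'

theorem conf_conj {P : Op H →⋆ₐ[ℂ] Op K} {A : StarSubalgebra ℂ (Op H)} {k1 k2 : Op H} {ξ ζ : K}
    (C : Conf P A k1 k2 ξ ζ) {u : Op H} (huA : u ∈ A) (hu : u ∈ unitary (Op H)) :
    Conf P A (u * k1 * star u) k2 (P u ξ) ζ := by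
  have hsu : star u ∈ A := star_mem huA
  have ker : ∀ z : K, P (u * k1 * star u) z = 0 → P k1 (P (star u) z) = 0 := by
    intro z hz
    have h1 : P (u * k1 * star u) z = P u (P k1 (P (star u) z)) := by
      rw [map_mul, map_mul, mul_apply_eq_comp, mul_apply_eq_comp]
    rw [h1] at hz
    have h2 := map_unitary_cancel P hu (P k1 (P (star u) z))
    rw [hz, map_zero] at h2
    exact h2.symm
  refine
    { k1_mem := mul_mem (mul_mem huA C.k1_mem) hsu
      k2_mem := C.k2_mem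
      k1_nonneg := ?_
      k2_nonneg := C.k2_nonneg
      k1_norm := ?_
      k2_norm := C.k2_norm
      det1 := ?_
      det2 := C.det2
      ineq := ?_
      ξ_norm := by rw [norm_map_unitary P hu]; exact C.ξ_norm
      ζ_norm := C.ζ_norm
      ξ_ker := ?_
      ζ_ker := C.ζ_ker
      full1 := ?_
      full2 := ?_ }
  · exact star_right_conjugate_nonneg C.k1_nonneg u
  · have h1 : ‖u * k1 * star u‖ = ‖k1‖ := by
      have e1 := CStarRing.norm_coe_unitary_mul ⟨u, hu⟩ k1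
      have e2 := CStarRing.norm_mul_mem_unitary (u * k1) (Unitary.star_mem hu)
      simp only at e1 e2
      rw [e2, e1]
    rw [h1]; exact C.k1_norm
  · intro x hx
    obtain ⟨c, hc⟩ := C.det1 (star u * x * u) (mul_mem (mul_mem hsu hx) huA)
    refine ⟨c, fun z w hz hw => ?_⟩
    have h1 := hc _ _ (ker z hz) (ker w hw)
    have h2 : ⟪P (star u) w, P (star u) z⟫_ℂ = ⟪w, z⟫_ℂ := by
      rw [inner_map_star, map_unitary_cancel' P hu]
    have h3 : ⟪P (star u) w, P (star u * x * u) (P (star u) z)⟫_ℂ = ⟪w, P x z⟫_ℂ := by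
      rw [inner_map_star, map_mul, map_mul, mul_apply_eq_comp, mul_apply_eq_comp,
        map_unitary_cancel' P hu, map_unitary_cancel' P hu]
    rw [h2, h3] at h1
    exact h1
  · intro x hx z1 z2 hz1 hz2
    have h1 := C.ineq (x * u) (mul_mem hx huA) _ z2 (ker z1 hz1) hz2
    rwa [map_mul, mul_apply_eq_comp, map_unitary_cancel' P hu] at h1
  · rw [map_mul, map_mul, mul_apply_eq_comp, mul_apply_eq_comp, map_unitary_cancel P hu, C.ξ_ker,
      map_zero]
  · intro n
    obtain ⟨a, ha, hne⟩ := C.full1 n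
    refine ⟨a * star u, mul_mem ha hsu, ?_⟩
    rwa [map_mul, mul_apply_eq_comp, map_unitary_cancel P hu]
  · intro n
    obtain ⟨b, hb, hne⟩ := C.full2 n
    refine ⟨u * b, mul_mem huA hb, ?_⟩
    rw [cutOp_unitary_conj n C.k1_nonneg hu]
    have e : P (u * cutOp n k1 * star u) (P (u * b) ζ) = P u (P (cutOp n k1) (P b ζ)) := by
      rw [map_mul, map_mul, mul_apply_eq_comp, mul_apply_eq_comp, map_mul P u b,
        mul_apply_eq_comp, map_unitary_cancel P hu]
    rw [e]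
    intro h0
    apply hne
    have h2 := map_unitary_cancel P hu (P (cutOp n k1) (P b ζ))
    rw [h0, map_zero] at h2
    exact h2.symm

/-- the invariant of the iteration -/
def Inv (P : Op H →⋆ₐ[ℂ] Op K) (A : StarSubalgebra ℂ (Op H)) (k1 k2 : Op H) (ξ ζ : K) (j : ℕ)
    (u : Op H) : Prop :=
  u ∈ A ∧ u ∈ unitary (Op H) ∧ ‖P k2 (P u ξ)‖ ≤ (1 / 2) ^ j ∧
    ‖P k1 (P (star u) ζ)‖ ≤ (1 / 2) ^ j

theorem step {P : Op H →⋆ₐ[ℂ] Op K} (hP : IsUltraRep P)
    (A : StarSubalgebra ℂ (Op H)) (hA : IsClosed (A : Set (Op H))) {k1 k2 : Op H} {ξ ζ : K}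
    (C : Conf P A k1 k2 ξ ζ) (j : ℕ) (u : Op H) (hu : Inv P A k1 k2 ξ ζ j u) :
    ∃ u', Inv P A k1 k2 ξ ζ (j + 1) u' ∧ ‖(u' - u) * k1‖ ≤ 24 * (1 / 2) ^ j ∧
      ‖k2 * (u' - u)‖ ≤ 24 * (1 / 2) ^ j := by
  obtain ⟨huA, hU, h1, h2⟩ := hu
  have conj_norm : ∀ z : K, ‖P (u * k1 * star u) z‖ = ‖P k1 (P (star u) z)‖ := by
    intro z
    rw [map_mul, map_mul, mul_apply_eq_comp, mul_apply_eq_comp, norm_map_unitary P hU]
  obtain ⟨w, hwA, hwU, hw1, hw2, hw3, hw4⟩ := one_step hP A hA (conf_conj C huA hU)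
    (δ := (1 / 2) ^ j) (δ' := (1 / 2) ^ (j + 1)) (by positivity) (by positivity) h1
    (by rw [conj_norm]; exact h2)
  refine ⟨w * u, ⟨mul_mem hwA huA, mul_mem hwU hU, ?_, ?_⟩, ?_, ?_⟩
  · rw [map_mul, mul_apply_eq_comp]; exact hw3
  · rw [conj_norm] at hw4
    rw [star_mul, map_mul, mul_apply_eq_comp]; exact hw4
  · have e : (w * u - u) * k1 = (w - 1) * (u * k1 * star u) * u := by
      have : star u * u = 1 := (Unitary.mem_iff.1 hU).1
      calc (w * u - u) * k1 = (w - 1) * (u * k1) * 1 := by noncomm_ring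
        _ = (w - 1) * (u * k1) * (star u * u) := by rw [this]
        _ = _ := by noncomm_ring
    rw [e, CStarRing.norm_mul_mem_unitary _ hU]
    exact hw1
  · have e : k2 * (w * u - u) = k2 * (w - 1) * u := by noncomm_ring
    rw [e, CStarRing.norm_mul_mem_unitary _ hU]
    exact hw2

theorem exists_seq {P : Op H →⋆ₐ[ℂ] Op K} (hP : IsUltraRep P)
    (A : StarSubalgebra ℂ (Op H)) (hA : IsClosed (A : Set (Op H))) {k1 k2 : Op H} {ξ ζ : K}
    (C : Conf P A k1 k2 ξ ζ) :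
    ∃ U : ℕ → Op H, (∀ j, Inv P A k1 k2 ξ ζ j (U j)) ∧
      (∀ j, ‖(U (j + 1) - U j) * k1‖ ≤ 24 * (1 / 2) ^ j) ∧
      (∀ j, ‖k2 * (U (j + 1) - U j)‖ ≤ 24 * (1 / 2) ^ j) := by
  have h0 : Inv P A k1 k2 ξ ζ 0 1 := by
    refine ⟨one_mem A, one_mem _, ?_, ?_⟩
    · rw [map_one, one_apply_eq_self, pow_zero]
      refine ((P k2).le_opNorm ξ).trans ?_
      rw [C.ξ_norm, mul_one]
      exact (NonUnitalStarAlgHom.norm_apply_le P k2).trans C.k2_norm
    · rw [star_one, map_one, one_apply_eq_self, pow_zero]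
      refine ((P k1).le_opNorm ζ).trans ?_
      rw [C.ζ_norm, mul_one]
      exact (NonUnitalStarAlgHom.norm_apply_le P k1).trans C.k1_norm
  let F : (j : ℕ) → {u : Op H // Inv P A k1 k2 ξ ζ j u} := fun j =>
    Nat.rec ⟨1, h0⟩ (fun j u => ⟨(step hP A hA C j u.1 u.2).choose,
      (step hP A hA C j u.1 u.2).choose_spec.1⟩) j
  refine ⟨fun j => (F j).1, fun j => (F j).2, fun j => ?_, fun j => ?_⟩
  · exact (step hP A hA C j (F j).1 (F j).2).choose_spec.2.1
  · exact (step hP A hA C j (F j).1 (F j).2).choose_spec.2.2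

/-- ranges of injective self-adjoint operators are dense -/
theorem dense_range {k : Op H} (hk : IsSelfAdjoint k) (inj : ∀ x : H, k x = 0 → x = 0) (x : H)
    {ε : ℝ} (hε : 0 < ε) : ∃ y : H, ‖x - k y‖ < ε := by
  have h1 : (LinearMap.range (k : H →ₗ[ℂ] H)).topologicalClosure = ⊤ := by
    rw [Submodule.topologicalClosure_eq_top_iff]
    rw [Submodule.eq_bot_iff]
    intro z hz
    apply inj
    have : ∀ y : H, ⟪k y, z⟫_ℂ = 0 := fun y =>
      (Submodule.mem_orthogonal _ z).1 hz (k y) ⟨y, rfl⟩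
    have h2 : ∀ y : H, ⟪y, k z⟫_ℂ = 0 := by
      intro y
      have h3 := this y
      rw [← ContinuousLinearMap.adjoint_inner_right, ← ContinuousLinearMap.star_eq_adjoint,
        hk.star_eq] at h3
      exact h3
    exact inner_self_eq_zero.1 (h2 (k z))
  have h2 : x ∈ closure (LinearMap.range (k : H →ₗ[ℂ] H) : Set H) := by
    rw [← Submodule.topologicalClosure_coe, h1]; trivial
  obtain ⟨_, ⟨y, rfl⟩, hy⟩ := Metric.mem_closure_iff.1 h2 ε hε
  exact ⟨y, by simpa [dist_eq_norm] using hy⟩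

/-- strong convergence from norm convergence after composing with an injective operator -/
theorem exists_strong_limit {k : Op H} (hk : IsSelfAdjoint k) (inj : ∀ x : H, k x = 0 → x = 0)
    (U : ℕ → Op H) (hU : ∀ j x, ‖U j x‖ ≤ ‖x‖) (hc : CauchySeq fun j => U j * k) :
    ∃ V : Op H, ∀ x, Tendsto (fun j => U j x) atTop (𝓝 (V x)) := by
  have h1 : ∀ x, CauchySeq fun j => U j x := by
    intro x
    rw [Metric.cauchySeq_iff]
    intro ε hε
    obtain ⟨y, hy⟩ := dense_range hk inj x (ε := ε / 3) (by positivity)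
    rw [Metric.cauchySeq_iff] at hc
    obtain ⟨N, hN⟩ := hc (ε / (3 * (‖y‖ + 1))) (by positivity)
    refine ⟨N, fun m hm n hn => ?_⟩
    have h2 := hN m hm n hn
    rw [dist_eq_norm] at h2 ⊢
    have e : U m x - U n x = U m (x - k y) - U n (x - k y) + (U m * k - U n * k) y := by
      simp only [map_sub, sub_apply, mul_apply_eq_comp]; abel
    rw [e]
    have h3 : ‖(U m * k - U n * k) y‖ ≤ ε / (3 * (‖y‖ + 1)) * ‖y‖ :=
      ((U m * k - U n * k).le_opNorm y).trans (mul_le_mul_of_nonneg_right h2.le (norm_nonneg _))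
    have h4 : ε / (3 * (‖y‖ + 1)) * ‖y‖ ≤ ε / 3 := by
      rw [div_mul_eq_mul_div, div_le_iff₀ (by positivity)]
      have := norm_nonneg y
      nlinarith only [hε]
    have h5 := hU m (x - k y)
    have h6 := hU n (x - k y)
    calc ‖U m (x - k y) - U n (x - k y) + (U m * k - U n * k) y‖
        ≤ ‖U m (x - k y)‖ + ‖U n (x - k y)‖ + ‖(U m * k - U n * k) y‖ :=
          (norm_add_le _ _).trans (add_le_add (norm_sub_le _ _) le_rfl)
      _ < ε := by linarith only [hy, h3, h4, h5, h6]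
  choose f hf using fun x => cauchySeq_tendsto_of_complete (h1 x)
  have ht : Tendsto (fun j x => U j x) atTop (𝓝 f) := tendsto_pi_nhds.2 hf
  exact ⟨continuousLinearMapOfTendsto U ht, hf⟩

theorem star_map_inner (P : Op H →⋆ₐ[ℂ] Op K) (x : Op H) (z : K) :
    ⟪z, P (star x * x) z⟫_ℂ = (‖P x z‖ : ℂ) ^ 2 := by
  rw [map_mul, mul_apply_eq_comp, ← inner_map_star, star_star, inner_self_eq_norm_sq_to_K]
  rfl

/-- on the kernel of a determining element all vectors behave like one unit vector -/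
theorem norm_of_det {P : Op H →⋆ₐ[ℂ] Op K} {A : StarSubalgebra ℂ (Op H)} {k x : Op H}
    (hD : Det P k A) (hx : x ∈ A) {ξ : K} (hξ : ‖ξ‖ = 1) (hk : P k ξ = 0) {z : K}
    (hz : P k z = 0) : ‖P x z‖ = ‖P x ξ‖ * ‖z‖ := by
  obtain ⟨c, hc⟩ := hD (star x * x) (mul_mem (star_mem hx) hx)
  have h1 := hc z z hz hz
  have h2 := hc ξ ξ hk hk
  have e : ∀ z : K, ⟪z, z⟫_ℂ = ((‖z‖ : ℝ) : ℂ) ^ 2 := fun z => by
    rw [inner_self_eq_norm_sq_to_K]; rfl
  rw [star_map_inner, e] at h1 h2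
  rw [hξ] at h2
  simp only [Complex.ofReal_one, one_pow, mul_one] at h2
  rw [← h2] at h1
  have h3 : ‖P x z‖ ^ 2 = (‖P x ξ‖ * ‖z‖) ^ 2 := by
    rw [mul_pow]
    exact_mod_cast h1
  exact (pow_left_inj₀ (norm_nonneg _) (by (clear A k hD hx hξ hk hz c hc h1 e h2 h3; positivity)) two_ne_zero).1 h3

end KeyCon

open KeyCon in
theorem key_construction {P : Op H →⋆ₐ[ℂ] Op K} (hP : IsUltraRep P)
    (A : StarSubalgebra ℂ (Op H)) (hA : IsClosed (A : Set (Op H))) {k1 k2 : Op H} {ξ ζ : K}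
    (C : Conf P A k1 k2 ξ ζ)
    (inj1 : ∀ x : H, k1 x = 0 → x = 0) (inj2 : ∀ x : H, k2 x = 0 → x = 0) :
    ∃ u ∈ unitary (Op H), u * k1 ∈ A ∧ k2 * u ∈ A ∧
      (∀ T : Op H, (∀ a ∈ A, T * a = a * T) → T * u = u * T) ∧
      (∀ z, P k1 z = 0 → P k2 (P u z) = 0) ∧
      (∀ z, P k2 z = 0 → P k1 (P (star u) z) = 0) := by
  obtain ⟨U, hU, hUk1, hUk2⟩ := exists_seq hP A hA C
  have k1sa : IsSelfAdjoint k1 := IsSelfAdjoint.of_nonneg C.k1_nonneg
  have k2sa : IsSelfAdjoint k2 := IsSelfAdjoint.of_nonneg C.k2_nonneg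
  have hUn : ∀ j, U j ∈ unitary (Op H) := fun j => (hU j).2.1
  have hUnorm : ∀ j x, ‖U j x‖ = ‖x‖ := fun j x =>
    norm_map_unitary (StarAlgHom.id ℂ (Op H)) (hUn j) x
  have hUsnorm : ∀ j x, ‖star (U j) x‖ = ‖x‖ := fun j x =>
    norm_map_unitary (StarAlgHom.id ℂ (Op H)) (Unitary.star_mem (hUn j)) x
  -- norm Cauchy sequences
  have c1 : CauchySeq fun j => U j * k1 := by
    refine cauchySeq_of_le_geometric (1 / 2) 24 (by norm_num) fun j => ?_
    rw [dist_comm, dist_eq_norm, ← sub_mul]; exact hUk1 j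
  have c2 : CauchySeq fun j => k2 * U j := by
    refine cauchySeq_of_le_geometric (1 / 2) 24 (by norm_num) fun j => ?_
    rw [dist_comm, dist_eq_norm, ← mul_sub]; exact hUk2 j
  have c3 : CauchySeq fun j => star (U j) * k2 := by
    refine cauchySeq_of_le_geometric (1 / 2) 24 (by norm_num) fun j => ?_
    rw [dist_comm, dist_eq_norm, ← sub_mul, ← star_sub]
    have e : star (U (j + 1) - U j) * k2 = star (k2 * (U (j + 1) - U j)) := by
      rw [star_mul, k2sa.star_eq]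
    rw [e, norm_star]; exact hUk2 j
  have c4 : CauchySeq fun j => k1 * star (U j) := by
    refine cauchySeq_of_le_geometric (1 / 2) 24 (by norm_num) fun j => ?_
    rw [dist_comm, dist_eq_norm, ← mul_sub, ← star_sub]
    have e : k1 * star (U (j + 1) - U j) = star ((U (j + 1) - U j) * k1) := by
      rw [star_mul, k1sa.star_eq]
    rw [e, norm_star]; exact hUk1 j
  obtain ⟨u, hu⟩ := exists_strong_limit k1sa inj1 U (fun j x => (hUnorm j x).le) c1
  obtain ⟨v, hv⟩ := exists_strong_limit k2sa inj2 (fun j => star (U j))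
    (fun j x => (hUsnorm j x).le) c3
  have hstar : star u = v := by
    rw [ContinuousLinearMap.star_eq_adjoint]
    symm
    rw [ContinuousLinearMap.eq_adjoint_iff]
    intro x y
    have h1 : Tendsto (fun j => ⟪star (U j) x, y⟫_ℂ) atTop (𝓝 ⟪v x, y⟫_ℂ) :=
      (hv x).inner tendsto_const_nhds
    have h2 : Tendsto (fun j => ⟪x, U j y⟫_ℂ) atTop (𝓝 ⟪x, u y⟫_ℂ) :=
      tendsto_const_nhds.inner (hu y)
    have h3 : ∀ j, ⟪star (U j) x, y⟫_ℂ = ⟪x, U j y⟫_ℂ := fun j => by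
      rw [ContinuousLinearMap.star_eq_adjoint, ContinuousLinearMap.adjoint_inner_left]
    exact tendsto_nhds_unique h1 (h2.congr fun j => (h3 j).symm)
  have hunorm : ∀ x, ‖u x‖ = ‖x‖ := fun x =>
    tendsto_nhds_unique (hu x).norm (by simpa only [hUnorm] using tendsto_const_nhds)
  have hvnorm : ∀ x, ‖v x‖ = ‖x‖ := fun x =>
    tendsto_nhds_unique (hv x).norm (by simpa only [hUsnorm] using tendsto_const_nhds)
  have huU : u ∈ unitary (Op H) := by
    rw [Unitary.mem_iff]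
    constructor
    · rw [ContinuousLinearMap.star_eq_adjoint]
      exact ContinuousLinearMap.norm_map_iff_adjoint_comp_self u |>.1 hunorm
    · have h1 : star v * v = 1 := by
        rw [ContinuousLinearMap.star_eq_adjoint]
        exact ContinuousLinearMap.norm_map_iff_adjoint_comp_self v |>.1 hvnorm
      rwa [← hstar, star_star] at h1
  -- norm limits
  have lim1 : Tendsto (fun j => U j * k1) atTop (𝓝 (u * k1)) := by
    obtain ⟨T, hT⟩ := cauchySeq_tendsto_of_complete c1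
    have : T = u * k1 := by
      ext x
      have h1 : Tendsto (fun j => (U j * k1) x) atTop (𝓝 (T x)) :=
        ((ContinuousLinearMap.apply ℂ H x).continuous.tendsto T).comp hT
      exact tendsto_nhds_unique h1 (hu (k1 x))
    rwa [this] at hT
  have lim2 : Tendsto (fun j => k2 * U j) atTop (𝓝 (k2 * u)) := by
    obtain ⟨T, hT⟩ := cauchySeq_tendsto_of_complete c2
    have : T = k2 * u := by
      ext x
      have h1 : Tendsto (fun j => (k2 * U j) x) atTop (𝓝 (T x)) :=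
        ((ContinuousLinearMap.apply ℂ H x).continuous.tendsto T).comp hT
      exact tendsto_nhds_unique h1 ((k2.continuous.tendsto _).comp (hu x))
    rwa [this] at hT
  have lim4 : Tendsto (fun j => k1 * star (U j)) atTop (𝓝 (k1 * star u)) := by
    have h1 := lim1.star
    simp only [star_mul, k1sa.star_eq] at h1
    exact h1
  have Pcont : Continuous P := by
    exact (LinearMap.mkContinuous (P : Op H →ₗ[ℂ] Op K) 1 fun x => by
      rw [one_mul]; exact NonUnitalStarAlgHom.norm_apply_le P x).continuous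
  have gen : ∀ (X : ℕ → Op H) (Y : Op H) (ξ' : K) (k : Op H), Tendsto X atTop (𝓝 Y) →
      (∀ j, X j ∈ A) → Det P k A → ‖ξ'‖ = 1 → P k ξ' = 0 →
      (∀ j, ‖P (X j) ξ'‖ ≤ (1 / 2) ^ j) → ∀ z, P k z = 0 → P Y z = 0 := by
    intro X Y ξ' k hX hXA hD hξ' hkξ' hb z hz
    have h1 : Tendsto (fun j => P (X j) z) atTop (𝓝 (P Y z)) :=
      ((ContinuousLinearMap.apply ℂ K z).continuous.tendsto _).comp ((Pcont.tendsto Y).comp hX)
    have h2 : Tendsto (fun j => P (X j) z) atTop (𝓝 0) := by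
      refine squeeze_zero_norm (a := fun j : ℕ => (1 / 2 : ℝ) ^ j * ‖z‖) (fun j => ?_) ?_
      · rw [norm_of_det hD (hXA j) hξ' hkξ' hz]
        exact mul_le_mul_of_nonneg_right (hb j) (norm_nonneg _)
      · have := (tendsto_pow_atTop_nhds_zero_of_lt_one (r := (1 / 2 : ℝ)) (by norm_num)
          (by norm_num)).mul_const ‖z‖
        simpa only [one_div, inv_pow, zero_mul] using this
    exact tendsto_nhds_unique h1 h2
  refine ⟨u, huU, ?_, ?_, ?_, ?_, ?_⟩
  · exact hA.mem_of_tendsto lim1 (Eventually.of_forall fun j => mul_mem (hU j).1 C.k1_mem)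
  · exact hA.mem_of_tendsto lim2 (Eventually.of_forall fun j => mul_mem C.k2_mem (hU j).1)
  · intro T hT
    ext x
    have h1 : Tendsto (fun j => T (U j x)) atTop (𝓝 (T (u x))) :=
      (T.continuous.tendsto _).comp (hu x)
    have h2 : Tendsto (fun j => U j (T x)) atTop (𝓝 (u (T x))) := hu (T x)
    have h3 : ∀ j, U j (T x) = T (U j x) := fun j => by
      have := congrArg (fun S : Op H => S x) (hT (U j) (hU j).1)
      exact this.symm
    exact tendsto_nhds_unique h1 (h2.congr h3)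
  · intro z hz
    rw [← mul_apply_eq_comp, ← map_mul]
    refine gen (fun j => k2 * U j) (k2 * u) ξ k1 lim2 (fun j => mul_mem C.k2_mem (hU j).1)
      C.det1 C.ξ_norm C.ξ_ker (fun j => ?_) z hz
    rw [map_mul, mul_apply_eq_comp]; exact (hU j).2.2.1
  · intro z hz
    rw [← mul_apply_eq_comp, ← map_mul]
    refine gen (fun j => k1 * star (U j)) (k1 * star u) ζ k2 lim4
      (fun j => mul_mem C.k1_mem (star_mem (hU j).1)) C.det2 C.ζ_norm C.ζ_ker (fun j => ?_) z hz
    rw [map_mul, mul_apply_eq_comp]; exact (hU j).2.2.2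

end

end Vale.Agent.P070
end
end

section

section

namespace Vale.Agent.P070

open scoped InnerProductSpace
open Filter Topology

universe u v w

section
variable {H : Type u} {K : Type v}
  [NormedAddCommGroup H] [InnerProductSpace ℂ H] [CompleteSpace H]
  [NormedAddCommGroup K] [InnerProductSpace ℂ K] [CompleteSpace K]

theorem rep_norm_le (A : StarSubalgebra ℂ (Op H)) (hA : IsClosed (A : Set (Op H)))
    {L : Type*} [NormedAddCommGroup L] [InnerProductSpace ℂ L] [CompleteSpace L]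
    (π : A →⋆ₐ[ℂ] Op L) (a : A) : ‖π a‖ ≤ ‖(a : Op H)‖ := by
  have : IsClosed (A : Set (Op H)) := hA
  exact NonUnitalStarAlgHom.norm_apply_le π a

theorem rep_cutOp_fix (A : StarSubalgebra ℂ (Op H)) (hA : IsClosed (A : Set (Op H))) {k : Op H}
    (hk : k ∈ A) (hk0 : 0 ≤ k) (n : ℕ) {L : Type*} [NormedAddCommGroup L]
    [InnerProductSpace ℂ L] [CompleteSpace L] (π : A →⋆ₐ[ℂ] Op L) {z : L}
    (hz : π ⟨k, hk⟩ z = 0) : π ⟨cutOp n k, cutOp_mem A hA hk n⟩ z = z := by
  obtain ⟨g, hg, h1, _⟩ := exists_one_sub_cutOp A hA hk hk0 n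
  have h2 : (1 : A) - ⟨cutOp n k, cutOp_mem A hA hk n⟩ = ⟨g, hg⟩ * ⟨k, hk⟩ := Subtype.ext h1
  have h3 : π (1 - ⟨cutOp n k, cutOp_mem A hA hk n⟩) z = 0 := by
    rw [h2, map_mul, mul_apply_eq_comp, hz, map_zero]
  rw [map_sub, map_one, sub_apply, one_apply_eq_self, sub_eq_zero] at h3
  exact h3.symm

theorem exists_ker_of_rep {P : Op H →⋆ₐ[ℂ] Op K} (hP : IsUltraRep P)
    (A : StarSubalgebra ℂ (Op H)) (hA : IsClosed (A : Set (Op H))) {k : Op H}
    (hk : k ∈ A) (hk0 : 0 ≤ k) {L : Type*} [NormedAddCommGroup L]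
    [InnerProductSpace ℂ L] [CompleteSpace L] (π : A →⋆ₐ[ℂ] Op L) {η : L} (hη : η ≠ 0)
    (hkη : π ⟨k, hk⟩ η = 0) : ∃ ζ : K, ‖ζ‖ = 1 ∧ P k ζ = 0 := by
  refine exists_ker hP fun ε hε => ?_
  obtain ⟨n, hn⟩ := exists_pow_lt_of_lt_one (show (0 : ℝ) < ε / 2 by positivity)
    (show (1 / 2 : ℝ) < 1 by norm_num)
  have h1 : (1 : ℝ) ≤ ‖cutOp n k‖ := by
    have h2 := rep_norm_le A hA π ⟨cutOp n k, cutOp_mem A hA hk n⟩
    have h3 := (π ⟨cutOp n k, cutOp_mem A hA hk n⟩).le_opNorm η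
    rw [rep_cutOp_fix A hA hk hk0 n π hkη] at h3
    have h4 : 0 < ‖η‖ := norm_pos_iff.2 hη
    have h5 : (1 : ℝ) ≤ ‖π ⟨cutOp n k, cutOp_mem A hA hk n⟩‖ := by
      by_contra hlt
      push Not at hlt
      (clear P hP hk0 hkη ε hε hn h2; nlinarith)
    exact h5.trans h2
  obtain ⟨x, hx⟩ : ∃ x : H, (1 / 2 : ℝ) * ‖x‖ < ‖cutOp n k x‖ := by
    by_contra hcon
    push Not at hcon
    have := (cutOp n k).opNorm_le_bound (by norm_num) hcon
    (clear P hP ε hε hn; linarith)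
  refine ⟨cutOp n k x, ?_, ?_⟩
  · intro h0
    rw [h0, norm_zero] at hx
    have := norm_nonneg x
    linarith only [hx, this]
  · have h6 : ‖k (cutOp n k x)‖ ≤ (1 / 2) ^ n * ‖x‖ := by
      have h7 : k (cutOp n k x) = (k * cutOp n k) x := rfl
      rw [h7]
      exact (k * cutOp n k).le_of_opNorm_le (norm_mul_cutOp_le n hk0) x
    have h8 := norm_nonneg x
    (clear P hP hk π η hη hkη h1; nlinarith)

/-- Step 5: every irreducible representation that factors through the cyclic representation of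
the limit algebra has a nonzero vector killed by `k0`. -/
theorem exists_ker_of_irred {H K : Type u}
    [NormedAddCommGroup H] [InnerProductSpace ℂ H] [CompleteSpace H]
    [NormedAddCommGroup K] [InnerProductSpace ℂ K] [CompleteSpace K]
    {ι : Type w} [LinearOrder ι] [WellFoundedLT ι] {P : Op H →⋆ₐ[ℂ] Op K}
    {A0 : StarSubalgebra ℂ (Op H)} {k0 U : Op H} {k u : ι → Op H}
    (hB : IsBase A0 k0 U) (hP : IsUltraRep P) (T : IsTower P A0 k0 U k u)
    (hmax : ¬ ∃ k' u', Good P k0 U (gen A0 u Set.univ) k' u')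
    {ξ : K} (hξ : ‖ξ‖ = 1) (hξk : P k0 ξ = 0)
    {L : Type*} [NormedAddCommGroup L] [InnerProductSpace ℂ L] [CompleteSpace L] [Nontrivial L]
    (π : gen A0 u Set.univ →⋆ₐ[ℂ] Op L)
    (hirr : ∀ V : Submodule ℂ L, IsClosed (V : Set L) → (∀ a, ∀ x ∈ V, π a x ∈ V) →
      V = ⊥ ∨ V = ⊤)
    (hfac : ∀ a : gen A0 u Set.univ,
      (∀ b : gen A0 u Set.univ, P (a : Op H) (P (b : Op H) ξ) = 0) → π a = 0) :
    ∃ y : L, y ≠ 0 ∧ π ⟨k0, le_gen A0 u _ hB.k_mem⟩ y = 0 := by
  obtain ⟨y, hy⟩ := exists_ne (0 : L)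
  set η : L := ((‖y‖⁻¹ : ℝ) : ℂ) • y with hηdef
  have hη : ‖η‖ = 1 := by rw [hηdef, norm_smul]; simp [hy]
  have hη0 : η ≠ 0 := by
    intro h
    rw [h, norm_zero] at hη
    exact zero_ne_one hη
  have hcl := gen_isClosed A0 u Set.univ
  obtain ⟨κ, hκ0, hκ1, hκη, hκd⟩ := reflect hB.closed hB.countable T π hirr η hη
  have hk0A : k0 ∈ gen A0 u Set.univ := le_gen A0 u _ hB.k_mem
  have hκmem : (κ : Op H) ∈ gen A0 u Set.univ := κ.2
  by_cases hI : Ineq P k0 (κ : Op H) (gen A0 u Set.univ)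
  · exfalso
    apply hmax
    -- everything is in the commutant of U
    have hcent : gen A0 u Set.univ ≤ StarSubalgebra.centralizer ℂ {U} := by
      refine gen_le A0 u ?_ hB.le_centralizer fun i _ => (T.good i).u_comm
      rw [StarSubalgebra.coe_centralizer]
      exact Set.isClosed_centralizer _
    -- injectivity on H
    obtain ⟨j, hj1, hj2⟩ := exists_const hP
    have hj0 : ∀ x : H, j x = 0 → x = 0 := by
      intro x hx
      have := hj1 x x
      rw [hx, inner_zero_left] at this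
      exact inner_self_eq_zero.1 this.symm
    have hj00 : j 0 = 0 := by
      have := hj1 0 0
      rw [inner_zero_left] at this
      exact inner_self_eq_zero.1 this
    have inj : ∀ κ' : Op H, κ' ∈ gen A0 u Set.univ → Det P κ' (gen A0 u Set.univ) →
        ∀ x : H, κ' x = 0 → x = 0 := by
      intro κ' hκ' hd
      refine hB.inj κ' (hcent hκ') ?_
      intro a ha
      obtain ⟨c, hc⟩ := hd a (le_gen A0 u _ ha)
      refine ⟨c, fun z w hz hw => ?_⟩
      have := hc (j z) (j w) (by rw [hj2, hz, hj00]) (by rw [hj2, hw, hj00])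
      rw [hj2, hj1, hj1] at this
      exact this
    have hdet0 := tower_det0 hB.closed T
    obtain ⟨ζ, hζ, hζk⟩ := exists_ker_of_rep hP _ hcl hκmem hκ0 π hη0 hκη
    have hζ0 : ζ ≠ 0 := by
      intro h
      rw [h, norm_zero] at hζ
      exact zero_ne_one hζ
    have C : Conf P (gen A0 u Set.univ) k0 (κ : Op H) ξ ζ :=
      { k1_mem := hk0A
        k2_mem := hκmem
        k1_nonneg := hB.k_nonneg
        k2_nonneg := hκ0
        k1_norm := hB.k_norm
        k2_norm := hκ1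
        det1 := hdet0
        det2 := hκd
        ineq := hI
        ξ_norm := hξ
        ζ_norm := hζ
        ξ_ker := hξk
        ζ_ker := hζk
        full1 := by
          intro n
          by_contra hcon
          push Not at hcon
          have h1 := hfac ⟨cutOp n (κ : Op H), cutOp_mem _ hcl hκmem n⟩
            (fun b => hcon b b.2)
          have h2 := rep_cutOp_fix _ hcl hκmem hκ0 n π hκη
          rw [h1, zero_apply] at h2
          exact hη0 h2.symm
        full2 := by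
          intro n
          obtain ⟨b, hb, hb1, hb2⟩ := hB.full K P ζ hζ0 ((1 / 2) ^ (n + 2)) (by positivity)
          refine ⟨b, le_gen A0 u _ hb, ?_⟩
          intro h0
          obtain ⟨g, hg, h1, h2⟩ := exists_one_sub_cutOp _ hcl hk0A hB.k_nonneg n
          have h3 : P b ζ = P g (P k0 (P b ζ)) := by
            have : P (1 - cutOp n k0) (P b ζ) = P b ζ := by
              rw [map_sub, map_one, sub_apply, one_apply_eq_self, h0, sub_zero]
            conv_lhs => rw [← this, h1, map_mul, mul_apply_eq_comp]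
          have h4 : ‖P b ζ‖ ≤ 2 ^ (n + 1) * ((1 / 2) ^ (n + 2) * ‖P b ζ‖) := by
            conv_lhs => rw [h3]
            refine ((P g).le_opNorm _).trans ?_
            have h5 : ‖P g‖ ≤ 2 ^ (n + 1) :=
              (NonUnitalStarAlgHom.norm_apply_le P g).trans h2
            (clear U k hB hP T hmax ξ hξ hξk π hirr hfac y hy η hηdef hη hη0 κ hκ0 hκ1 hκη hκd hk0A hκmem hI hcent j hj1 hj2 hj0 hj00 inj hdet0 hζ hζk hζ0 hb hb1 h0 hg h1 h3; gcongr)
          have h6 : (2 : ℝ) ^ (n + 1) * ((1 / 2) ^ (n + 2) * ‖P b ζ‖) = 1 / 2 * ‖P b ζ‖ := by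
            rw [← mul_assoc]
            congr 1
            rw [one_div, inv_pow, pow_succ 2 (n + 1)]
            field_simp
          rw [h6] at h4
          have h7 : 0 < ‖P b ζ‖ := norm_pos_iff.2 hb1
          (clear k0 U k hB hP T hmax ξ hξ hξk π hirr hfac y hy η hηdef hη hη0 κ hκ0 hκ1 hκη hκd hk0A hκmem hI hcent j hj1 hj2 hj0 hj00 inj hdet0 hζ hζk hζ0 n hb hb2 h0 g hg h1 h2 h3 h6; linarith) }
    obtain ⟨u', hu', huk, _, hcomm, hm, hm'⟩ := key_construction hP _ hcl C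
      (inj k0 hk0A hdet0) (inj κ hκmem hκd)
    refine ⟨κ, u', ?_⟩
    exact
      { k_mem := hκmem
        k_nonneg := hκ0
        det := hκd
        ineq := hI
        u_unitary := hu'
        u_comm := by
          rw [StarSubalgebra.mem_centralizer_iff]
          intro g hg
          rw [Set.mem_singleton_iff] at hg
          subst hg
          constructor
          · refine hcomm _ fun a ha => ?_
            exact ((StarSubalgebra.mem_centralizer_iff ℂ).1 (hcent ha) _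
              (Set.mem_singleton _)).1
          · refine hcomm _ fun a ha => ?_
            exact ((StarSubalgebra.mem_centralizer_iff ℂ).1 (hcent ha) _
              (Set.mem_singleton _)).2
        uk_mem := huk
        map := hm
        map' := hm' }
  · exact step5 hP _ hcl hk0A hκmem hB.k_nonneg hκ0 hκd hI π η hη hκη

end

end Vale.Agent.P070
end
end

section

section

namespace Vale.Agent.P070

open scoped InnerProductSpace
open Filter Topology

universe u v w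

/-- The full result: existence of a unital infinite-dimensional C*-algebra with property (N). -/
theorem main_exists : ∃ (B : Type) (_ : CStarAlgebra B), PropertyN.{0, v} B ∧
    ¬ IsCompacts.{0, w} B ∧ ¬ FiniteDimensional ℂ B ∧
    ∃ (L : Type) (_ : NormedAddCommGroup L) (_ : InnerProductSpace ℂ L) (_ : CompleteSpace L)
      (π : B →⋆ₙₐ[ℂ] (L →L[ℂ] L)), IsIrred π ∧ Function.Injective π := by
  obtain ⟨H, _, _, _, _, A0, k0, U, hB⟩ := exists_base
  obtain ⟨K, _, _, _, P, hP⟩ := exists_ultraRep H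
  obtain ⟨ξ, hξ, hξk⟩ : ∃ z : K, ‖z‖ = 1 ∧ P k0 z = 0 := by
    refine exists_ker hP fun ε hε => ?_
    obtain ⟨x, hx⟩ := exists_ne (0 : H)
    obtain ⟨b, _, hb1, hb2⟩ := hB.full H (StarAlgHom.id ℂ (Op H)) x hx ε hε
    exact ⟨b x, hb1, hb2⟩
  have hξ0 : ξ ≠ 0 := by
    intro h
    rw [h, norm_zero] at hξ
    exact zero_ne_one hξ
  obtain ⟨ι, _, _, k, u, T, hmax⟩ := exists_maximal_tower P A0 k0 U hB.k_mem hB.k_nonneg
    (hB.det K P) ⟨ξ, hξk, hξ0⟩
  have hcl := gen_isClosed A0 u Set.univ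
  have hdet0 := tower_det0 hB.closed T
  have hk0A : k0 ∈ gen A0 u Set.univ := le_gen A0 u _ hB.k_mem
  obtain ⟨Kf, _, _, _, ρ, j, x, hjx, hj, hdense⟩ := exists_cyclic P (gen A0 u Set.univ) ξ
  have hx1 : ‖x‖ = 1 := by rw [← hξ, ← hjx, j.norm_map]
  have hx0 : x ≠ 0 := by
    intro h
    rw [h, norm_zero] at hx1
    exact zero_ne_one hx1
  -- the algebra
  set B : StarSubalgebra ℂ (Op Kf) := ρ.range.topologicalClosure with hBdef
  have hBcl : IsClosed (B : Set (Op Kf)) := StarSubalgebra.isClosed_topologicalClosure _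
  have hρB : ∀ a, ρ a ∈ B := fun a => StarSubalgebra.le_topologicalClosure _ ⟨a, rfl⟩
  let q : gen A0 u Set.univ →⋆ₐ[ℂ] B := StarAlgHom.codRestrict ρ B hρB
  have hq : ∀ a, ((q a : B) : Op Kf) = ρ a := fun a => rfl
  have hqd : DenseRange q := by
    intro b
    rw [closure_subtype]
    have h1 : ((b : B) : Op Kf) ∈ closure (ρ.range : Set (Op Kf)) := b.2
    refine closure_mono ?_ h1
    rintro _ ⟨a, rfl⟩
    exact ⟨q a, ⟨a, rfl⟩, rfl⟩
  let _ : CStarAlgebra B := StarSubalgebra.cstarAlgebra B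
  have hcont : ∀ {L : Type v} [NormedAddCommGroup L] [InnerProductSpace ℂ L] [CompleteSpace L]
      (π : B →⋆ₐ[ℂ] (L →L[ℂ] L)) (z : L), Continuous fun b => π b z := by
    intro L _ _ _ π z
    have : Continuous π := AddMonoidHomClass.continuous_of_bound π 1 (by
      simpa only [one_mul] using NonUnitalStarAlgHom.norm_apply_le π)
    exact (ContinuousLinearMap.apply ℂ L z).continuous.comp this
  have hBnt : Nontrivial B := by
    refine ⟨⟨0, 1, ?_⟩⟩
    intro h
    have h1 : ((0 : B) : Op Kf) x = ((1 : B) : Op Kf) x := by rw [h]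
    exact hx0 h1.symm
  set κ : B := q ⟨k0, hk0A⟩ with hκ
  -- constants
  have hc : ∀ a : gen A0 u Set.univ, DetAt P k0 (a : Op H) ⟪x, ρ a x⟫_ℂ := by
    intro a
    obtain ⟨c, hc⟩ := hdet0 a a.2
    have h1 := hc ξ ξ hξk hξk
    have h2 : ⟪ξ, ξ⟫_ℂ = 1 := by rw [inner_self_eq_norm_sq_to_K, hξ]; norm_num
    rw [h2, mul_one] at h1
    have h3 : ⟪x, ρ a x⟫_ℂ = c := by
      rw [← h1, ← j.inner_map_map, hj, hjx]
    rw [h3]
    exact hc
  have hinf : ¬ FiniteDimensional ℂ B := by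
    intro hfin
    obtain ⟨e, he, ho⟩ := hB.infinite K P ξ hξ hξk
    have hli : LinearIndependent ℂ (fun n : ℕ => P (e n) ξ) := ho.linearIndependent
    let f : B →ₗ[ℂ] K :=
      { toFun := fun b => j ((b : Op Kf) x)
        map_add' := fun a b => by
          show j (((a : Op Kf) + (b : Op Kf)) x) = _
          rw [add_apply, map_add]
        map_smul' := fun r b => by
          show j ((r • (b : Op Kf)) x) = _
          rw [smul_apply, map_smul]
          rfl }
    have hfe : ∀ n, f (q ⟨e n, le_gen A0 u _ (he n)⟩) = P (e n) ξ := by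
      intro n
      show j (ρ ⟨e n, le_gen A0 u _ (he n)⟩ x) = P (e n) ξ
      rw [hj, hjx]
    have hli2 : LinearIndependent ℂ (fun n : ℕ => q ⟨e n, le_gen A0 u _ (he n)⟩) := by
      refine LinearIndependent.of_comp f ?_
      have : (f ∘ fun n : ℕ => q ⟨e n, le_gen A0 u _ (he n)⟩) = fun n : ℕ => P (e n) ξ :=
        funext hfe
      rw [this]
      exact hli
    exact Module.Finite.not_linearIndependent_of_infinite _ hli2
  refine ⟨B, inferInstance, ?_, not_isCompacts hinf, hinf, ?_⟩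
  · -- property (N)
    refine propertyN_of_determined κ (fun b => ⟪x, (b : Op Kf) x⟫_ℂ) ?_ ?_
    · intro L _ _ _ π b z w hz hw
      refine hqd.induction_on (p := fun b => ⟪w, π b z⟫_ℂ =
        ⟪x, ((b : B) : Op Kf) x⟫_ℂ * ⟪w, z⟫_ℂ) b ?_ ?_
      · refine isClosed_eq (continuous_const.inner (hcont π z)) ?_
        refine Continuous.mul ?_ continuous_const
        refine continuous_const.inner ?_
        exact (ContinuousLinearMap.apply ℂ Kf x).continuous.comp continuous_subtype_val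
      · intro a
        exact det_transfer hP _ hcl hk0A hB.k_nonneg (hc a) (π.comp q) z w hz hw
    · intro L _ _ _ π hL hirr
      refine exists_ker_of_irred hB hP T hmax hξ hξk (π.comp q) ?_ ?_
      · intro V hV hinv
        refine hirr V hV ?_
        intro b y hy
        refine hqd.induction_on (p := fun b => π b y ∈ V) b ?_ ?_
        · exact hV.preimage (hcont π y)
        · intro a
          exact hinv a y hy
      · intro a ha
        have h1 : ρ a = 0 := by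
          ext y
          refine hdense.induction_on (p := fun y => ρ a y = (0 : Op Kf) y) y ?_ ?_
          · exact isClosed_eq (ρ a).continuous continuous_const
          · intro b
            apply j.injective
            rw [hj, hj, hjx, ha b]
            simp
        have h2 : q a = 0 := Subtype.ext h1
        show π (q a) = 0
        rw [h2, map_zero]
  · -- the identity representation
    let ρ' : B →⋆ₙₐ[ℂ] (Kf →L[ℂ] Kf) :=
      { toFun := fun b => (b : Op Kf)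
        map_smul' := fun _ _ => rfl
        map_zero' := rfl
        map_add' := fun _ _ => rfl
        map_mul' := fun _ _ => rfl
        map_star' := fun _ => rfl }
    refine ⟨Kf, inferInstance, inferInstance, inferInstance, ρ', ?_, Subtype.val_injective⟩
    have hjk : ∀ z : Kf, ρ' κ z = 0 → P k0 (j z) = 0 := by
      intro z hz
      have h1 : j (ρ ⟨k0, hk0A⟩ z) = P k0 (j z) := hj _ _
      rw [← h1]
      have h2 : ρ ⟨k0, hk0A⟩ z = 0 := hz
      rw [h2, map_zero]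
    refine irred_of_determined ρ' κ x hx0 ?_ ?_ ?_
    · show ρ ⟨k0, hk0A⟩ x = 0
      apply j.injective
      rw [hj, hjx, hξk, map_zero]
    · refine hdense.mono ?_
      rintro _ ⟨a, rfl⟩
      exact ⟨q a, rfl⟩
    · intro b
      refine ⟨⟪x, (b : Op Kf) x⟫_ℂ, fun z w hz hw => ?_⟩
      refine hqd.induction_on (p := fun b => ⟪w, ((b : B) : Op Kf) z⟫_ℂ =
        ⟪x, ((b : B) : Op Kf) x⟫_ℂ * ⟪w, z⟫_ℂ) b ?_ ?_
      · refine isClosed_eq (continuous_const.inner ?_) ?_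
        · exact (ContinuousLinearMap.apply ℂ Kf z).continuous.comp continuous_subtype_val
        · refine Continuous.mul ?_ continuous_const
          refine continuous_const.inner ?_
          exact (ContinuousLinearMap.apply ℂ Kf x).continuous.comp continuous_subtype_val
      · intro a
        have h1 := hc a (j z) (j w) (hjk z hz) (hjk w hw)
        rw [← hj, j.inner_map_map, j.inner_map_map] at h1
        exact h1

end Vale.Agent.P070
end
end

section

section

namespace Vale.Agent.P070.Naimark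

universe v w

theorem main : ∃ (A : Type) (_ : CStarAlgebra A),
    PropertyN.{0, v} A ∧ ¬ IsCompacts.{0, w} A ∧
    ¬ FiniteDimensional ℂ A ∧ HasFaithfulIrrep.{0, 0} A := by
  obtain ⟨B, _, hN, hC, hF, L, _, _, _, π, hπ, hinj⟩ := main_exists.{v, w}
  have conv : ∀ {M : Type v} [NormedAddCommGroup M] [InnerProductSpace ℂ M] [CompleteSpace M]
      (σ : Rep B M), IsIrred σ → Vale.Agent.P070.IsIrred (A := B) (L := M) σ := by
    intro M _ _ _ σ hσ
    refine ⟨?_, hσ.2⟩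
    obtain ⟨a, x, hax⟩ := hσ.1
    refine ⟨a, fun h => hax ?_⟩
    have h1 : Rep.op σ a = 0 := h
    rw [h1]
    rfl
  refine ⟨B, inferInstance, ⟨hN.1, ?_⟩, ?_, hF, L, inferInstance, inferInstance, inferInstance,
    π, hinj, ?_, hπ.2⟩
  · intro L M _ _ _ _ _ _ π σ hπ hσ
    exact hN.2 L M π σ (conv π hπ) (conv σ hσ)
  · rintro ⟨L, _, _, _, f, h1, h2⟩
    refine hC ⟨L, inferInstance, inferInstance, inferInstance, f, h1, ?_⟩
    ext T
    exact (h2 T).symm
  · obtain ⟨a, ha⟩ := hπ.1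
    by_contra hcon
    push Not at hcon
    apply ha
    ext x
    exact hcon a x

end Vale.Agent.P070.Naimark
end
end
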